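import Vale.Agent.P199.K.HS.Cut

/-!
P199, START: multidegrees seen through a ring homomorphism killing the degrees of some variables:
primes meeting the polynomials in these variables die, and a local equality gives an equality of
classes.
-/

namespace Vale.Agent.P199.K.Start

open MvPolynomial
open Vale.Agent.P199.K.Cut
open scoped BigOperators

variable {σ ι : Type} [Fintype σ] [Fintype ι] (w : σ → ι →₀ ℕ)

/-! ### One variable inside a prime -/

/-- The inclusion of the ring without one variable. -/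
noncomputable def addVar (v : σ) :
    MvPolynomial {u // u ≠ v} ℂ →ₐ[ℂ] MvPolynomial σ ℂ :=
  rename Subtype.val

open Classical in
/-- Setting one variable to zero. -/
noncomputable def dropVar (v : σ) :
    MvPolynomial σ ℂ →ₐ[ℂ] MvPolynomial {u // u ≠ v} ℂ :=
  aeval fun u => if h : u = v then 0 else X ⟨u, h⟩

omit [Fintype σ] in
theorem dropVar_addVar (v : σ) (f : MvPolynomial {u // u ≠ v} ℂ) :
    dropVar v (addVar v f) = f := by
  have : (dropVar v).comp (addVar v) = AlgHom.id ℂ _ := algHom_ext fun u => by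
    simp [dropVar, addVar, u.2]
  exact congrArg (fun F => F f) (congrArg DFunLike.coe this)

omit [Fintype σ] in
theorem retract_var {v : σ} {I : Ideal (MvPolynomial σ ℂ)} (hv : X v ∈ I) (u : σ) :
    addVar v (dropVar v (X u)) - X u ∈ I := by
  by_cases h : u = v
  · subst h
    simp only [dropVar, aeval_X, dite_true, map_zero, zero_sub]
    exact I.neg_mem hv
  · simp [dropVar, addVar, h]

/-- The class of a prime containing a variable, in the ring without it. -/
theorem var_split [DecidableEq σ] (hcore : CorePin) (hw : ∀ v, w v ≠ 0)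
    {P : Ideal (MvPolynomial σ ℂ)} [P.IsPrime] (hP : IsHom w P) (v : σ) (hv : X v ∈ P) :
    (P.comap (addVar v)).IsPrime ∧ IsHom (fun u : {u // u ≠ v} => w u.1) (P.comap (addVar v)) ∧
      lowZ w P = linZ (w v) * lowZ (fun u : {u // u ≠ v} => w u.1) (P.comap (addVar v)) ∧
      codim P = 1 + codim (P.comap (addVar v)) := by
  classical
  set w' : {u // u ≠ v} → ι →₀ ℕ := fun u => w u.1 with hw'
  have hψ : ∀ u, IsWeightedHomogeneous w (addVar v (X u)) (w' u) := fun u => by
    rw [addVar, rename_X]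
    exact isWeightedHomogeneous_X ℂ w u.1
  have hφ : ∀ u, IsWeightedHomogeneous w' (dropVar v (X u)) (w u) := fun u => by
    simp only [dropVar, aeval_X]
    split
    · exact isWeightedHomogeneous_zero ℂ w' _
    · rename_i h
      exact isWeightedHomogeneous_X ℂ w' ⟨u, h⟩
  set J := P.comap (addVar v) with hJdef
  have hJP : J.comap (dropVar v) = P :=
    retract_mem (dropVar v) (addVar v) P (retract_var hv)
  have hJp : J.IsPrime := Ideal.comap_isPrime (addVar v) P
  have hJ : IsHom w' J := isHom_comap w' w (addVar v) hψ hP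
  have hser : ser w P = ser w' J := funext fun d => by
    show (hilb w P d : ℤ) = (hilb w' J d : ℤ)
    rw [← hilb_comap w w' (dropVar v) (addVar v) hw hφ hψ (dropVar_addVar v) J d, hJP]
  have hw'0 : ∀ u, w' u ≠ 0 := fun u => hw u.1
  obtain ⟨hK, -, -⟩ := hcore σ ι w hw
  obtain ⟨hK', -, hlow'⟩ := hcore {u // u ≠ v} ι w' hw'0
  have hden : den w = (1 - monomial (w v) 1) * den w' := Fintype.prod_eq_mul_prod_subtype_ne _ v
  have hk : kpoly w P = (1 - monomial (w v) 1) * kpoly w' J := by
    refine kpoly_unique w (hK P hP) ?_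
    unfold IsK
    rw [MvPolynomial.coe_mul, hK' J hJ, hser, hden, MvPolynomial.coe_mul]
    ring
  have htr : tr P = tr J := by rw [← tr_comap (dropVar v) (addVar v) (dropVar_addVar v) J, hJP]
  have hc : codim P = 1 + codim J := by
    have hcard : Fintype.card {u // u ≠ v} = Fintype.card σ - 1 := by simp
    have := tr_le J
    have : 0 < Fintype.card σ := Fintype.card_pos_iff.2 ⟨v⟩
    rw [codim_eq, codim_eq, htr]
    omega
  refine ⟨hJp, hJ, ?_, hc⟩
  rw [lowZ, kshift_eq_mul w w' hk, hc,
    (Prod.component_mul _ _ 1 _ (one_sub_sh (w v)).1 (hlow' J hJp hJ).1).2, (one_sub_sh (w v)).2]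
  rfl

/-! ### Primes meeting the polynomials of weight zero -/

omit [Fintype σ] in
/-- Setting a variable to zero keeps weight zero. -/
theorem dropVar_weight_zero (ν : σ → ℕ) (v : σ) {f : MvPolynomial σ ℂ}
    (hf : IsWeightedHomogeneous ν f 0) :
    IsWeightedHomogeneous (fun u : {u // u ≠ v} => ν u.1) (dropVar v f) 0 := by
  classical
  induction hf using IsWeightedHomogeneous.induction_on with
  | zero => rw [map_zero]; exact isWeightedHomogeneous_zero ℂ _ _
  | add p q _ _ hp hq => rw [map_add]; exact hp.add hq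
  | monomial m r hm =>
    rw [monomial_eq, map_mul, Finsupp.prod, map_prod]
    have h := (isWeightedHomogeneous_C (fun u : {u // u ≠ v} => ν u.1) r).mul
      (IsWeightedHomogeneous.prod m.support (fun u => dropVar v (X u ^ m u)) (fun _ => 0)
        fun u hu => ?_)
    · rw [zero_add, Finset.sum_const_zero] at h
      rwa [show dropVar v (C r) = C r from (dropVar v).commutes r]
    · have hν : ν u = 0 := by
        by_contra hne
        have := Finsupp.le_weight_of_ne_zero (w := ν) (fun _ => Nat.zero_le _)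
          (Finsupp.mem_support_iff.1 hu)
        omega
      have hX : IsWeightedHomogeneous (fun u : {u // u ≠ v} => ν u.1) (dropVar v (X u)) 0 := by
        simp only [dropVar, aeval_X]
        split
        · exact isWeightedHomogeneous_zero ℂ _ _
        · rename_i h
          simpa [hν] using isWeightedHomogeneous_X ℂ (fun u : {u // u ≠ v} => ν u.1) ⟨u, h⟩
      rw [map_pow]
      simpa using hX.pow (m u)

omit [Fintype σ] in
/-- A nonzero element of weight zero of a prime survives setting to zero a variable outside it. -/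
theorem exists_not_dvd (ν : σ → ℕ) {v : σ} (hν : ν v = 0) {T : Ideal (MvPolynomial σ ℂ)}
    [T.IsPrime] (hv : X v ∉ T) {δ : MvPolynomial σ ℂ} (hδT : δ ∈ T) (hδ0 : δ ≠ 0)
    (hδ : IsWeightedHomogeneous ν δ 0) :
    ∃ δ' ∈ T, IsWeightedHomogeneous ν δ' 0 ∧ dropVar v δ' ≠ 0 := by
  induction hn : δ.totalDegree using Nat.strong_induction_on generalizing δ with
  | _ n ih =>
    by_cases h : dropVar v δ = 0
    · have hmem : δ ∈ Ideal.span {(X v : MvPolynomial σ ℂ)} := by
        have hr := retract_mem (dropVar v) (addVar v) (Ideal.span {(X v : MvPolynomial σ ℂ)})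
          (retract_var (Ideal.mem_span_singleton_self _))
        rw [← hr, Ideal.mem_comap, h]
        exact Ideal.zero_mem _
      obtain ⟨f, rfl⟩ := Ideal.mem_span_singleton'.1 hmem
      have hf0 : f ≠ 0 := left_ne_zero_of_mul hδ0
      have hfT : f ∈ T := (Ideal.IsPrime.mem_or_mem ‹_› hδT).resolve_right hv
      have hf : IsWeightedHomogeneous ν f 0 := by
        intro m hm
        have hc : coeff (m + Finsupp.single v 1) (f * X v) ≠ 0 := by
          rwa [coeff_mul_X]
        have := hδ hc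
        rwa [map_add, Finsupp.weight_single, hν, smul_zero, add_zero] at this
      refine ih f.totalDegree ?_ hfT hf0 hf rfl
      rw [← hn, totalDegree_mul_of_isDomain hf0 (X_ne_zero v), totalDegree_X]
      omega
    · exact ⟨δ, hδT, hδ, h⟩

variable {A : Type} [CommRing A] (Φ : MvPolynomial ι ℤ →+* A)

/-- A prime containing a nonzero polynomial in variables whose degrees die has a dead class. -/
theorem meets (hcore : CorePin) : ∀ (σ : Type) [Fintype σ] (w : σ → ι →₀ ℕ), (∀ v, w v ≠ 0) →
    ∀ ν : σ → ℕ, (∀ v, ν v = 0 → Φ (linZ (w v)) = 0) →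
    ∀ T : Ideal (MvPolynomial σ ℂ), T.IsPrime → IsHom w T →
    ∀ δ : MvPolynomial σ ℂ, δ ∈ T → δ ≠ 0 → IsWeightedHomogeneous ν δ 0 →
      Φ (lowZ w T) = 0 := by
  classical
  intro σ _
  induction hn : Fintype.card σ using Nat.strong_induction_on generalizing σ with
  | _ n ih =>
    intro w hw ν hΦ T hT hTh δ hδT hδ0 hδ
    have := hT
    obtain ⟨v, hν⟩ : ∃ v, ν v = 0 := by
      by_contra hne
      push Not at hne
      have hC : δ = C (coeff 0 δ) := by
        ext m
        rw [coeff_C]
        split_ifs with h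
        · rw [h]
        · by_contra hc
          obtain ⟨u, hu⟩ := Finsupp.ne_iff.1 (Ne.symm h)
          have h1 : Finsupp.weight ν m = 0 := hδ hc
          have h2 := Finsupp.le_weight_of_ne_zero (w := ν) (fun _ => Nat.zero_le _) hu
          have := hne u
          omega
      have h0 : coeff 0 δ ≠ 0 := fun h => hδ0 (by rw [hC, h, map_zero])
      refine hT.ne_top (Ideal.eq_top_of_isUnit_mem T hδT ?_)
      rw [hC]
      exact (Ne.isUnit h0).map C
    by_cases hv : X v ∈ T
    · rw [(var_split w hcore hw hTh v hv).2.2.1, map_mul, hΦ v hν, zero_mul]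
    · obtain ⟨δ', hδ'T, hδ', hδ'0⟩ := exists_not_dvd ν hν hv hδT hδ0 hδ
      obtain ⟨l, hl, hsum⟩ := expandZ w hcore hw hTh (isWeightedHomogeneous_X ℂ w v) hv
      let low' := fun Q : Ideal (MvPolynomial σ ℂ) =>
        lowZ (fun u : {u // u ≠ v} => w u.1) (Q.comap (addVar v))
      have hfac : (l.map (lowZ w)).sum = linZ (w v) * (l.map low').sum := by
        rw [← List.sum_map_mul_left]
        refine congrArg List.sum (List.map_congr_left fun Q hQ => ?_)
        obtain ⟨hQp, hQh, -, hvQ, -⟩ := hl Q hQ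
        have := hQp
        exact (var_split w hcore hw hQh v hvQ).2.2.1
      rw [hfac] at hsum
      rw [mul_left_cancel₀ (linZ_ne_zero _ (hw v)) hsum, map_list_sum, List.map_map]
      refine List.sum_eq_zero fun x hx => ?_
      obtain ⟨Q, hQ, rfl⟩ := List.mem_map.1 hx
      obtain ⟨hQp, hQh, hTQ, hvQ, -⟩ := hl Q hQ
      have := hQp
      obtain ⟨hp', hh', -, -⟩ := var_split w hcore hw hQh v hvQ
      refine ih _ ?_ {u // u ≠ v} rfl (fun u => w u.1) (fun u => hw u.1) (fun u => ν u.1)
        (fun u => hΦ u.1) _ hp' hh' _ ?_ hδ'0 (dropVar_weight_zero ν v hδ')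
      · rw [← hn]
        exact Fintype.card_subtype_lt (p := fun u => u ≠ v) (x := v) (fun h => h rfl)
      · rw [Ideal.mem_comap, ← Ideal.mem_comap, ← Ideal.mem_comap]
        have := retract_mem (dropVar v) (addVar v) Q (retract_var hvQ)
        rw [this]
        exact hTQ hδ'T

/-! ### Quotients by one more equation -/

/-- The colon ideal of one element. -/
noncomputable def col (I : Ideal (MvPolynomial σ ℂ)) (g : MvPolynomial σ ℂ) : Ideal (MvPolynomial σ ℂ) :=
  Submodule.comap (LinearMap.mulLeft (MvPolynomial σ ℂ) g) I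

omit [Fintype σ] in
theorem mem_col {I : Ideal (MvPolynomial σ ℂ)} {g h : MvPolynomial σ ℂ} :
    h ∈ col I g ↔ g * h ∈ I := Iff.rfl

omit [Fintype σ] [Fintype ι] in
theorem col_isHom {I : Ideal (MvPolynomial σ ℂ)} (hI : IsHom w I) {g : MvPolynomial σ ℂ}
    {d : ι →₀ ℕ} (hg : IsWeightedHomogeneous w g d) : IsHom w (col I g) := by
  classical
  intro f hf e
  rw [mem_col] at hf ⊢
  have := hI _ hf (d + e)
  rwa [comp_mul w hg f, if_pos le_self_add, add_tsub_cancel_left] at this

omit [Fintype ι] in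
open Classical in
theorem hilb_col (hw : ∀ v, w v ≠ 0) {I : Ideal (MvPolynomial σ ℂ)} (hI : IsHom w I)
    {g : MvPolynomial σ ℂ} {d : ι →₀ ℕ} (hg : IsWeightedHomogeneous w g d) (e : ι →₀ ℕ) :
    hilb w (I ⊔ Ideal.span {g}) e + (if d ≤ e then hilb w (col I g) (e - d) else 0) =
      hilb w I e := by
  have := Gr.finite_piece w hw e
  set S := weightedHomogeneousSubmodule ℂ w e
  set KP : Submodule ℂ S := (I.restrictScalars ℂ).comap S.subtype with hKP
  set KI : Submodule ℂ S := ((I ⊔ Ideal.span {g}).restrictScalars ℂ).comap S.subtype with hKI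
  have hle : KP ≤ KI := Submodule.comap_mono fun x hx => Ideal.mem_sup_left hx
  have hsplit : Module.finrank ℂ (S ⧸ KI) + Module.finrank ℂ (KI.map KP.mkQ) =
      Module.finrank ℂ (S ⧸ KP) := by
    rw [← (Submodule.quotientQuotientEquivQuotient KP KI hle).finrank_eq]
    exact Submodule.finrank_quotient_add_finrank _
  unfold hilb
  rw [← hKP, ← hKI, ← hsplit]
  congr 1
  have hzero : ∀ f : S, ∀ a ∈ I, weightedHomogeneousComponent w e f.1 = a → KP.mkQ f = 0 := by
    intro f a ha h
    refine (Submodule.Quotient.mk_eq_zero _).2 ?_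
    show f.1 ∈ I
    rw [← weightedHomogeneousComponent_eq_self (w := w) f.2, h]
    exact ha
  by_cases hde : d ≤ e
  · rw [if_pos hde]
    have hmem : ∀ x : weightedHomogeneousSubmodule ℂ w (e - d), g * x.1 ∈ S := fun x => by
      have := hg.mul x.2
      rwa [add_tsub_cancel_of_le hde] at this
    let μ₀ : weightedHomogeneousSubmodule ℂ w (e - d) →ₗ[ℂ] S :=
      LinearMap.codRestrict S ((LinearMap.mulLeft ℂ g).comp
        (weightedHomogeneousSubmodule ℂ w (e - d)).subtype) hmem
    let μ := KP.mkQ.comp μ₀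
    have hker : LinearMap.ker μ = ((col I g).restrictScalars ℂ).comap
        (weightedHomogeneousSubmodule ℂ w (e - d)).subtype := by
      ext x
      rw [LinearMap.mem_ker]
      exact (Submodule.Quotient.mk_eq_zero _).trans Iff.rfl
    have hrange : LinearMap.range μ = KI.map KP.mkQ := by
      refine le_antisymm ?_ ?_
      · rintro _ ⟨x, rfl⟩
        exact ⟨μ₀ x, Ideal.mem_sup_right (Ideal.mul_mem_right _ _
          (Ideal.mem_span_singleton_self g)), rfl⟩
      · rintro _ ⟨⟨f, hf⟩, hfI, rfl⟩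
        obtain ⟨a, ha, h | ⟨-, h, hh, he⟩⟩ := comp_mem_sup w hI hg hfI e
        · exact ⟨0, by rw [map_zero, hzero ⟨f, hf⟩ a ha h]⟩
        · refine ⟨⟨h, hh⟩, (Submodule.Quotient.eq KP).2 ?_⟩
          show g * h - f ∈ I
          have hf' := weightedHomogeneousComponent_eq_self (w := w) hf
          rw [show g * h - f = -a by
            have h' : f = a + g * h := hf'.symm.trans he
            rw [h']; ring]
          exact I.neg_mem ha
    rw [← hrange, ← hker]
    exact (LinearMap.quotKerEquivRange μ).finrank_eq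
  · rw [if_neg hde]
    have : KI.map KP.mkQ = ⊥ := by
      rw [eq_bot_iff]
      rintro _ ⟨⟨f, hf⟩, hfI, rfl⟩
      obtain ⟨a, ha, h | ⟨hd', -⟩⟩ := comp_mem_sup w hI hg hfI e
      · rw [Submodule.mem_bot]
        exact hzero ⟨f, hf⟩ a ha h
      · exact absurd hd' hde
    rw [this, finrank_bot]

/-- The exact sequence of one more equation. -/
theorem kpoly_col (hcore : CorePin) (hw : ∀ v, w v ≠ 0) {I : Ideal (MvPolynomial σ ℂ)}
    (hI : IsHom w I) {g : MvPolynomial σ ℂ} {d : ι →₀ ℕ} (hg : IsWeightedHomogeneous w g d) :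
    kpoly w I = kpoly w (I ⊔ Ideal.span {g}) + monomial d 1 * kpoly w (col I g) := by
  classical
  obtain ⟨hK, -, -⟩ := hcore σ ι w hw
  refine kpoly_unique w (hK I hI) ?_
  have hser : ser w I = ser w (I ⊔ Ideal.span {g}) +
      MvPowerSeries.monomial d (1 : ℤ) * ser w (col I g) := by
    refine MvPowerSeries.ext fun e => ?_
    rw [map_add, MvPowerSeries.coeff_monomial_mul]
    show (hilb w I e : ℤ) =
      (hilb w _ e : ℤ) + if d ≤ e then 1 * (hilb w (col I g) (e - d) : ℤ) else 0
    rw [← hilb_col w hw hI hg e]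
    push_cast
    split <;> simp
  unfold IsK
  rw [MvPolynomial.coe_add, MvPolynomial.coe_mul, hK _ (isHom_sup w hI hg),
    hK _ (col_isHom w hI hg), hser, MvPolynomial.coe_monomial]
  ring

/-! ### Lowest parts of lists of primes -/

/-- Lowest part of a shifted sum of classes of primes of codimension at least `c`. -/
theorem low_list (hcore : CorePin) (hw : ∀ v, w v ≠ 0)
    (l : List ((ι →₀ ℕ) × Ideal (MvPolynomial σ ℂ)))
    (hl : ∀ x ∈ l, x.2.IsPrime ∧ IsHom w x.2) {c : ℕ} (hc : ∀ x ∈ l, c ≤ codim x.2) :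
    (∀ j < c, homogeneousComponent j (l.map fun x => sh x.1 * kshift w x.2).sum = 0) ∧
    homogeneousComponent c (l.map fun x => sh x.1 * kshift w x.2).sum =
      ((l.filter fun x => codim x.2 = c).map fun x => lowZ w x.2).sum := by
  classical
  obtain ⟨-, -, hlow⟩ := hcore σ ι w hw
  induction l with
  | nil => simp
  | cons x l ih =>
    simp only [List.forall_mem_cons] at hl hc
    obtain ⟨ih0, ihc⟩ := ih hl.2 hc.2
    have hm := Prod.component_mul (sh x.1) (kshift w x.2) 0 (codim x.2) (by simp)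
      (hlow x.2 hl.1.1 hl.1.2).1
    rw [zero_add] at hm
    rw [List.map_cons, List.sum_cons]
    refine ⟨fun j hj => by rw [map_add, hm.1 j (lt_of_lt_of_le hj hc.1), ih0 j hj, add_zero], ?_⟩
    rw [map_add, ihc, List.filter_cons]
    rcases hc.1.lt_or_eq with hlt | heq
    · rw [hm.1 c hlt, zero_add, if_neg (by simp; omega)]
    · subst heq
      rw [hm.2, (sh_low x.1).1, one_mul, if_pos (by simp), List.map_cons, List.sum_cons]
      rfl

/-- The lowest part of a nonempty list of primes of codimension `c` is not zero. -/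
theorem low_list_ne_zero (hcore : CorePin) (hw : ∀ v, w v ≠ 0)
    (l : List ((ι →₀ ℕ) × Ideal (MvPolynomial σ ℂ)))
    (hl : ∀ x ∈ l, x.2.IsPrime ∧ IsHom w x.2) {c : ℕ}
    {x : (ι →₀ ℕ) × Ideal (MvPolynomial σ ℂ)} (hx : x ∈ l) (hxc : codim x.2 = c) :
    ((l.filter fun x => codim x.2 = c).map fun x => lowZ w x.2).sum ≠ 0 := by
  obtain ⟨-, -, hlow⟩ := hcore σ ι w hw
  intro h
  have h' := congrArg (eval (fun _ : ι => (1 : ℤ))) h
  rw [map_zero, map_list_sum, List.map_map] at h'
  have hpos : ∀ y ∈ (l.filter fun x => codim x.2 = c).map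
      ((eval (fun _ : ι => (1 : ℤ))) ∘ fun x => lowZ w x.2), 0 < y := by
    intro y hy
    obtain ⟨z, hz, rfl⟩ := List.mem_map.1 hy
    obtain ⟨hz1, -⟩ := List.mem_filter.1 hz
    exact (hlow z.2 (hl z hz1).1 (hl z hz1).2).2 _ fun _ => Int.one_pos
  have hne : (l.filter fun x => codim x.2 = c).map
      ((eval (fun _ : ι => (1 : ℤ))) ∘ fun x => lowZ w x.2) ≠ [] := by
    intro he
    rw [List.map_eq_nil_iff, List.filter_eq_nil_iff] at he
    exact he x hx (by simp [hxc])
  exact (List.sum_pos _ hpos hne).ne' h'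

/-- If the parts below `c` vanish, all primes of a list have codimension at least `c`. -/
theorem codim_ge_of_low (hcore : CorePin) (hw : ∀ v, w v ≠ 0)
    (l : List ((ι →₀ ℕ) × Ideal (MvPolynomial σ ℂ)))
    (hl : ∀ x ∈ l, x.2.IsPrime ∧ IsHom w x.2) {c : ℕ}
    (hv : ∀ j < c, homogeneousComponent j (l.map fun x => sh x.1 * kshift w x.2).sum = 0) :
    ∀ x ∈ l, c ≤ codim x.2 := by
  induction c with
  | zero => exact fun x _ => Nat.zero_le _
  | succ c ih =>
    have hge := ih fun j hj => hv j (hj.trans (Nat.lt_succ_self c))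
    intro x hx
    rcases (hge x hx).lt_or_eq with h | h
    · exact h
    · exact absurd ((low_list w hcore hw l hl hge).2.symm.trans (hv c (Nat.lt_succ_self c)))
        (low_list_ne_zero w hcore hw l hl hx h.symm)

/-! ### A local equality -/

/-- An ideal equal to a prime away from `δ` differs from it by primes containing `δ`. -/
theorem local_filtration (hcore : CorePin) (hw : ∀ v, w v ≠ 0)
    {I L : Ideal (MvPolynomial σ ℂ)} (hI : IsHom w I) [L.IsPrime] (hL : IsHom w L) (hIL : I ≤ L)
    {δ : MvPolynomial σ ℂ} (hloc : ∀ f ∈ L, ∃ k, δ ^ k * f ∈ I) :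
    ∃ l : List ((ι →₀ ℕ) × Ideal (MvPolynomial σ ℂ)),
      (∀ x ∈ l, x.2.IsPrime ∧ IsHom w x.2 ∧ δ ∈ x.2) ∧
      kshift w I = kshift w L + (l.map fun x => sh x.1 * kshift w x.2).sum := by
  obtain ⟨-, hfil, -⟩ := hcore σ ι w hw
  revert hI hIL hloc
  induction I using WellFoundedGT.induction with
  | _ I ih =>
    intro hI hIL hloc
    by_cases hne : ∀ f ∈ L, (∃ d, IsWeightedHomogeneous w f d) → f ∈ I
    · have : I = L := by
        refine le_antisymm hIL ?_
        rw [Gr.eq_span w hL, Ideal.span_le]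
        exact fun f hf => hne f hf.1 hf.2
      exact ⟨[], by simp, by simp [this]⟩
    · push Not at hne
      obtain ⟨g, hgL, ⟨d, hg⟩, hgI⟩ := hne
      have hlt : I < I ⊔ Ideal.span {g} :=
        left_lt_sup.2 fun h => hgI (h (Ideal.mem_span_singleton_self g))
      obtain ⟨l, hl, hsum⟩ := ih (I ⊔ Ideal.span {g}) hlt (isHom_sup w hI hg)
        (sup_le hIL (by rwa [Ideal.span_le, Set.singleton_subset_iff]))
        (fun f hf => (hloc f hf).imp fun k hk => Ideal.mem_sup_left hk)
      obtain ⟨l', hl', hsum'⟩ := hfil (col I g) (col_isHom w hI hg)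
      obtain ⟨k, hk⟩ := hloc g hgL
      refine ⟨l ++ l'.map fun x => (d + x.1, x.2), ?_, ?_⟩
      · intro x hx
        rcases List.mem_append.1 hx with hx | hx
        · exact hl x hx
        · obtain ⟨y, hy, rfl⟩ := List.mem_map.1 hx
          obtain ⟨hp, hh, hle⟩ := hl' y hy
          refine ⟨hp, hh, hp.mem_of_pow_mem k (hle ?_)⟩
          rwa [mem_col, mul_comm]
      · have hsh : ∀ a b : ι →₀ ℕ, sh (a + b) = sh a * sh b := fun a b => by
          rw [sh, sh, sh, ← map_mul, monomial_mul, mul_one]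
        rw [List.map_append, List.sum_append, ← add_assoc, ← hsum, kshift,
          kpoly_col w hcore hw hI hg, map_add, map_mul, hsum', map_list_sum, List.map_map,
          List.map_map, ← List.sum_map_mul_left]
        congr 1
        refine congrArg List.sum (List.map_congr_left fun x _ => ?_)
        simp only [Function.comp_apply, map_mul]
        rw [hsh, mul_assoc]
        rfl

variable (ν : σ → ℕ)

/-- An ideal equal to a prime away from `δ` has a nonzero part of degree at most the codimension. -/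
theorem le_codim (hcore : CorePin) (hw : ∀ v, w v ≠ 0)
    {I L : Ideal (MvPolynomial σ ℂ)} (hI : IsHom w I) [L.IsPrime] (hL : IsHom w L) (hIL : I ≤ L)
    {δ : MvPolynomial σ ℂ} (hloc : ∀ f ∈ L, ∃ k, δ ^ k * f ∈ I) :
    ∃ j ≤ codim L, homogeneousComponent j (kshift w I) ≠ 0 := by
  classical
  obtain ⟨l, hl, hsum⟩ := local_filtration w hcore hw hI hL hIL hloc
  by_contra hne
  push Not at hne
  have hl' : ∀ x ∈ ((0 : ι →₀ ℕ), L) :: l, x.2.IsPrime ∧ IsHom w x.2 := by
    simp only [List.forall_mem_cons]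
    exact ⟨⟨‹L.IsPrime›, hL⟩, fun x hx => ⟨(hl x hx).1, (hl x hx).2.1⟩⟩
  have := codim_ge_of_low w hcore hw _ hl' (c := codim L + 1) (fun j hj => by
    rw [List.map_cons, List.sum_cons, show sh (0 : ι →₀ ℕ) = 1 by simp [sh], one_mul, ← hsum]
    exact hne j (Nat.lt_succ_iff.1 hj)) _ List.mem_cons_self
  simp at this

/-- The class of the prime is the lowest part of the ideal, after `Φ`. -/
theorem localStep (hcore : CorePin) (hw : ∀ v, w v ≠ 0)
    (hΦ : ∀ v, ν v = 0 → Φ (linZ (w v)) = 0)
    {I L : Ideal (MvPolynomial σ ℂ)} (hI : IsHom w I) [L.IsPrime] (hL : IsHom w L) (hIL : I ≤ L)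
    {δ : MvPolynomial σ ℂ} (hδ : IsWeightedHomogeneous ν δ 0) (hδL : δ ∉ L)
    (hloc : ∀ f ∈ L, ∃ k, δ ^ k * f ∈ I)
    (hv : ∀ j < codim L, homogeneousComponent j (kshift w I) = 0) :
    Φ (homogeneousComponent (codim L) (kshift w I)) = Φ (lowZ w L) ∧
      homogeneousComponent (codim L) (kshift w I) ≠ 0 := by
  classical
  obtain ⟨l, hl, hsum⟩ := local_filtration w hcore hw hI hL hIL hloc
  have hl' : ∀ x ∈ ((0 : ι →₀ ℕ), L) :: l, x.2.IsPrime ∧ IsHom w x.2 := by
    simp only [List.forall_mem_cons]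
    exact ⟨⟨‹L.IsPrime›, hL⟩, fun x hx => ⟨(hl x hx).1, (hl x hx).2.1⟩⟩
  have hsum' : kshift w I =
      ((((0 : ι →₀ ℕ), L) :: l).map fun x => sh x.1 * kshift w x.2).sum := by
    rw [List.map_cons, List.sum_cons, show sh (0 : ι →₀ ℕ) = 1 by simp [sh], one_mul, hsum]
  rw [hsum'] at hv ⊢
  have hge := codim_ge_of_low w hcore hw _ hl' hv
  rw [(low_list w hcore hw _ hl' hge).2]
  refine ⟨?_, low_list_ne_zero w hcore hw _ hl' List.mem_cons_self rfl⟩
  rw [List.filter_cons, if_pos (by simp), List.map_cons, List.sum_cons, map_add, map_list_sum,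
    List.map_map, add_eq_left]
  refine List.sum_eq_zero fun y hy => ?_
  obtain ⟨x, hx, rfl⟩ := List.mem_map.1 hy
  obtain ⟨hp, hh, hδx⟩ := hl x (List.mem_filter.1 hx).1
  exact meets Φ hcore σ w hw ν hΦ x.2 hp hh δ hδx
    (fun h => hδL (h ▸ L.zero_mem)) hδ

/-- Cutting a prime by one equation, locally equal to a prime. -/
theorem cutStep (hcore : CorePin) (hw : ∀ v, w v ≠ 0)
    (hΦ : ∀ v, ν v = 0 → Φ (linZ (w v)) = 0)
    {L₀ L : Ideal (MvPolynomial σ ℂ)} [L₀.IsPrime] (hL₀ : IsHom w L₀)
    {g : MvPolynomial σ ℂ} {d : ι →₀ ℕ} (hg : IsWeightedHomogeneous w g d) (hgL₀ : g ∉ L₀)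
    [L.IsPrime] (hL : IsHom w L) (hle : L₀ ⊔ Ideal.span {g} ≤ L)
    (hc : codim L = codim L₀ + 1) {δ : MvPolynomial σ ℂ} (hδ : IsWeightedHomogeneous ν δ 0)
    (hδL : δ ∉ L) (hloc : ∀ f ∈ L, ∃ k, δ ^ k * f ∈ L₀ ⊔ Ideal.span {g}) :
    Φ (lowZ w L) = Φ (linZ d) * Φ (lowZ w L₀) := by
  obtain ⟨-, -, hlow⟩ := hcore σ ι w hw
  have hks := kshift_eq_mul w w (kpoly_sup w hcore hw hL₀ hg hgL₀)
  have hm := Prod.component_mul _ _ 1 (codim L₀) (one_sub_sh d).1 (hlow L₀ ‹_› hL₀).1
  rw [add_comm 1 (codim L₀), ← hc, ← hks] at hm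
  rw [← (localStep w Φ ν hcore hw hΦ (isHom_sup w hL₀ hg) hL hle hδ hδL hloc hm.1).1, hm.2,
    (one_sub_sh d).2, map_mul]
  rfl

end Vale.Agent.P199.K.Start
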