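import Vale.Agent.P199.K.Start.Lin
import Vale.Agent.P199.K.Start.Classes
import Vale.Agent.P199.K.HS.Bot

/-!
P199, START: the class of a linear space over the generic base point is the product of the degrees
of its equations, after a homomorphism killing the degrees of the base.
-/

namespace Vale.Agent.P199.K.Start

open MvPolynomial
open Vale.Agent.P199.K.Cut
open scoped BigOperators

variable {σ ι : Type} [Fintype σ] [Fintype ι] (w : σ → ι →₀ ℕ) {A : Type} [CommRing A]
  (Φ : MvPolynomial ι ℤ →+* A) (ν : σ → ℕ) {K : Type} [Field K] [Algebra ℂ K] (a : σ → K)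

theorem chain (hcore : CorePin) (hw : ∀ v, w v ≠ 0)
    (hΦ : ∀ v, ν v = 0 → Φ (linZ (w v)) = 0) (hν : ∀ v, ν v ≤ 1)
    (hA : ∀ f : MvPolynomial σ ℂ, IsWeightedHomogeneous ν f 0 → aeval a f = 0 → f = 0)
    {c : ℕ} (ell : Fin c → MvPolynomial σ ℂ) (hell : ∀ i, IsWeightedHomogeneous ν (ell i) 1)
    (d : Fin c → ι →₀ ℕ) (hd : ∀ i, IsWeightedHomogeneous w (ell i) (d i))
    (hmin : ∀ j (hj : j ≤ c), ∃ piv : Fin j → σ, (∀ k, ν (piv k) = 1) ∧
      aeval a (pivMat (fun i => ell (Fin.castLE hj i)) piv).det ≠ 0) :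
    Φ (lowZ w (linIdeal ν a ell)) = ∏ i, Φ (linZ (d i)) := by
  classical
  suffices h : ∀ j (hj : j ≤ c), Φ (lowZ w (linIdeal ν a fun i => ell (Fin.castLE hj i))) =
      ∏ i : Fin j, Φ (linZ (d (Fin.castLE hj i))) by
    simpa using h c le_rfl
  intro j
  induction j with
  | zero =>
    intro hj
    obtain ⟨piv, hpiv, hdet⟩ := hmin 0 hj
    have hbot : linIdeal ν a (fun i => ell (Fin.castLE hj i)) = ⊥ := by
      refine eq_bot_iff.2 fun f hf => ?_
      obtain ⟨k, hk⟩ := exists_pow_mem ν a _ piv hν (fun i => hell _) hA hpiv hdet hf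
      rw [Ideal.mem_bot]
      rw [Set.range_eq_empty, Ideal.span_empty, Ideal.mem_bot, Matrix.det_isEmpty, one_pow,
        one_mul] at hk
      exact hk
    rw [hbot, Finset.univ_eq_empty, Finset.prod_empty]
    have hlz : lowZ w (⊥ : Ideal (MvPolynomial σ ℂ)) = 1 := by
      rw [lowZ, Bot.codim_bot, kshift, Bot.kpoly_bot w hw, map_one, homogeneousComponent_zero]
      simp
    rw [hlz, map_one]
  | succ j ih =>
    intro hj
    have hj' : j ≤ c := (Nat.le_succ j).trans hj
    obtain ⟨piv₀, hpiv₀, hdet₀⟩ := hmin j hj'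
    obtain ⟨piv, hpiv, hdet⟩ := hmin (j + 1) hj
    let e₀ : Fin j → MvPolynomial σ ℂ := fun i => ell (Fin.castLE hj' i)
    let e : Fin (j + 1) → MvPolynomial σ ℂ := fun i => ell (Fin.castLE hj i)
    let g := ell (Fin.castLE hj (Fin.last j))
    have he : ∀ i, e (Fin.castSucc i) = e₀ i := fun i => rfl
    have hpts : ∀ x, x ∈ pts ν a e ↔ x ∈ pts ν a e₀ ∧ aeval x g = 0 := fun x =>
      ⟨fun hx => ⟨⟨hx.1, fun i => hx.2 i.castSucc⟩, hx.2 (Fin.last j)⟩,
        fun hx => ⟨hx.1.1, Fin.lastCases hx.2 hx.1.2⟩⟩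
    have hp₀ := linIdeal_isPrime ν a e₀ piv₀ hν (fun i => hell _) hA hpiv₀ hdet₀
    have hp := linIdeal_isPrime ν a e piv hν (fun i => hell _) hA hpiv hdet
    have hc₀ := codim_linIdeal ν a e₀ piv₀ hν (fun i => hell _) hA hpiv₀ hdet₀
    have hc := codim_linIdeal ν a e piv hν (fun i => hell _) hA hpiv hdet
    have hH₀ := linIdeal_isHom w ν a e₀ piv₀ hν (fun i => hell _) hA hpiv₀ hdet₀
      (fun i => d (Fin.castLE hj' i)) (fun i => hd _)
    have hH := linIdeal_isHom w ν a e piv hν (fun i => hell _) hA hpiv hdet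
      (fun i => d (Fin.castLE hj i)) (fun i => hd _)
    have hnot : g ∉ linIdeal ν a e₀ := by
      intro hg
      have : linIdeal ν a e = linIdeal ν a e₀ := by
        ext f
        simp only [mem_linIdeal, hpts]
        exact ⟨fun h x hx => h x ⟨hx, (mem_linIdeal ν a e₀).1 hg x hx⟩, fun h x hx => h x hx.1⟩
      rw [this, hc₀] at hc
      omega
    have hle : linIdeal ν a e₀ ⊔ Ideal.span {g} ≤ linIdeal ν a e := by
      refine sup_le (fun f hf => ?_) ?_
      · rw [mem_linIdeal] at hf ⊢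
        exact fun x hx => hf x ((hpts x).1 hx).1
      · rw [Ideal.span_le, Set.singleton_subset_iff]
        exact (mem_linIdeal ν a e).2 fun x hx => ((hpts x).1 hx).2
    have hspan : Ideal.span (Set.range e) ≤ linIdeal ν a e₀ ⊔ Ideal.span {g} := by
      rw [Ideal.span_le]
      rintro _ ⟨i, rfl⟩
      induction i using Fin.lastCases with
      | last => exact Ideal.mem_sup_right (Ideal.mem_span_singleton_self g)
      | cast i =>
        exact Ideal.mem_sup_left (forms_le ν a e₀ (Ideal.subset_span ⟨i, rfl⟩))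
    have hdw := det_weight_zero ν e piv (fun i => hell _) hpiv
    have hdn := det_not_mem ν a e piv hν (fun i => hell _) hA hpiv hdet
    have hstep := cutStep w Φ ν hcore hw hΦ (L₀ := linIdeal ν a e₀) hH₀ (hd _) hnot
      (L := linIdeal ν a e) hH hle (by omega) hdw hdn fun f hf =>
        (exists_pow_mem ν a e piv hν (fun i => hell _) hA hpiv hdet hf).imp fun k hk => hspan hk
    rw [hstep, Fin.prod_univ_castSucc, mul_comm]
    exact congrArg (· * _) (ih hj')

end Vale.Agent.P199.K.Start
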