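import Vale.Agent.P199.K.Defs
import Vale.Agent.P199.K.HS.Trdeg

/-!
P199, START: a nonzero Jacobian minor bounds the codimension from below.
-/

namespace Vale.Agent.P199.K.Start

open MvPolynomial
open scoped BigOperators

variable {σ : Type} [Fintype σ]

/-- The chain rule for a derivation composed with an algebra map from polynomials. -/
theorem derivation_chain {K M : Type} [CommRing K] [Algebra ℂ K] [AddCommGroup M] [Module K M]
    [Module ℂ M] [IsScalarTower ℂ K M] (D : Derivation ℂ K M) (χ : MvPolynomial σ ℂ →ₐ[ℂ] K)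
    (g : MvPolynomial σ ℂ) : D (χ g) = ∑ v, χ (pderiv v g) • D (χ (X v)) := by
  classical
  induction g using MvPolynomial.induction_on with
  | C a =>
    rw [← MvPolynomial.algebraMap_eq, AlgHom.commutes, Derivation.map_algebraMap]
    simp [MvPolynomial.algebraMap_eq]
  | add p q hp hq => simp only [map_add, hp, hq, add_smul, Finset.sum_add_distrib]
  | mul_X p n hp =>
    rw [map_mul, Derivation.leibniz, hp, Finset.smul_sum]
    have h1 : χ p • D (χ (X n)) = ∑ v, (χ p * χ (pderiv v (X n))) • D (χ (X v)) := by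
      rw [Finset.sum_eq_single n]
      · rw [pderiv_X_self, map_one, mul_one]
      · intro v _ hv
        rw [pderiv_X_of_ne hv.symm, map_zero, mul_zero, zero_smul]
      · simp
    rw [h1, ← Finset.sum_add_distrib]
    refine Finset.sum_congr rfl fun v _ => ?_
    rw [smul_smul, ← add_smul, pderiv_mul, map_add, map_mul, map_mul]
    congr 1
    ring

open scoped Classical in
/-- If the variables outside the columns of a nonzero minor are killed by a derivation, so is
everything. -/
theorem derivation_eq_zero_of_minor {K M : Type} [Field K] [Algebra ℂ K] [AddCommGroup M]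
    [Module K M] [Module ℂ M] [IsScalarTower ℂ K M] (D : Derivation ℂ K M)
    (χ : MvPolynomial σ ℂ →ₐ[ℂ] K) {c : ℕ} (f : Fin c → MvPolynomial σ ℂ) (π : Fin c → σ)
    (hπ : Function.Injective π) (hf : ∀ i, χ (f i) = 0)
    (hout : ∀ v, (∀ j, π j ≠ v) → D (χ (X v)) = 0)
    (hd : χ ((Matrix.of fun i j => pderiv (π j) (f i)).det) ≠ 0) (g : MvPolynomial σ ℂ) :
    D (χ g) = 0 := by
  set J : Matrix (Fin c) (Fin c) K := (Matrix.of fun i j => pderiv (π j) (f i)).map χ with hJ
  have hrow : ∀ i, ∑ j, J i j • D (χ (X (π j))) = 0 := by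
    intro i
    have h := derivation_chain D χ (f i)
    rw [hf i, map_zero] at h
    have hsplit : ∑ v, χ (pderiv v (f i)) • D (χ (X v))
        = ∑ j, J i j • D (χ (X (π j))) := by
      rw [← Finset.sum_subset (Finset.subset_univ (Finset.univ.image π)),
        Finset.sum_image (hπ.injOn)]
      · rfl
      · intro v _ hv
        rw [hout v fun j hj => hv (Finset.mem_image.2 ⟨j, Finset.mem_univ j, hj⟩), smul_zero]
    rw [← hsplit, ← h]
  have hdet : J.det ≠ 0 := by
    have : J.det = χ ((Matrix.of fun i j => pderiv (π j) (f i)).det) := by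
      rw [hJ, ← AlgHom.mapMatrix_apply, ← AlgHom.map_det]
    rwa [this]
  have hz : ∀ k, D (χ (X (π k))) = 0 := by
    intro k
    have h2 : ∑ j, (J.adjugate * J) k j • D (χ (X (π j))) = 0 := by
      simp only [Matrix.mul_apply, Finset.sum_smul]
      rw [Finset.sum_comm]
      refine Finset.sum_eq_zero fun i _ => ?_
      simp only [mul_smul]
      rw [← Finset.smul_sum, hrow i, smul_zero]
    rw [Matrix.adjugate_mul, Finset.sum_eq_single k] at h2
    · simpa [hdet] using h2
    · intro j _ hj
      rw [Matrix.smul_apply, Matrix.one_apply_ne hj.symm, smul_zero, zero_smul]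
    · simp
  rw [derivation_chain D χ g]
  refine Finset.sum_eq_zero fun v _ => ?_
  by_cases hv : ∃ j, π j = v
  · obtain ⟨j, rfl⟩ := hv
    rw [hz j, smul_zero]
  · rw [hout v (not_exists.1 hv), smul_zero]

/-- A minor of the Jacobian of elements of a prime, outside the prime, bounds the codimension. -/
theorem codim_ge_of_minor {P : Ideal (MvPolynomial σ ℂ)} (hP : P.IsPrime) {c : ℕ}
    (f : Fin c → MvPolynomial σ ℂ) (π : Fin c → σ) (hf : ∀ i, f i ∈ P)
    (hd : (Matrix.of fun i j => pderiv (π j) (f i)).det ∉ P) : c ≤ codim P := by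
  classical
  have hπ : Function.Injective π := by
    intro a b hab
    by_contra hne
    exact hd (by rw [Matrix.det_zero_of_column_eq hne fun i => by simp [hab]]; exact P.zero_mem)
  let B := MvPolynomial σ ℂ ⧸ P
  have : IsDomain B := Ideal.Quotient.isDomain P
  let K := FractionRing B
  let χ : MvPolynomial σ ℂ →ₐ[ℂ] K :=
    (IsScalarTower.toAlgHom ℂ B K).comp (Ideal.Quotient.mkₐ ℂ P)
  have hχ : ∀ g, χ g = algebraMap B K (Ideal.Quotient.mk P g) := fun g => rfl
  have hker : ∀ g, χ g = 0 ↔ g ∈ P := by
    intro g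
    rw [hχ, map_eq_zero_iff _ (IsFractionRing.injective B K), Ideal.Quotient.eq_zero_iff_mem]
  let Z : Finset K := (Finset.univ \ Finset.univ.image π).image fun v => χ (X v)
  let K₀ := IntermediateField.adjoin ℂ (Z : Set K)
  let D : Derivation ℂ K (KaehlerDifferential K₀ K) :=
    (KaehlerDifferential.D K₀ K).restrictScalars ℂ
  have hD : ∀ g, D (χ g) = 0 := by
    intro g
    refine derivation_eq_zero_of_minor D χ f π hπ (fun i => (hker _).2 (hf i)) ?_
      (fun h => hd ((hker _).1 h)) g
    intro v hv
    have hmem : χ (X v) ∈ K₀ := IntermediateField.subset_adjoin ℂ _ (Finset.mem_coe.2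
      (Finset.mem_image_of_mem _ (Finset.mem_sdiff.2 ⟨Finset.mem_univ v, fun h => by
        obtain ⟨j, -, hj⟩ := Finset.mem_image.1 h
        exact hv j hj⟩)))
    exact (KaehlerDifferential.D K₀ K).map_algebraMap ⟨_, hmem⟩
  have hDall : ∀ x : K, KaehlerDifferential.D K₀ K x = 0 := by
    intro x
    obtain ⟨a, b, -, rfl⟩ := IsFractionRing.div_surjective (A := B) x
    obtain ⟨a, rfl⟩ := Ideal.Quotient.mk_surjective a
    obtain ⟨b, rfl⟩ := Ideal.Quotient.mk_surjective b
    rw [← hχ, ← hχ, Derivation.leibniz_div]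
    have ha : KaehlerDifferential.D K₀ K (χ a) = 0 := hD a
    have hb : KaehlerDifferential.D K₀ K (χ b) = 0 := hD b
    simp [ha, hb]
  have hbot : (⊤ : Submodule K (KaehlerDifferential K₀ K)) = ⊥ := by
    rw [← KaehlerDifferential.span_range_derivation, Submodule.span_eq_bot]
    rintro _ ⟨x, rfl⟩
    exact hDall x
  have : Algebra.FormallyUnramified K₀ K := ⟨⟨fun x y => by
    have hx : x ∈ (⊥ : Submodule K (KaehlerDifferential K₀ K)) := hbot ▸ Submodule.mem_top
    have hy : y ∈ (⊥ : Submodule K (KaehlerDifferential K₀ K)) := hbot ▸ Submodule.mem_top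
    rw [(Submodule.mem_bot K).1 hx, (Submodule.mem_bot K).1 hy]⟩⟩
  have : Algebra.EssFiniteType B K :=
    Algebra.EssFiniteType.of_isLocalization K (nonZeroDivisors B)
  have : Algebra.EssFiniteType ℂ K := Algebra.EssFiniteType.comp ℂ B K
  have : Algebra.EssFiniteType K₀ K := Algebra.EssFiniteType.of_comp ℂ K₀ K
  have : Algebra.IsSeparable K₀ K := (Algebra.FormallyUnramified.iff_isSeparable K₀ K).1 ‹_›
  have htr : Algebra.trdeg ℂ B ≤ (Z.card : ℕ) :=
    Trdeg.trdeg_le_of_algebraic (IsScalarTower.toAlgHom ℂ B K) (IsFractionRing.injective B K) Z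
      fun a => IntermediateField.isAlgebraic_adjoin_iff.1 (Algebra.IsAlgebraic.isAlgebraic _)
  have hZ : Z.card ≤ Fintype.card σ - c := by
    refine Finset.card_image_le.trans ?_
    rw [← Finset.compl_eq_univ_sdiff, Finset.card_compl, Finset.card_image_of_injective _ hπ,
      Finset.card_univ, Fintype.card_fin]
  have hnat : (Algebra.trdeg ℂ B).toNat ≤ Z.card := by
    simpa using Cardinal.toNat_le_toNat htr Cardinal.natCast_lt_aleph0
  have hc : c ≤ Fintype.card σ := by simpa using Fintype.card_le_of_injective π hπ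
  show c ≤ Fintype.card σ - (Algebra.trdeg ℂ B).toNat
  omega

end Vale.Agent.P199.K.Start
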