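import Vale.Agent.P199.K.Start.Tangent
import Vale.Agent.P199.K.Start.Classes

/-!
P199, START: the specialisation of the grading to the second tensor factor, modulo `p`.
-/

namespace Vale.Agent.P199.K.Start

open MvPolynomial
open Vale.Agent.P199.K.Cut (linZ)
open scoped BigOperators

noncomputable section

variable {p r : ℕ} (n : ℕ)

/-- The coordinates of the first tensor factor. -/
def isLow (i : Co r) : Prop := Sum.elim (fun k : Fin r => (k : ℕ) < n) (fun k => (k : ℕ) < n) i

open Classical in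
/-- Reduction modulo `p`, killing the coordinates of the first tensor factor. -/
def phiR (p r n : ℕ) : MvPolynomial (Co r) ℤ →+* MvPolynomial (Co r) (ZMod p) :=
  ((aeval fun i => if isLow n i then 0 else X i :
      MvPolynomial (Co r) (ZMod p) →ₐ[ZMod p] MvPolynomial (Co r) (ZMod p)) :
    MvPolynomial (Co r) (ZMod p) →+* MvPolynomial (Co r) (ZMod p)).comp
    (map (Int.castRingHom (ZMod p)))

open Classical in
lemma phiR_linZ (d : Co r →₀ ℕ) :
    phiR p r n (linZ d) = d.sum fun i k => C (k : ZMod p) * if isLow n i then 0 else X i := by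
  rw [phiR, RingHom.comp_apply, Cut.map_linZ]
  simp [lin, Finsupp.sum]

lemma linZ_weight {σ ι : Type} (w : σ → ι →₀ ℕ) (m : σ →₀ ℕ) :
    linZ (Finsupp.weight w m) = ∑ v ∈ m.support, m v • linZ (w v) := by
  have hadd : ∀ a b : ι →₀ ℕ, linZ (a + b) = linZ a + linZ b := fun a b => by
    simp only [Cut.linZ]
    exact Finsupp.sum_add_index' (fun i => by simp) fun i a b => by simp [add_mul]
  let Lm : (ι →₀ ℕ) →+ MvPolynomial ι ℤ :=
    { toFun := linZ, map_zero' := by simp [Cut.linZ], map_add' := hadd }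
  show Lm (Finsupp.weight w m) = ∑ v ∈ m.support, m v • Lm (w v)
  rw [Finsupp.weight_apply, Finsupp.sum, map_sum]
  exact Finset.sum_congr rfl fun v _ => map_nsmul Lm _ _

lemma phiR_linZ_eq_zero {d : Co r →₀ ℕ} (h : ∀ i, ¬ isLow n i → ((d i : ℕ) : ZMod p) = 0) :
    phiR p r n (linZ d) = 0 := by
  classical
  rw [phiR_linZ]
  refine Finset.sum_eq_zero fun i _ => ?_
  show C ((d i : ℕ) : ZMod p) * (if isLow n i then 0 else X i) = 0
  split_ifs with hi
  · rw [mul_zero]
  · rw [h i hi, map_zero, zero_mul]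

variable [Fact p.Prime] [NeZero r]

lemma phiR_base (v : ZT p r) (hv : nuW n v = 0) : phiR p r n (linZ (ztWt p r v)) = 0 := by
  classical
  refine phiR_linZ_eq_zero n fun i hi => ?_
  rcases v with b | j
  · have hb : isFb n b.1 := by
      by_contra hb
      simp [nuW, hb] at hv
    show ((tdeg p r b.1 i : ℕ) : ZMod p) = 0
    rw [tdeg_ne_zero_apply b.2, ZMod.natCast_zmod_val]
    rcases i with k | k
    · exact (hb k hi).1
    · exact (hb k hi).2
  · show ((Finsupp.single j p i : ℕ) : ZMod p) = 0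
    rw [Finsupp.single_apply]
    split_ifs <;> simp

lemma phiR_normal {v : ZT p r} (hv : nuW n v ≠ 0) : phiR p r n (linZ (ztWt p r v)) ≠ 0 := by
  classical
  rcases v with b | j
  · have hb : ¬ isFb n b.1 := fun hb => hv (by simp [nuW, hb])
    obtain ⟨i, hi, hbi⟩ : ∃ i : Co r, ¬ isLow n i ∧ b.1 i ≠ 0 := by
      by_contra! h
      exact hb fun k hk => ⟨h (Sum.inl k) hk, h (Sum.inr k) hk⟩
    intro h0
    rw [phiR_linZ] at h0
    have h1 := congrArg (coeff (Finsupp.single i 1)) h0
    rw [Finsupp.sum, coeff_sum, coeff_zero] at h1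
    have hval : tdeg p r b.1 i = (b.1 i).val := tdeg_ne_zero_apply b.2 i
    rw [Finset.sum_eq_single i] at h1
    · rw [if_neg hi, coeff_C_mul, coeff_X, if_pos rfl, mul_one] at h1
      change ((tdeg p r b.1 i : ℕ) : ZMod p) = 0 at h1
      rw [hval, ZMod.natCast_zmod_val] at h1
      exact hbi h1
    · intro k _ hk
      split_ifs with hkl
      · simp
      · rw [coeff_C_mul, coeff_X, if_neg (fun h => hk ((Finsupp.single_left_inj one_ne_zero).1 h)),
          mul_zero]
    · intro hni
      rw [Finsupp.notMem_support_iff.1 hni]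
      simp
  · exact absurd (by simp [nuW]) hv

lemma phiR_form {f : MvPolynomial (ZT p r) ℂ} {d : Co r →₀ ℕ}
    (hf : IsWeightedHomogeneous (ztWt p r) f d) (hnu : IsWeightedHomogeneous (nuW n) f 1)
    (h0 : f ≠ 0) : phiR p r n (linZ d) ≠ 0 := by
  classical
  obtain ⟨m, hm⟩ := MvPolynomial.ne_zero_iff.1 h0
  rw [← hf hm]
  have hsum : phiR p r n (linZ (Finsupp.weight (ztWt p r) m)) =
      ∑ v ∈ m.support, m v • phiR p r n (linZ (ztWt p r v)) := by
    rw [linZ_weight, map_sum]
    exact Finset.sum_congr rfl fun v _ => map_nsmul _ _ _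
  have hw1 : ∑ v ∈ m.support, m v * nuW n v = 1 := by
    have := hnu hm
    rwa [Finsupp.weight_apply, Finsupp.sum] at this
  obtain ⟨v, hvm, hv⟩ : ∃ v ∈ m.support, m v * nuW n v ≠ 0 := by
    by_contra! h
    rw [Finset.sum_eq_zero h] at hw1
    exact zero_ne_one hw1
  have hv1 : m v * nuW n v = 1 :=
    le_antisymm (hw1 ▸ Finset.single_le_sum (f := fun v => m v * nuW n v)
      (fun _ _ => Nat.zero_le _) hvm) (Nat.pos_of_ne_zero hv)
  rw [hsum, Finset.sum_eq_single_of_mem v hvm]
  · rw [(mul_eq_one.1 hv1).1, one_smul]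
    exact phiR_normal n (by rw [(mul_eq_one.1 hv1).2]; exact one_ne_zero)
  · intro u hu huv
    have hrest : m u * nuW n u = 0 := by
      have h2 : m v * nuW n v + m u * nuW n u ≤ ∑ v ∈ m.support, m v * nuW n v := by
        rw [← Finset.sum_pair (Ne.symm huv) (f := fun v => m v * nuW n v)]
        refine Finset.sum_le_sum_of_subset fun x hx => ?_
        rcases Finset.mem_insert.1 hx with rfl | hx
        · exact hvm
        · rw [Finset.mem_singleton.1 hx]; exact hu
      omega
    rw [phiR_base n u ((Nat.mul_eq_zero.1 hrest).resolve_left (Finsupp.mem_support_iff.1 hu)),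
      smul_zero]

lemma cls_ne_zero_of_phiR {P : Ideal (MvPolynomial (ZT p r) ℂ)}
    (h : phiR p r n (lowZ (ztWt p r) P) ≠ 0) : cls (ztWt p r) p P ≠ 0 := by
  intro hc
  refine h ?_
  rw [phiR, RingHom.comp_apply]
  unfold cls at hc
  rw [hc, map_zero]

end

end Vale.Agent.P199.K.Start
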