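import Mathlib

/-!
P199, START: pivot columns of independent rows.
-/

namespace Vale.Agent.P199.K.Start

theorem exists_pivots {K : Type} [Field K] {V : Type} [Fintype V] {j : ℕ} (rw : Fin j → V → K)
    (h : LinearIndependent K rw) :
    ∃ piv : Fin j → V, (Matrix.of fun i k => rw i (piv k)).det ≠ 0 := by
  classical
  let M : Matrix (Fin j) V K := Matrix.of rw
  have hrank : M.rank = j := by
    rw [Matrix.rank_eq_finrank_span_row]
    show Module.finrank K (Submodule.span K (Set.range rw)) = j
    rw [finrank_span_eq_card h, Fintype.card_fin]
  rw [Matrix.rank_eq_finrank_span_cols] at hrank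
  obtain ⟨b, hb, hspan, hli⟩ := exists_linearIndependent K (Set.range M.col)
  have : Fintype b := ((Set.finite_range M.col).subset hb).fintype
  have hcard : Fintype.card b = j := by
    rw [← Set.toFinset_card, ← finrank_span_set_eq_card hli, hspan, hrank]
  let e : Fin j ≃ b := (Fintype.equivFinOfCardEq hcard).symm
  choose piv hpiv using fun k => hb (e k).2
  refine ⟨piv, ?_⟩
  have hli' : LinearIndependent K fun k => M.col (piv k) := by
    simp only [hpiv]
    exact hli.comp e e.injective
  have hU : IsUnit (Matrix.of fun i k => rw i (piv k)) := by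
    rw [← Matrix.linearIndependent_cols_iff_isUnit]
    exact hli'
  exact ((Matrix.isUnit_iff_isUnit_det _).1 hU).ne_zero

end Vale.Agent.P199.K.Start
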