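import Vale.Agent.P199.K.Start.Param

/-!
P199, START: the generic base point `A ⊗ 1` and its eigenbasis.
-/

namespace Vale.Agent.P199.K.Start

open MvPolynomial
open scoped BigOperators

noncomputable section

variable {p r : ℕ} [Fact p.Prime] (n : ℕ)

/-- The field of definition of the generic base point. -/
abbrev KB (p r : ℕ) [Fact p.Prime] : Type :=
  AlgebraicClosure (FractionRing (MvPolynomial (ZT p r) ℂ))

instance : CharZero (KB p r) :=
  charZero_of_injective_algebraMap (algebraMap ℂ (KB p r)).injective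

/-- The generic values. -/
def gen (v : ZT p r) : KB p r :=
  algebraMap (FractionRing (MvPolynomial (ZT p r) ℂ)) (KB p r)
    (algebraMap (MvPolynomial (ZT p r) ℂ) (FractionRing (MvPolynomial (ZT p r) ℂ)) (X v))

/-- The embedding of the coordinate ring. -/
def emb : MvPolynomial (ZT p r) ℂ →ₐ[ℂ] KB p r := aeval gen

lemma emb_eq (f : MvPolynomial (ZT p r) ℂ) :
    emb f = algebraMap (FractionRing (MvPolynomial (ZT p r) ℂ)) (KB p r)
      (algebraMap (MvPolynomial (ZT p r) ℂ) (FractionRing (MvPolynomial (ZT p r) ℂ)) f) := by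
  have e : (emb : MvPolynomial (ZT p r) ℂ →ₐ[ℂ] KB p r) =
      ((IsScalarTower.toAlgHom ℂ (FractionRing (MvPolynomial (ZT p r) ℂ)) (KB p r)).comp
        (IsScalarTower.toAlgHom ℂ (MvPolynomial (ZT p r) ℂ)
          (FractionRing (MvPolynomial (ZT p r) ℂ)))) :=
    MvPolynomial.algHom_ext fun v => by simp [emb, gen]
  rw [e]
  rfl

lemma emb_injective : Function.Injective (emb : MvPolynomial (ZT p r) ℂ →ₐ[ℂ] KB p r) := by
  intro f g h
  rw [emb_eq, emb_eq] at h
  exact IsFractionRing.injective (MvPolynomial (ZT p r) ℂ) (FractionRing (MvPolynomial (ZT p r) ℂ))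
    ((algebraMap (FractionRing (MvPolynomial (ZT p r) ℂ)) (KB p r)).injective h)

open Classical in
/-- Killing the normal variables, in the coordinates `z, u`. -/
def base : MvPolynomial (ZT p r) ℂ →ₐ[ℂ] MvPolynomial (ZT p r) ℂ :=
  aeval (Sum.elim (fun b => if isFb n b.1 then X (Sum.inl b) else 0) (fun i => X (Sum.inr i)))

/-- The base point, in the coordinates `z, u`. -/
def baseU : MvPolynomial (ZT p r) ℂ →ₐ[ℂ] KB p r := emb.comp (base n)

/-- The rescaled base matrix. -/
def Amat : Matrix (Ix p r) (Ix p r) (KB p r) := Zhat.map (baseU n)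

/-- Its first tensor factor, over the coordinate ring. -/
def A1S : Matrix (Lo p r n) (Lo p r n) (MvPolynomial (ZT p r) ℂ) :=
  fun x y => base n (Zhat ((eLH n).symm (x, 0)) ((eLH n).symm (y, 0)))

/-- Its first tensor factor. -/
def A1 : Matrix (Lo p r n) (Lo p r n) (KB p r) := (A1S n).map emb

lemma WA_isFb_apply {R : Type} [CommRing R] [Algebra ℂ R] {b : Gp p r} (hb : isFb n b)
    (i j : Ix p r) : WA p r R b i j = if (eLH n i).2 = (eLH n j).2 then
      WA p r R b ((eLH n).symm ((eLH n i).1, 0)) ((eLH n).symm ((eLH n j).1, 0)) else 0 := by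
  obtain ⟨⟨x, h⟩, rfl⟩ := (eLH n).symm.surjective i
  obtain ⟨⟨y, h'⟩, rfl⟩ := (eLH n).symm.surjective j
  simp only [Equiv.apply_symm_apply]
  have h0 : (eLH n (pI b)).2 = 0 := funext fun k => (hb k.1 k.2).1
  have hcond : ∀ h h' : Hi p r n, (eLH n).symm (x, h) = (eLH n).symm (y, h') + pI b ↔
      x = y + (eLH n (pI b)).1 ∧ h = h' := by
    intro h h'
    rw [← (eLH n).injective.eq_iff, eLH_add, Equiv.apply_symm_apply, Equiv.apply_symm_apply,
      Prod.ext_iff]
    refine and_congr Iff.rfl ?_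
    show h = h' + (eLH n (pI b)).2 ↔ h = h'
    rw [h0, add_zero]
  have hdot : pdot b ((eLH n).symm (y, h')) = pdot b ((eLH n).symm (y, 0)) := by
    rw [pdot_symm n b y h', Finset.sum_eq_zero fun k _ => by rw [(hb k.1 k.2).2, mul_zero],
      add_zero]
  simp only [WA_apply, hcond, hdot]
  split_ifs <;> simp_all

lemma Amat_eq : (Amat n : Matrix (Ix p r) (Ix p r) (KB p r)) = kr n (A1 n) := by
  classical
  ext i j
  have key : ∀ i j, base n (Zhat (p := p) (r := r) i j) = ∑ b : {b : Gp p r // b ≠ 0},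
      (if isFb n b.1 then X (Sum.inl b) * ∏ k, X (Sum.inr k) ^ (p - (b.1 k).val) else 0) *
        WA p r (MvPolynomial (ZT p r) ℂ) b.1 i j := by
    intro i j
    rw [Zhat, Matrix.sum_apply, map_sum]
    refine Finset.sum_congr rfl fun b _ => ?_
    rw [Matrix.smul_apply, smul_eq_mul, map_mul]
    congr 1
    · simp only [base, map_mul, map_prod, map_pow, aeval_X, Sum.elim_inl, Sum.elim_inr]
      split_ifs <;> simp
    · exact congrFun (congrFun (WA_map (base n) b.1) i) j
  show emb (base n (Zhat i j)) = kr n (A1 n) i j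
  rw [kr, A1, key]
  simp only [Matrix.map_apply, A1S, key]
  rw [← map_zero (emb : MvPolynomial (ZT p r) ℂ →ₐ[ℂ] KB p r), ← apply_ite emb]
  congr 1
  split_ifs with h
  · refine Finset.sum_congr rfl fun b _ => ?_
    split_ifs with hb
    · rw [WA_isFb_apply n hb i j, if_pos h]
    · rw [zero_mul, zero_mul]
  · refine Finset.sum_eq_zero fun b _ => ?_
    split_ifs with hb
    · rw [WA_isFb_apply n hb i j, if_neg h, mul_zero]
    · rw [zero_mul]

lemma Zhat_map_eq {R : Type} [CommRing R] [Algebra ℂ R] (φ : MvPolynomial (ZT p r) ℂ →ₐ[ℂ] R)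
    (M : Matrix (Ix p r) (Ix p r) R)
    (h : ∀ b : {b : Gp p r // b ≠ 0},
      φ (X (Sum.inl b) * ∏ k, X (Sum.inr k) ^ (p - (b.1 k).val)) = coef b.1 M) :
    Zhat.map φ = M - coef 0 M • 1 := by
  classical
  have e1 : M - coef 0 M • (1 : Matrix (Ix p r) (Ix p r) R) =
      ∑ b : {b : Gp p r // b ≠ 0}, coef b.1 M • WA p r R b.1 := by
    conv_lhs => arg 1; rw [← sum_coef M]
    rw [← Finset.sum_erase_add _ _ (Finset.mem_univ (0 : Gp p r)), WA_zero, add_sub_cancel_right,
      Finset.sum_subtype (p := fun b : Gp p r => b ≠ 0) _ (fun b => by simp)]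
  rw [e1, Zhat, ← AlgHom.mapMatrix_apply, map_sum]
  refine Finset.sum_congr rfl fun b _ => ?_
  rw [AlgHom.mapMatrix_apply, Matrix.map_smul' _ _ _ (map_mul φ), WA_map, h b]

lemma separable_of_spec {S F : Type} [CommRing S] [Field F] [CharZero F] {χ : Polynomial S}
    (hmono : χ.Monic) (θ : S →+* ℂ) (hsep : (χ.map θ).Separable) (φ : S →+* F)
    (hφ : Function.Injective φ) : (χ.map φ).Separable := by
  have hdeg : ∀ {F : Type} [Field F] [CharZero F] (φ : S →+* F),
      (χ.map φ).natDegree = χ.natDegree ∧ (χ.map φ).derivative.natDegree = χ.natDegree - 1 := by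
    intro F _ _ φ
    have h1 : (χ.map φ).natDegree = χ.natDegree := hmono.natDegree_map _
    exact ⟨h1, by rw [Polynomial.natDegree_derivative, h1]⟩
  set ρ := Polynomial.resultant χ χ.derivative χ.natDegree (χ.natDegree - 1)
  have hρθ : θ ρ ≠ 0 := by
    rw [← Polynomial.resultant_map_map, ← Polynomial.derivative_map]
    obtain ⟨h1, h2⟩ := hdeg θ
    have := Polynomial.resultant_ne_zero _ _ hsep
    rwa [h1, h2] at this
  obtain ⟨h1, h2⟩ := hdeg φ
  rw [Polynomial.separable_def]
  by_contra hnot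
  have h0 : Polynomial.resultant (χ.map φ) (χ.map φ).derivative = 0 :=
    Polynomial.resultant_eq_zero_iff.2 ⟨Or.inl (hmono.map _).ne_zero, hnot⟩
  rw [h1, h2, Polynomial.derivative_map, Polynomial.resultant_map_map] at h0
  refine hρθ ?_
  rw [show ρ = 0 from hφ (h0.trans (map_zero φ).symm), map_zero]

lemma A1S_spec : ∃ (θ : MvPolynomial (ZT p r) ℂ →ₐ[ℂ] ℂ) (e : Lo p r n → ℂ),
    Function.Injective e ∧ (A1S n).map θ = Matrix.diagonal e := by
  classical
  let e : Lo p r n → ℂ := fun x => ((Fintype.equivFin (Lo p r n) x : ℕ) : ℂ)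
  let E : Matrix (Ix p r) (Ix p r) ℂ := kr n (Matrix.diagonal e)
  let c0 : ℂ := coef 0 E
  let θ : MvPolynomial (ZT p r) ℂ →ₐ[ℂ] ℂ :=
    aeval (Sum.elim (fun b => coef b.1 E) (fun _ => 1))
  refine ⟨θ, fun x => e x - c0, fun x y h => ?_, ?_⟩
  · have h' : (Fintype.equivFin (Lo p r n) x : ℕ) = Fintype.equivFin (Lo p r n) y :=
      Nat.cast_injective (sub_left_injective h)
    exact (Fintype.equivFin _).injective (Fin.ext h')
  have hZ : (Zhat.map θ) = E - c0 • 1 :=
    Zhat_map_eq θ E fun b => by simp [θ]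
  have hθbase : θ.comp (base n) = θ := MvPolynomial.algHom_ext fun v => by
    rcases v with b | i
    · simp only [AlgHom.comp_apply, base, aeval_X, Sum.elim_inl, θ]
      split_ifs with hb
      · simp
      · rw [map_zero, show coef b.1 E = 0 from coef_kr n hb _]
    · simp [base, θ]
  ext x y
  show θ (base n (Zhat ((eLH n).symm (x, 0)) ((eLH n).symm (y, 0)))) = _
  rw [← AlgHom.comp_apply, hθbase]
  have := congrFun (congrFun hZ ((eLH n).symm (x, 0))) ((eLH n).symm (y, 0))
  rw [Matrix.map_apply] at this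
  rw [this]
  by_cases hxy : x = y
  · subst hxy; simp [E, kr]
  · simp [E, kr, hxy]

lemma A1_separable : (A1 n : Matrix (Lo p r n) (Lo p r n) (KB p r)).charpoly.Separable := by
  classical
  obtain ⟨θ, e, he, hθ⟩ := A1S_spec (p := p) (r := r) n
  have h := separable_of_spec (Matrix.charpoly_monic (A1S (p := p) (r := r) n))
    (θ : MvPolynomial (ZT p r) ℂ →+* ℂ) ?_
    ((emb (p := p) (r := r)) : MvPolynomial (ZT p r) ℂ →+* KB p r)
    (fun x y hxy => emb_injective hxy)
  · rwa [← Matrix.charpoly_map] at h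
  · rw [← Matrix.charpoly_map]
    show ((A1S n).map θ).charpoly.Separable
    rw [hθ, Matrix.charpoly_diagonal, Polynomial.separable_prod_X_sub_C_iff]
    exact he

/-- An eigenbasis of the base matrix. -/
lemma exists_eigen : ∃ (g : Matrix (Lo p r n) (Lo p r n) (KB p r)) (l : Lo p r n → KB p r),
    IsUnit g.det ∧ Function.Injective l ∧ A1 n * g = g * Matrix.diagonal l := by
  classical
  set χ := (A1 (p := p) (r := r) n).charpoly with hχ
  have hcard : Fintype.card (Lo p r n) = χ.roots.toFinset.card := by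
    rw [Multiset.toFinset_card_of_nodup (Polynomial.nodup_roots (A1_separable n)),
      ← (IsAlgClosed.splits χ).natDegree_eq_card_roots, Matrix.charpoly_natDegree_eq_dim]
  let eq1 : Lo p r n ≃ χ.roots.toFinset := Fintype.equivOfCardEq (by rw [Fintype.card_coe, hcard])
  let l : Lo p r n → KB p r := fun x => (eq1 x).1
  have hl : Function.Injective l := fun x y h => eq1.injective (Subtype.ext h)
  have hvec : ∀ x : Lo p r n, ∃ v : Lo p r n → KB p r, v ≠ 0 ∧ (A1 n).mulVec v = l x • v := by
    intro x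
    have hroot : χ.IsRoot (l x) := (Polynomial.mem_roots (Matrix.charpoly_monic _).ne_zero).1
      (Multiset.mem_toFinset.1 (eq1 x).2)
    have hdet : (Matrix.scalar (Lo p r n) (l x) - A1 n).det = 0 := by
      rw [← Matrix.eval_charpoly]
      exact hroot
    obtain ⟨v, hv, hv0⟩ := Matrix.exists_mulVec_eq_zero_iff.2 hdet
    refine ⟨v, hv, ?_⟩
    rw [Matrix.sub_mulVec, sub_eq_zero] at hv0
    rw [← hv0]
    ext y
    simp [Matrix.mulVec_diagonal]
  choose v hv hAv using hvec
  refine ⟨Matrix.of fun i x => v x i, l, ?_, hl, ?_⟩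
  · rw [← Matrix.isUnit_iff_isUnit_det, ← Matrix.linearIndependent_cols_iff_isUnit]
    refine Module.End.eigenvectors_linearIndependent' (Matrix.toLin' (A1 n)) l hl
      (fun x => v x) fun x => ⟨?_, hv x⟩
    rw [Module.End.mem_eigenspace_iff, Matrix.toLin'_apply, hAv]
  · ext i x
    rw [Matrix.mul_diagonal]
    have := congrFun (hAv x) i
    simp only [Matrix.mulVec, dotProduct, Pi.smul_apply, smul_eq_mul] at this
    rw [Matrix.mul_apply]
    simp only [Matrix.of_apply]
    rw [this, mul_comm]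

end

end Vale.Agent.P199.K.Start
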