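import Vale.Agent.P199.K.Start.Point

/-!
P199, START: enough independent linear forms at the base point.
-/

namespace Vale.Agent.P199.K.Start

open MvPolynomial
open scoped BigOperators

noncomputable section

variable {p r : ℕ} [Fact p.Prime] (n : ℕ)

/-- The normal variables. -/
abbrev NV (p r n : ℕ) [Fact p.Prime] : Type := {v : ZT p r // nuW n v = 1}

/-- The linear part at the base point. -/
def row (f : MvPolynomial (ZT p r) ℂ) : NV p r n → KB p r := fun v =>
  aeval (apt n) (pderiv v.1 (weightedHomogeneousComponent (nuW n) 1 f))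

/-- A point over the base point with given normal part. -/
def ext' (y : NV p r n → KB p r) (v : ZT p r) : KB p r :=
  if h : nuW n v = 1 then y ⟨v, h⟩ else apt n v

lemma ext'_base (y : NV p r n → KB p r) : ∀ v, nuW n v = 0 → ext' n y v = apt n v := by
  intro v hv
  exact dif_neg (by omega)

lemma ext'_normal (y : NV p r n → KB p r) {b : {b : Gp p r // b ≠ 0}} (hb : ¬ isFb n b.1) :
    ext' n y (Sum.inl b) = y ⟨Sum.inl b, by simp [nuW, hb]⟩ :=
  dif_pos (by simp [nuW, hb])

/-- The value of the linear part is given by the row. -/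
lemma aeval_linear {x : ZT p r → KB p r} (hx : ∀ v, nuW n v = 0 → x v = apt n v)
    (f : MvPolynomial (ZT p r) ℂ) :
    aeval x (weightedHomogeneousComponent (nuW n) 1 f) = ∑ v : NV p r n, x v.1 * row n f v := by
  classical
  set g := weightedHomogeneousComponent (nuW n) 1 f with hg
  have hell : ∀ _i : Fin 1, IsWeightedHomogeneous (nuW n) g 1 := fun _ =>
    weightedHomogeneousComponent_isWeightedHomogeneous 1 f
  rw [ell_eq (nuW n) (fun _ : Fin 1 => g) (nuW_le n) hell 0, map_sum,
    Finset.sum_subtype (p := fun v => nuW n v = 1) _ (fun v => by simp)]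
  refine Finset.sum_congr rfl fun v _ => ?_
  rw [map_mul, aeval_X, row, ← hg, aeval_eq_of_weight_zero (nuW n) (apt n)
    (pderiv_weight_zero (nuW n) (fun _ : Fin 1 => g) hell v.1 v.2 0) hx]

/-- The pairs of indices inside an eigenblock, except one. -/
abbrev BI (p r n : ℕ) : Type := Lo p r n × {q : Hi p r n × Hi p r n // q ≠ 0}

lemma card_hi (hn : n ≤ r) : Fintype.card (Hi p r n) = p ^ (r - n) := by
  have hp : 0 < p := (Fact.out (p := p.Prime)).pos
  have h := Fintype.card_congr (eLH (p := p) (r := r) n)
  rw [Fintype.card_prod, card_lo n hn, Fintype.card_fun, ZMod.card, Fintype.card_fin] at h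
  refine Nat.eq_of_mul_eq_mul_left (pow_pos hp n) ?_
  rw [← h, ← pow_add, Nat.add_sub_cancel' hn]

lemma card_BI (hn : n ≤ r) : Fintype.card (BI p r n) = cN p r n := by
  classical
  rw [Fintype.card_prod, card_lo n hn, Fintype.card_subtype_compl, Fintype.card_subtype_eq,
    Fintype.card_prod, card_hi n hn, cN, sq]

lemma nmat_add (x y : NV p r n → KB p r) :
    nmat n (ext' n (x + y)) = nmat n (ext' n x) + nmat n (ext' n y) := by
  classical
  simp only [nmat, ← Finset.sum_add_distrib, ← add_smul]
  refine Finset.sum_congr rfl fun b _ => ?_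
  congr 1
  by_cases hb : isFb n b.1
  · simp [hb]
  · simp only [if_neg hb, ext'_normal n _ hb, Pi.add_apply, add_mul]

lemma nmat_smul (c : KB p r) (x : NV p r n → KB p r) :
    nmat n (ext' n (c • x)) = c • nmat n (ext' n x) := by
  classical
  simp only [nmat, Finset.smul_sum, smul_smul]
  refine Finset.sum_congr rfl fun b _ => ?_
  congr 1
  by_cases hb : isFb n b.1
  · simp [hb]
  · simp only [if_neg hb, ext'_normal n _ hb, Pi.smul_apply, smul_eq_mul, mul_assoc]

/-- The entries inside the eigenblocks. -/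
def blockMap (g : Matrix (Lo p r n) (Lo p r n) (KB p r)) :
    (NV p r n → KB p r) →ₗ[KB p r] (BI p r n → KB p r) where
  toFun y q := conjX n g (ext' n y) ((eLH n).symm (q.1, q.2.1.1)) ((eLH n).symm (q.1, q.2.1.2))
  map_add' x y := by
    funext q
    simp [conjX, nmat_add, Matrix.mul_add, Matrix.add_mul]
  map_smul' c x := by
    funext q
    simp [conjX, nmat_smul]

lemma blockMap_eq_zero_iff {g : Matrix (Lo p r n) (Lo p r n) (KB p r)} {y : NV p r n → KB p r} :
    blockMap n g y = 0 ↔ tanZero n g (ext' n y) := by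
  classical
  constructor
  · intro h i j hij
    have h' : ∀ (z : Lo p r n) (q : Hi p r n × Hi p r n), q ≠ 0 →
        conjX n g (ext' n y) ((eLH n).symm (z, q.1)) ((eLH n).symm (z, q.2)) = 0 :=
      fun z q hq => congrFun h (z, ⟨q, hq⟩)
    obtain ⟨⟨z, h1⟩, rfl⟩ := (eLH n).symm.surjective i
    obtain ⟨⟨z', h2⟩, rfl⟩ := (eLH n).symm.surjective j
    simp only [Equiv.apply_symm_apply] at hij
    subst hij
    by_cases hq : (h1, h2) = (0 : Hi p r n × Hi p r n)
    · obtain ⟨rfl, rfl⟩ := Prod.mk.inj hq
      have hp := congrFun (congrFun (ptr_conjX n g (ext' n y)) z) z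
      rw [ptr, Matrix.zero_apply, Finset.sum_eq_single (0 : Hi p r n)] at hp
      · exact hp
      · exact fun h _ hh => h' z (h, h) (by simp [hh])
      · simp
    · exact h' z (h1, h2) hq
  · intro h
    funext q
    exact h _ _ (by simp)

lemma blockMap_surjective {g : Matrix (Lo p r n) (Lo p r n) (KB p r)} (hg : IsUnit g.det) :
    Function.Surjective (blockMap n g) := by
  classical
  intro w
  obtain ⟨hGi, hiG⟩ := G_mul_inv n hg
  let E : Lo p r n → Hi p r n → Hi p r n → KB p r := fun z h h' =>
    if hq : (h, h') ≠ 0 then w (z, ⟨(h, h'), hq⟩) else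
      -∑ k ∈ Finset.univ.erase (0 : Hi p r n), if hk : (k, k) ≠ 0 then w (z, ⟨(k, k), hk⟩) else 0
  let Y : Matrix (Ix p r) (Ix p r) (KB p r) := fun i j =>
    if (eLH n i).1 = (eLH n j).1 then E (eLH n i).1 (eLH n i).2 (eLH n j).2 else 0
  have hY : ptr n Y = 0 := by
    ext x x'
    simp only [ptr, Y, Equiv.apply_symm_apply, Matrix.zero_apply]
    split_ifs with h
    · subst h
      rw [← Finset.sum_erase_add _ _ (Finset.mem_univ (0 : Hi p r n))]
      simp only [E]
      rw [dif_neg (by simp), ← sub_eq_add_neg, sub_eq_zero]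
      refine Finset.sum_congr rfl fun k hk => ?_
      have hk0 : (k, k) ≠ (0 : Hi p r n × Hi p r n) := by
        simpa using Finset.ne_of_mem_erase hk
      rw [dif_pos hk0, dif_pos hk0]
    · exact Finset.sum_const_zero
  let X' := kr n g * Y * kr n g⁻¹
  have hX' : ptr n X' = 0 := by rw [ptr_mul_kr, hY, mul_zero, zero_mul]
  let y : NV p r n → KB p r := fun v => match v with
    | ⟨Sum.inl b, _⟩ => coef b.1 X' / ∏ k, gen (Sum.inr k) ^ (p - (b.1 k).val)
    | ⟨Sum.inr _, _⟩ => 0
  have hn' : nmat n (ext' n y) = X' := by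
    rw [← sum_coef (nmat n (ext' n y)), ← sum_coef X']
    refine Finset.sum_congr rfl fun b _ => ?_
    congr 1
    by_cases hb : isFb n b
    · rw [coef_nmat_F n _ hb, (ptr_eq_zero_iff n _).1 hX' b hb]
    · have hb0 : b ≠ 0 := fun h => hb (h ▸ fun k _ => ⟨rfl, rfl⟩)
      rw [coef_nmat n _ ⟨b, hb0⟩ hb, ext'_normal n _ (b := ⟨b, hb0⟩) hb]
      exact div_mul_cancel₀ _ (scale_ne_zero b)
  refine ⟨y, funext fun q => ?_⟩
  show conjX n g (ext' n y) _ _ = _
  rw [conjX, hn']
  have : kr n g⁻¹ * X' * kr n g = Y := by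
    simp only [X', ← mul_assoc]
    rw [hiG, one_mul, mul_assoc, hiG, mul_one]
  rw [this]
  simp only [Y, E, Equiv.apply_symm_apply, if_true]
  rw [dif_pos q.2.2]

/-- Forms with independent rows and the tangent space as common zero set. -/
theorem exists_forms [NeZero r] (hn : n ≤ r) {g : Matrix (Lo p r n) (Lo p r n) (KB p r)}
    {l : Lo p r n → KB p r} (hg : IsUnit g.det) (hl : Function.Injective l)
    (hAg : A1 n * g = g * Matrix.diagonal l) :
    ∃ (f : Fin (cN p r n) → MvPolynomial (ZT p r) ℂ) (d : Fin (cN p r n) → Co r →₀ ℕ),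
      (∀ i, f i ∈ parP n) ∧ (∀ i, IsWeightedHomogeneous (ztWt p r) (f i) (d i)) ∧
      LinearIndependent (KB p r) (fun i => row n (f i)) ∧
      ∀ x : ZT p r → KB p r, (∀ v, nuW n v = 0 → x v = apt n v) →
        (∀ i, aeval x (weightedHomogeneousComponent (nuW n) 1 (f i)) = 0) → tanZero n g x := by
  classical
  let 𝓕 := {f : MvPolynomial (ZT p r) ℂ //
    f ∈ parP n ∧ ∃ d, IsWeightedHomogeneous (ztWt p r) f d}
  obtain ⟨κ, a, ha, hsp, hli⟩ := exists_linearIndependent' (KB p r) (fun f : 𝓕 => row n f.1)
  have : Finite κ := hli.finite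
  have : Fintype κ := Fintype.ofFinite κ
  let T : Matrix κ (NV p r n) (KB p r) := Matrix.of fun k => row n (a k).1
  have hxy : ∀ (x : ZT p r → KB p r), (∀ v, nuW n v = 0 → x v = apt n v) →
      ext' n (fun v => x v.1) = x := by
    intro x hx
    funext v
    rcases Nat.le_one_iff_eq_zero_or_eq_one.1 (nuW_le n v) with h | h
    · rw [ext'_base n _ v h, hx v h]
    · exact dif_pos h
  have hext : ∀ (y : NV p r n → KB p r) (f : MvPolynomial (ZT p r) ℂ),
      aeval (ext' n y) (weightedHomogeneousComponent (nuW n) 1 f) = ∑ v, y v * row n f v := by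
    intro y f
    rw [aeval_linear n (ext'_base n y) f]
    exact Finset.sum_congr rfl fun v _ => by rw [ext', dif_pos v.2]
  have hker : LinearMap.ker T.mulVecLin = LinearMap.ker (blockMap n g) := by
    ext y
    rw [LinearMap.mem_ker, LinearMap.mem_ker, blockMap_eq_zero_iff]
    constructor
    · intro hy
      have hrows : ∀ k, ∑ v, y v * row n (a k).1 v = 0 := by
        intro k
        have := congrFun hy k
        rw [Pi.zero_apply] at this
        rw [← this]
        simp [T, Matrix.mulVec, dotProduct, mul_comm]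
      refine tanZero_of_linear n hg hl hAg hn (ext'_base n y) fun f hf d hd => ?_
      rw [hext]
      have hmem : row n f ∈ Submodule.span (KB p r) (Set.range ((fun f : 𝓕 => row n f.1) ∘ a)) := by
        rw [hsp]
        exact Submodule.subset_span ⟨⟨f, hf, d, hd⟩, rfl⟩
      obtain ⟨c, hc⟩ := (Submodule.mem_span_range_iff_exists_fun _).1 hmem
      rw [← hc]
      simp only [Finset.sum_apply, Pi.smul_apply, smul_eq_mul, Function.comp_apply, Finset.mul_sum]
      rw [Finset.sum_comm]
      refine Finset.sum_eq_zero fun k _ => ?_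
      simp only [mul_left_comm (y _) (c k), ← Finset.mul_sum, hrows k, mul_zero]
    · intro hy
      funext k
      have hlow : ∀ i < 1, weightedHomogeneousComponent (nuW n) i (a k).1 = 0 := by
        intro i hi
        obtain rfl : i = 0 := by omega
        exact comp0_parP n (a k).2.1
      have := initial_vanish n hg hl hAg (ext'_base n y) hy (a k).2.1 1 hlow
      rw [hext] at this
      rw [Pi.zero_apply, ← this]
      simp [T, Matrix.mulVec, dotProduct, mul_comm]
  have hcard : Fintype.card κ = cN p r n := by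
    have h1 := LinearMap.finrank_range_add_finrank_ker T.mulVecLin
    have h2 := LinearMap.finrank_range_add_finrank_ker (blockMap n g)
    rw [hker] at h1
    rw [LinearMap.range_eq_top.2 (blockMap_surjective n hg), finrank_top,
      Module.finrank_fintype_fun_eq_card, card_BI n hn] at h2
    have h3 : T.rank = Fintype.card κ := LinearIndependent.rank_matrix (M := T) hli
    unfold Matrix.rank at h3
    omega
  let e : Fin (cN p r n) ≃ κ := Fintype.equivOfCardEq (by rw [Fintype.card_fin, hcard])
  choose d hd using fun k : κ => (a k).2.2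
  refine ⟨fun i => (a (e i)).1, fun i => d (e i), fun i => (a (e i)).2.1, fun i => hd (e i),
    hli.comp e e.injective, fun x hx hlin => ?_⟩
  have hy : blockMap n g (fun v : NV p r n => x v.1) = 0 := by
    rw [← LinearMap.mem_ker, ← hker, LinearMap.mem_ker]
    funext k
    have := hlin (e.symm k)
    simp only [Equiv.apply_symm_apply] at this
    rw [aeval_linear n hx] at this
    rw [Pi.zero_apply, ← this]
    simp [T, Matrix.mulVec, dotProduct, mul_comm]
  rw [blockMap_eq_zero_iff, hxy x hx] at hy
  exact hy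

end

end Vale.Agent.P199.K.Start
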