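import Vale.Agent.P199.K.HS.Graded

/-!
P199, START: the initial ideal for a second weight has the same Hilbert series.
-/

namespace Vale.Agent.P199.K.Start

open MvPolynomial
open scoped BigOperators

variable {σ ι : Type} (w : σ → ι →₀ ℕ) (ν : σ → ℕ)

/-- The initial forms, for the weight `ν`, of the homogeneous elements of `P`. -/
def iniForms (P : Ideal (MvPolynomial σ ℂ)) : Set (MvPolynomial σ ℂ) :=
  {g | ∃ f ∈ P, ∃ d j, IsWeightedHomogeneous w f d ∧
    (∀ i < j, weightedHomogeneousComponent ν i f = 0) ∧ g = weightedHomogeneousComponent ν j f}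

/-- The initial ideal for the weight `ν`. -/
noncomputable def ini (P : Ideal (MvPolynomial σ ℂ)) : Ideal (MvPolynomial σ ℂ) :=
  Ideal.span (iniForms w ν P)

/-- A component for one weight keeps homogeneity for another. -/
theorem component_hom {f : MvPolynomial σ ℂ} {d : ι →₀ ℕ} (hf : IsWeightedHomogeneous w f d)
    (j : ℕ) : IsWeightedHomogeneous w (weightedHomogeneousComponent ν j f) d := by
  classical
  intro m hm
  refine hf ?_
  rw [coeff_weightedHomogeneousComponent] at hm
  split_ifs at hm with h
  · exact hm
  · exact absurd rfl hm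

theorem ini_isHom (P : Ideal (MvPolynomial σ ℂ)) : IsHom w (ini w ν P) := by
  refine Gr.isHom_span w ?_
  rintro g ⟨f, _, d, j, hf, _, rfl⟩
  exact ⟨d, component_hom w ν hf j⟩

theorem component_monomial_mul (n : σ →₀ ℕ) (c : ℂ) (f : MvPolynomial σ ℂ) (i : ℕ) :
    weightedHomogeneousComponent ν (Finsupp.weight ν n + i) (monomial n c * f) =
      monomial n c * weightedHomogeneousComponent ν i f := by
  classical
  induction f using MvPolynomial.induction_on' with
  | monomial m a =>
    by_cases h : Finsupp.weight ν m = i
    · subst h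
      rw [IsWeightedHomogeneous.weightedHomogeneousComponent_same
          (isWeightedHomogeneous_monomial ν m a rfl), monomial_mul,
        IsWeightedHomogeneous.weightedHomogeneousComponent_same]
      exact isWeightedHomogeneous_monomial ν _ _ (map_add _ _ _)
    · rw [IsWeightedHomogeneous.weightedHomogeneousComponent_ne i
          (isWeightedHomogeneous_monomial ν m a rfl) (Ne.symm h), mul_zero, monomial_mul,
        IsWeightedHomogeneous.weightedHomogeneousComponent_ne (m := Finsupp.weight ν (n + m))]
      · exact isWeightedHomogeneous_monomial ν _ _ rfl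
      · rw [map_add]
        omega
  | add p q hp hq => rw [mul_add, map_add, map_add, mul_add, hp, hq]

theorem component_monomial_mul_of_lt (n : σ →₀ ℕ) (c : ℂ) (f : MvPolynomial σ ℂ) (i : ℕ)
    (h : i < Finsupp.weight ν n) : weightedHomogeneousComponent ν i (monomial n c * f) = 0 := by
  classical
  induction f using MvPolynomial.induction_on' with
  | monomial m a =>
    rw [monomial_mul, IsWeightedHomogeneous.weightedHomogeneousComponent_ne
      (m := Finsupp.weight ν (n + m))]
    · exact isWeightedHomogeneous_monomial ν _ _ rfl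
    · rw [map_add]
      omega
  | add p q hp hq => rw [mul_add, map_add, hp, hq, add_zero]

/-- The linear span of the initial forms is the initial ideal. -/
theorem ini_eq_span (P : Ideal (MvPolynomial σ ℂ)) :
    (ini w ν P : Set (MvPolynomial σ ℂ)) ⊆ Submodule.span ℂ (iniForms w ν P) := by
  intro g hg
  have hmul : ∀ x y : MvPolynomial σ ℂ, y ∈ Submodule.span ℂ (iniForms w ν P) →
      x * y ∈ Submodule.span ℂ (iniForms w ν P) := by
    intro x y hy
    induction hy using Submodule.span_induction with
    | mem y hy =>
      obtain ⟨f, hfP, d, j, hf, hlow, rfl⟩ := hy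
      induction x using MvPolynomial.induction_on' with
      | monomial n c =>
        refine Submodule.subset_span ⟨monomial n c * f, P.mul_mem_left _ hfP,
          Finsupp.weight w n + d, Finsupp.weight ν n + j,
          (isWeightedHomogeneous_monomial w n c rfl).mul hf, ?_,
          (component_monomial_mul ν n c f j).symm⟩
        intro i hi
        rcases lt_or_ge i (Finsupp.weight ν n) with h | h
        · exact component_monomial_mul_of_lt ν n c f i h
        · obtain ⟨k, rfl⟩ := Nat.exists_eq_add_of_le h
          rw [component_monomial_mul, hlow k (by omega), mul_zero]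
      | add p q hp hq => rw [add_mul]; exact Submodule.add_mem _ hp hq
    | zero => rw [mul_zero]; exact Submodule.zero_mem _
    | add a b _ _ ha hb => rw [mul_add]; exact Submodule.add_mem _ ha hb
    | smul c a _ ha => rw [mul_smul_comm]; exact Submodule.smul_mem _ c ha
  rw [SetLike.mem_coe, ini, Ideal.span] at hg
  induction hg using Submodule.span_induction with
  | mem x hx => exact Submodule.subset_span hx
  | zero => exact Submodule.zero_mem _
  | add a b _ _ ha hb => exact Submodule.add_mem _ ha hb
  | smul c a _ ha => exact hmul c a ha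

/-- The homogeneous elements of `P` of degree `d` without components of weight below `j`. -/
noncomputable def low (P : Ideal (MvPolynomial σ ℂ)) (d : ι →₀ ℕ) (j : ℕ) :
    Submodule ℂ (MvPolynomial σ ℂ) :=
  P.restrictScalars ℂ ⊓ weightedHomogeneousSubmodule ℂ w d ⊓
    ⨅ i ∈ Finset.range j, LinearMap.ker (weightedHomogeneousComponent ν i)

theorem mem_low {P : Ideal (MvPolynomial σ ℂ)} {d : ι →₀ ℕ} {j : ℕ} {f : MvPolynomial σ ℂ} :
    f ∈ low w ν P d j ↔ f ∈ P ∧ IsWeightedHomogeneous w f d ∧
      ∀ i < j, weightedHomogeneousComponent ν i f = 0 := by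
  simp [low, and_assoc]

/-- The initial forms of weight `j` and degree `d`. -/
noncomputable def forms (P : Ideal (MvPolynomial σ ℂ)) (d : ι →₀ ℕ) (j : ℕ) :
    Submodule ℂ (MvPolynomial σ ℂ) :=
  (low w ν P d j).map (weightedHomogeneousComponent ν j)

theorem mem_forms {P : Ideal (MvPolynomial σ ℂ)} {d : ι →₀ ℕ} {j : ℕ} {g : MvPolynomial σ ℂ}
    (h : g ∈ forms w ν P d j) :
    g ∈ ini w ν P ∧ IsWeightedHomogeneous w g d ∧ IsWeightedHomogeneous ν g j := by
  obtain ⟨f, hf, rfl⟩ := h
  rw [SetLike.mem_coe, mem_low] at hf
  exact ⟨Ideal.subset_span ⟨f, hf.1, d, j, hf.2.1, hf.2.2, rfl⟩, component_hom w ν hf.2.1 j,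
    weightedHomogeneousComponent_isWeightedHomogeneous j f⟩

theorem ini_inf_piece (P : Ideal (MvPolynomial σ ℂ)) (d : ι →₀ ℕ) :
    (ini w ν P).restrictScalars ℂ ⊓ weightedHomogeneousSubmodule ℂ w d = ⨆ j, forms w ν P d j := by
  classical
  refine le_antisymm ?_ (iSup_le fun j g hg => ?_)
  · rintro g ⟨hg, hgd⟩
    have hg' := ini_eq_span w ν P hg
    have hmap : weightedHomogeneousComponent w d g ∈ ⨆ j, forms w ν P d j := by
      refine (Submodule.span_le (p := Submodule.comap (weightedHomogeneousComponent w d)
        (⨆ j, forms w ν P d j))).2 ?_ hg'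
      rintro x ⟨f, hfP, d', j, hf, hlow, rfl⟩
      rw [SetLike.mem_coe, Submodule.mem_comap]
      by_cases h : d' = d
      · subst h
        rw [IsWeightedHomogeneous.weightedHomogeneousComponent_same (component_hom w ν hf j)]
        exact Submodule.mem_iSup_of_mem j ⟨f, (mem_low w ν).2 ⟨hfP, hf, hlow⟩, rfl⟩
      · rw [IsWeightedHomogeneous.weightedHomogeneousComponent_ne d (component_hom w ν hf j) (Ne.symm h)]
        exact Submodule.zero_mem _
    rwa [IsWeightedHomogeneous.weightedHomogeneousComponent_same
      ((mem_weightedHomogeneousSubmodule ℂ w d g).1 hgd)] at hmap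
  · obtain ⟨h1, h2, -⟩ := mem_forms w ν hg
    exact ⟨h1, (mem_weightedHomogeneousSubmodule ℂ w d g).2 h2⟩

theorem finrank_ini [Fintype σ] (hw : ∀ v, w v ≠ 0) (P : Ideal (MvPolynomial σ ℂ))
    (d : ι →₀ ℕ) :
    Module.finrank ℂ
        ((ini w ν P).restrictScalars ℂ ⊓ weightedHomogeneousSubmodule ℂ w d : Submodule ℂ _) =
      Module.finrank ℂ
        (P.restrictScalars ℂ ⊓ weightedHomogeneousSubmodule ℂ w d : Submodule ℂ _) := by
  classical
  have := Gr.finite_piece w hw d
  set F := (Gr.finite_weight_eq w hw d).toFinset with hF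
  set N := F.sup (Finsupp.weight ν) + 1 with hN
  have hsupp : ∀ f : MvPolynomial σ ℂ, IsWeightedHomogeneous w f d → ∀ j, N ≤ j →
      weightedHomogeneousComponent ν j f = 0 := by
    intro f hf j hj
    ext m
    rw [coeff_weightedHomogeneousComponent, coeff_zero]
    split_ifs with h
    · by_contra hne
      have hm : m ∈ F := (Gr.finite_weight_eq w hw d).mem_toFinset.2 (hf hne)
      have := Finset.le_sup (f := Finsupp.weight ν) hm
      omega
    · rfl
  have hlow_le : ∀ j, low w ν P d j ≤ weightedHomogeneousSubmodule ℂ w d :=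
    fun j => inf_le_left.trans inf_le_right
  have hforms_le : ∀ j, forms w ν P d j ≤ weightedHomogeneousSubmodule ℂ w d := fun j g hg =>
    (mem_weightedHomogeneousSubmodule ℂ w d g).2 (mem_forms w ν hg).2.1
  let acc : ℕ → Submodule ℂ (MvPolynomial σ ℂ) := fun n =>
    (Finset.range n).sup (forms w ν P d)
  have hacc_le : ∀ n, acc n ≤ weightedHomogeneousSubmodule ℂ w d :=
    fun n => Finset.sup_le fun j _ => hforms_le j
  have key : ∀ n, Module.finrank ℂ (acc n) + Module.finrank ℂ (low w ν P d n) =
      Module.finrank ℂ (low w ν P d 0) := by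
    intro n
    induction n with
    | zero =>
      rw [show acc 0 = ⊥ by simp [acc], finrank_bot, zero_add]
    | succ n ih =>
      have : Module.Finite ℂ (low w ν P d n) :=
        Submodule.finiteDimensional_of_le (hlow_le n)
      have : Module.Finite ℂ (acc n) := Submodule.finiteDimensional_of_le (hacc_le n)
      have : Module.Finite ℂ (forms w ν P d n) := Submodule.finiteDimensional_of_le (hforms_le n)
      have hsup : acc (n + 1) = acc n ⊔ forms w ν P d n := by
        simp only [acc, Finset.range_add_one, Finset.sup_insert, sup_comm]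
      have hdisj : acc n ⊓ forms w ν P d n = ⊥ := by
        refine eq_bot_iff.2 ?_
        rintro g ⟨hg, hgn⟩
        have hker : acc n ≤ LinearMap.ker (weightedHomogeneousComponent ν n) := by
          refine Finset.sup_le fun j hj x hx => ?_
          rw [LinearMap.mem_ker]
          exact IsWeightedHomogeneous.weightedHomogeneousComponent_ne n (mem_forms w ν hx).2.2
            (Finset.mem_range.1 hj).ne'
        have h0 := hker hg
        rw [LinearMap.mem_ker, IsWeightedHomogeneous.weightedHomogeneousComponent_same
          (mem_forms w ν hgn).2.2] at h0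
        exact (Submodule.mem_bot ℂ).2 h0
      have hdim := Submodule.finrank_sup_add_finrank_inf_eq (acc n) (forms w ν P d n)
      rw [hdisj, finrank_bot, add_zero, ← hsup] at hdim
      let φ := (weightedHomogeneousComponent ν n).domRestrict (low w ν P d n)
      have hrn := φ.finrank_range_add_finrank_ker
      have hr : LinearMap.range φ = forms w ν P d n :=
        LinearMap.range_domRestrict _ _
      have hk : LinearMap.ker φ = (low w ν P d (n + 1)).comap (low w ν P d n).subtype := by
        ext ⟨f, hf⟩
        rw [mem_low] at hf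
        simp only [LinearMap.mem_ker, φ, LinearMap.domRestrict_apply, Submodule.mem_comap,
          Submodule.subtype_apply, mem_low]
        refine ⟨fun h => ⟨hf.1, hf.2.1, fun i hi => ?_⟩, fun h => h.2.2 n (Nat.lt_succ_self n)⟩
        rcases Nat.lt_succ_iff_lt_or_eq.1 hi with h' | rfl
        · exact hf.2.2 i h'
        · exact h
      have hle : low w ν P d (n + 1) ≤ low w ν P d n := fun f hf => by
        rw [mem_low] at hf ⊢
        exact ⟨hf.1, hf.2.1, fun i hi => hf.2.2 i (hi.trans (Nat.lt_succ_self n))⟩
      rw [hr, hk, (Submodule.comapSubtypeEquivOfLe hle).finrank_eq] at hrn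
      omega
  have hN0 : low w ν P d N = ⊥ := by
    refine eq_bot_iff.2 fun f hf => (Submodule.mem_bot ℂ).2 ?_
    rw [mem_low] at hf
    rw [← sum_weightedHomogeneousComponent ν f]
    refine finsum_eq_zero_of_forall_eq_zero fun j => ?_
    rcases lt_or_ge j N with h | h
    · exact hf.2.2 j h
    · exact hsupp f hf.2.1 j h
  have hacc : (⨆ j, forms w ν P d j) = acc N := by
    refine le_antisymm (iSup_le fun j => ?_) (Finset.sup_le fun j _ => le_iSup _ j)
    rcases lt_or_ge j N with h | h
    · exact Finset.le_sup (Finset.mem_range.2 h)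
    · rintro g ⟨f, hf, rfl⟩
      rw [SetLike.mem_coe, mem_low] at hf
      rw [hsupp f hf.2.1 j h]
      exact Submodule.zero_mem _
  have h0 : low w ν P d 0 = P.restrictScalars ℂ ⊓ weightedHomogeneousSubmodule ℂ w d := by
    simp [low]
  rw [ini_inf_piece, hacc, ← h0]
  have := key N
  rw [hN0, finrank_bot, add_zero] at this
  exact this

/-- The Hilbert function of an ideal through the dimension of its pieces. -/
theorem hilb_eq [Fintype σ] (hw : ∀ v, w v ≠ 0) (I : Ideal (MvPolynomial σ ℂ)) (d : ι →₀ ℕ) :
    hilb w I d + Module.finrank ℂ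
        (I.restrictScalars ℂ ⊓ weightedHomogeneousSubmodule ℂ w d : Submodule ℂ _) =
      Module.finrank ℂ (weightedHomogeneousSubmodule ℂ w d) := by
  have := Gr.finite_piece w hw d
  rw [hilb, ← (Submodule.comapSubtypeEquivOfLe
    (inf_le_right : I.restrictScalars ℂ ⊓ weightedHomogeneousSubmodule ℂ w d ≤
      weightedHomogeneousSubmodule ℂ w d)).finrank_eq, Submodule.comap_inf,
    Submodule.comap_subtype_self, inf_top_eq]
  exact Submodule.finrank_quotient_add_finrank _

theorem ser_ini [Fintype σ] (hw : ∀ v, w v ≠ 0) (P : Ideal (MvPolynomial σ ℂ)) :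
    ser w (ini w ν P) = ser w P := by
  refine MvPowerSeries.ext fun d => ?_
  show (hilb w (ini w ν P) d : ℤ) = hilb w P d
  have h1 := hilb_eq w hw (ini w ν P) d
  have h2 := hilb_eq w hw P d
  rw [finrank_ini w ν hw P d] at h1
  omega

open Classical in
theorem kpoly_eq_of_ser_eq [Fintype σ] {I J : Ideal (MvPolynomial σ ℂ)}
    (h : ser w I = ser w J) : kpoly w I = kpoly w J := by
  have hK : IsK w I = IsK w J := funext fun K => by rw [IsK, IsK, h]
  have key : ∀ A B : MvPolynomial ι ℤ → Prop, A = B →
      (if h : ∃ K, A K then h.choose else 0) = if h : ∃ K, B K then h.choose else 0 := by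
    rintro A _ rfl
    rfl
  exact key _ _ hK

theorem kpoly_ini [Fintype σ] (hw : ∀ v, w v ≠ 0) (P : Ideal (MvPolynomial σ ℂ)) :
    kpoly w (ini w ν P) = kpoly w P :=
  kpoly_eq_of_ser_eq w (ser_ini w ν hw P)

end Vale.Agent.P199.K.Start
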