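import Vale.Agent.P199.K.HS.Graded
import Vale.Agent.P199.K.HS.Trdeg

/-!
P199, START: the prime cut out by linear forms in the normal variables at a generic base point.
-/

namespace Vale.Agent.P199.K.Start

open MvPolynomial
open scoped BigOperators

noncomputable section

variable {σ ι : Type} [Fintype σ] (w : σ → ι →₀ ℕ) (ν : σ → ℕ) {K : Type} [Field K] [Algebra ℂ K]
  (a : σ → K) {c : ℕ} (ell : Fin c → MvPolynomial σ ℂ) (piv : Fin c → σ)

/-- The matrix of the forms in the pivots. -/
def pivMat : Matrix (Fin c) (Fin c) (MvPolynomial σ ℂ) :=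
  Matrix.of fun i j => pderiv (piv j) (ell i)

/-- The points over the base point on which all the forms vanish. -/
def pts : Set (σ → K) :=
  {x | (∀ v, ν v = 0 → x v = a v) ∧ ∀ i, aeval x (ell i) = 0}

/-- The ideal of these points. -/
def linIdeal : Ideal (MvPolynomial σ ℂ) :=
  ⨅ x ∈ pts ν a ell, RingHom.ker (aeval x : MvPolynomial σ ℂ →ₐ[ℂ] K).toRingHom

lemma mem_linIdeal {f : MvPolynomial σ ℂ} :
    f ∈ linIdeal ν a ell ↔ ∀ x ∈ pts ν a ell, aeval x f = 0 := by
  simp [linIdeal, Ideal.mem_iInf, RingHom.mem_ker]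

lemma forms_le : Ideal.span (Set.range ell) ≤ linIdeal ν a ell := by
  rw [Ideal.span_le]
  rintro _ ⟨i, rfl⟩
  exact (mem_linIdeal ν a ell).2 fun x hx => hx.2 i

lemma aeval_eq_of_weight_zero {f : MvPolynomial σ ℂ} (hf : IsWeightedHomogeneous ν f 0)
    {x : σ → K} (hx : ∀ v, ν v = 0 → x v = a v) : aeval x f = aeval a f := by
  classical
  refine eval₂Hom_congr' rfl (fun v hv _ => hx v ?_) rfl
  obtain ⟨m, hm, hvm⟩ := (mem_vars_iff_mem_support _).1 hv
  have h := hf (mem_support_iff.1 hm)
  rw [Finsupp.weight_apply, Finsupp.sum, Finset.sum_eq_zero_iff] at h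
  have := h v hvm
  simp only [smul_eq_mul, mul_eq_zero] at this
  exact this.resolve_left (Finsupp.mem_support_iff.1 hvm)

/-- Specialisation of the base variables. -/
def baseSpec : MvPolynomial σ ℂ →ₐ[ℂ] MvPolynomial σ K :=
  aeval fun v => if ν v = 0 then C (a v) else X v

lemma baseSpec_eq_zero (hA : ∀ f : MvPolynomial σ ℂ, IsWeightedHomogeneous ν f 0 →
    aeval a f = 0 → f = 0) {f : MvPolynomial σ ℂ} (hf : baseSpec ν a f = 0) : f = 0 := by
  classical
  ext m
  let hi : (σ →₀ ℕ) → σ →₀ ℕ := fun m => m.filter fun v => ν v ≠ 0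
  let lo : (σ →₀ ℕ) → σ →₀ ℕ := fun m => m.filter fun v => ν v = 0
  have hadd : ∀ m, lo m + hi m = m := fun m => Finsupp.filter_pos_add_filter_neg m _
  have hmon : ∀ (m : σ →₀ ℕ) (r : ℂ), baseSpec ν a (monomial m r) =
      monomial (hi m) (aeval a (monomial (lo m) r)) := by
    intro m r
    rw [baseSpec, aeval_monomial, aeval_monomial,
      IsScalarTower.algebraMap_apply ℂ K (MvPolynomial σ K), algebraMap_eq]
    conv_lhs => rw [← hadd m]
    rw [Finsupp.prod_add_index' (by simp) (fun v b1 b2 => pow_add _ _ _)]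
    have h1 : ((lo m).prod fun v k => (if ν v = 0 then C (a v) else X v) ^ k) =
        C ((lo m).prod fun v k => a v ^ k) := by
      rw [map_finsuppProd]
      refine Finsupp.prod_congr fun v hv => ?_
      have : ν v = 0 := by
        simp only [lo, Finsupp.support_filter, Finset.mem_filter] at hv
        exact hv.2
      rw [if_pos this, map_pow]
    have h2 : ((hi m).prod fun v k => (if ν v = 0 then C (a v) else X v) ^ k) =
        (monomial (hi m) (1 : K)) := by
      rw [monomial_eq, C_1, one_mul]
      refine Finsupp.prod_congr fun v hv => ?_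
      have : ν v ≠ 0 := by
        simp only [hi, Finsupp.support_filter, Finset.mem_filter] at hv
        exact hv.2
      rw [if_neg this]
    rw [h1, h2, ← mul_assoc, ← map_mul, C_mul_monomial, mul_one]
  have h0 := congrArg (coeff (hi m)) hf
  rw [f.as_sum, map_sum, coeff_sum] at h0
  simp only [hmon, coeff_monomial, coeff_zero] at h0
  rw [← Finset.sum_filter, ← map_sum] at h0
  have h1 := hA _ (IsWeightedHomogeneous.sum _ _ _ fun x _ =>
    isWeightedHomogeneous_monomial _ _ _ (by
      rw [Finsupp.weight_apply, Finsupp.sum, Finset.sum_eq_zero]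
      intro v hv
      simp only [lo, Finsupp.support_filter, Finset.mem_filter] at hv
      simp [hv.2])) h0
  have h2 := congrArg (coeff (lo m)) h1
  rw [coeff_sum, coeff_zero] at h2
  rw [coeff_zero]
  by_contra hne
  rw [Finset.sum_eq_single m] at h2
  · exact hne (by simpa [coeff_monomial] using h2)
  · intro x hx hxm
    rw [coeff_monomial, if_neg]
    intro he
    simp only [Finset.mem_filter] at hx
    exact hxm (by rw [← hadd x, ← hadd m, he, hx.2])
  · intro h
    exact absurd (by simp [hne]) h

variable (hν : ∀ v, ν v ≤ 1) (hell : ∀ i, IsWeightedHomogeneous ν (ell i) 1)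
  (hA : ∀ f : MvPolynomial σ ℂ, IsWeightedHomogeneous ν f 0 → aeval a f = 0 → f = 0)
  (hpiv : ∀ j, ν (piv j) = 1) (hdet : aeval a (pivMat ell piv).det ≠ 0)

include hell in
lemma pderiv_weight_zero (v : σ) (hv : ν v = 1) (i : Fin c) :
    IsWeightedHomogeneous ν (pderiv v (ell i)) 0 :=
  (hell i).pderiv (by rw [hv, zero_add])

include hell hpiv in
lemma det_weight_zero : IsWeightedHomogeneous ν (pivMat ell piv).det 0 := by
  rw [Matrix.det_apply]
  refine IsWeightedHomogeneous.sum _ _ _ fun σ' _ => ?_
  rw [Units.smul_def, ← Int.cast_smul_eq_zsmul ℂ, smul_eq_C_mul]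
  have h := (isWeightedHomogeneous_C ν ((((Equiv.Perm.sign σ' : ℤˣ) : ℤ)) : ℂ)).mul
    (IsWeightedHomogeneous.prod Finset.univ (fun j => pivMat ell piv (σ' j) j) (fun _ => 0)
      fun j _ => pderiv_weight_zero ν ell hell _ (hpiv j) (σ' j))
  simpa using h

include hν hell in
lemma ell_eq (i : Fin c) :
    ell i = ∑ v ∈ Finset.univ.filter (fun v => ν v = 1), X v * pderiv v (ell i) := by
  classical
  conv_lhs => rw [← one_smul ℕ (ell i), ← (hell i).sum_weight_X_mul_pderiv]
  rw [Finset.sum_filter]
  refine Finset.sum_congr rfl fun v _ => ?_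
  have := hν v
  rcases Nat.le_one_iff_eq_zero_or_eq_one.1 this with h | h <;> simp [h]

include hdet in
lemma piv_injective : Function.Injective piv := by
  intro i j hij
  by_contra hne
  refine hdet ?_
  rw [Matrix.det_zero_of_column_eq hne fun k => by simp [pivMat, hij], map_zero]

include hν hell hpiv hdet in
/-- Cramer: a pivot times the minor is a form in the other variables. -/
lemma cramer (j : Fin c) : ∃ R ∈ supported ℂ (Set.range piv)ᶜ,
    (pivMat ell piv).det * X (piv j) - R ∈ Ideal.span (Set.range ell) := by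
  classical
  set M := pivMat ell piv
  refine ⟨M.det * X (piv j) - ∑ i, M.adjugate j i * ell i, ?_, ?_⟩
  · have hinj := piv_injective a ell piv hdet
    have h0 : ∀ v, ν v = 0 → v ∈ (Set.range piv)ᶜ := by
      rintro v hv ⟨k, rfl⟩
      rw [hpiv k] at hv
      exact one_ne_zero hv
    have hF : ∀ f : MvPolynomial σ ℂ, IsWeightedHomogeneous ν f 0 →
        f ∈ supported ℂ (Set.range piv)ᶜ := by
      intro f hf
      rw [mem_supported]
      intro v hv
      obtain ⟨m, hm, hvm⟩ := (mem_vars_iff_mem_support _).1 hv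
      have h := hf (mem_support_iff.1 hm)
      rw [Finsupp.weight_apply, Finsupp.sum, Finset.sum_eq_zero_iff] at h
      have := h v hvm
      simp only [smul_eq_mul, mul_eq_zero] at this
      exact h0 v (this.resolve_left (Finsupp.mem_support_iff.1 hvm))
    have hadj : ∀ i, IsWeightedHomogeneous ν (M.adjugate j i) 0 := by
      intro i
      rw [Matrix.adjugate_apply, Matrix.det_apply]
      refine IsWeightedHomogeneous.sum _ _ _ fun σ' _ => ?_
      rw [Units.smul_def, ← Int.cast_smul_eq_zsmul ℂ, smul_eq_C_mul]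
      have h := (isWeightedHomogeneous_C ν ((((Equiv.Perm.sign σ' : ℤˣ) : ℤ)) : ℂ)).mul
        (IsWeightedHomogeneous.prod Finset.univ (fun k => M.updateRow i (Pi.single j 1) (σ' k) k)
          (fun _ => 0) fun k _ => by
            rw [Matrix.updateRow_apply]
            split_ifs
            · rw [Pi.single_apply]
              split_ifs
              · exact isWeightedHomogeneous_one _ _
              · exact isWeightedHomogeneous_zero _ _ _
            · exact pderiv_weight_zero ν ell hell _ (hpiv k) (σ' k))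
      simpa using h
    have e : ∑ i, M.adjugate j i * ell i =
        ∑ v ∈ Finset.univ.filter (fun v => ν v = 1),
          X v * ∑ i, M.adjugate j i * pderiv v (ell i) := by
      rw [Finset.sum_congr rfl fun i _ => by rw [ell_eq ν ell hν hell i, Finset.mul_sum],
        Finset.sum_comm]
      refine Finset.sum_congr rfl fun v _ => ?_
      rw [Finset.mul_sum]
      refine Finset.sum_congr rfl fun i _ => ?_
      ring
    have hk : ∀ k, ∑ i, M.adjugate j i * pderiv (piv k) (ell i) = if j = k then M.det else 0 := by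
      intro k
      have := congrFun (congrFun (Matrix.adjugate_mul M) j) k
      rw [Matrix.mul_apply] at this
      simp only [M, pivMat, Matrix.of_apply] at this ⊢
      rw [this, Matrix.smul_apply, Matrix.one_apply]
      split_ifs <;> simp
    rw [e, ← Finset.sum_filter_add_sum_filter_not (Finset.univ.filter fun v => ν v = 1)
      (fun v => v ∈ Set.range piv)]
    have hsum : ∑ v ∈ (Finset.univ.filter fun v => ν v = 1).filter (fun v => v ∈ Set.range piv),
        X v * ∑ i, M.adjugate j i * pderiv v (ell i) = M.det * X (piv j) := by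
      rw [Finset.sum_eq_single (piv j)]
      · rw [hk j, if_pos rfl, mul_comm]
      · intro v hv hne
        obtain ⟨k, rfl⟩ := (Finset.mem_filter.1 hv).2
        rw [hk k, if_neg (fun h => hne (by rw [h])), mul_zero]
      · intro h
        exact absurd (by simp [hpiv j]) h
    rw [hsum, sub_add_eq_sub_sub, sub_self, zero_sub]
    refine neg_mem (sum_mem fun v hv => mul_mem ?_ (sum_mem fun i _ => mul_mem (hF _ (hadj i))
      (hF _ (pderiv_weight_zero ν ell hell v ?_ i))))
    · rw [X_mem_supported]
      exact (Finset.mem_filter.1 hv).2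
    · exact (Finset.mem_filter.1 (Finset.mem_filter.1 hv).1).2
  · rw [sub_sub_cancel]
    exact sum_mem fun i _ => Ideal.mul_mem_left _ _ (Ideal.subset_span ⟨i, rfl⟩)

include hν hell hpiv hdet in
lemma det_supported : (pivMat ell piv).det ∈ supported ℂ (Set.range piv)ᶜ := by
  rw [mem_supported]
  intro v hv
  obtain ⟨m, hm, hvm⟩ := (mem_vars_iff_mem_support _).1 hv
  have h := det_weight_zero ν ell piv hell hpiv (mem_support_iff.1 hm)
  rw [Finsupp.weight_apply, Finsupp.sum, Finset.sum_eq_zero_iff] at h
  have := h v hvm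
  simp only [smul_eq_mul, mul_eq_zero] at this
  rintro ⟨k, rfl⟩
  rcases this with h' | h'
  · exact Finsupp.mem_support_iff.1 hvm h'
  · rw [hpiv k] at h'
    exact one_ne_zero h'

include hν hell hpiv hdet in
/-- Reduction to the variables off the pivots. -/
lemma reduce (f : MvPolynomial σ ℂ) : ∃ (k : ℕ) (h : MvPolynomial σ ℂ),
    h ∈ supported ℂ (Set.range piv)ᶜ ∧
      (pivMat ell piv).det ^ k * f - h ∈ Ideal.span (Set.range ell) := by
  classical
  have hd := det_supported ν a ell piv hν hell hpiv hdet
  induction f using MvPolynomial.induction_on with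
  | C r => exact ⟨0, C r, by simp [mem_supported], by simp⟩
  | add p q hp hq =>
    obtain ⟨k, h, hh, hp⟩ := hp
    obtain ⟨k', h', hh', hq⟩ := hq
    refine ⟨k + k', (pivMat ell piv).det ^ k' * h + (pivMat ell piv).det ^ k * h',
      add_mem (mul_mem (pow_mem hd _) hh) (mul_mem (pow_mem hd _) hh'), ?_⟩
    convert add_mem (Ideal.mul_mem_left _ ((pivMat ell piv).det ^ k') hp)
      (Ideal.mul_mem_left _ ((pivMat ell piv).det ^ k) hq) using 1
    ring
  | mul_X p v hp =>
    obtain ⟨k, h, hh, hp⟩ := hp
    by_cases hv : v ∈ Set.range piv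
    · obtain ⟨j, rfl⟩ := hv
      obtain ⟨R, hR, hj⟩ := cramer ν a ell piv hν hell hpiv hdet j
      refine ⟨k + 1, h * R, mul_mem hh hR, ?_⟩
      convert add_mem (Ideal.mul_mem_left _ ((pivMat ell piv).det * X (piv j)) hp)
        (Ideal.mul_mem_left _ h hj) using 1
      ring
    · refine ⟨k, h * X v, mul_mem hh ((X_mem_supported (R := ℂ)).2 hv), ?_⟩
      convert Ideal.mul_mem_left _ (X v) hp using 1
      ring

include hν hell hA hpiv hdet in
lemma eq_zero_of_supported {h : MvPolynomial σ ℂ} (hh : h ∈ supported ℂ (Set.range piv)ᶜ)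
    (hm : h ∈ linIdeal ν a ell) : h = 0 := by
  classical
  haveI : CharZero K := charZero_of_injective_algebraMap (algebraMap ℂ K).injective
  refine baseSpec_eq_zero ν a hA (MvPolynomial.funext fun y => ?_)
  rw [map_zero]
  let z : σ → K := fun v => if ν v = 0 then a v else if v ∈ Set.range piv then 0 else y v
  let Ma := (pivMat ell piv).map (aeval a : MvPolynomial σ ℂ →ₐ[ℂ] K)
  have hMa : IsUnit Ma.det := by
    refine isUnit_iff_ne_zero.2 ?_
    have := AlgHom.map_det (aeval a : MvPolynomial σ ℂ →ₐ[ℂ] K) (pivMat ell piv)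
    rw [AlgHom.mapMatrix_apply] at this
    rwa [← this]
  let sol : Fin c → K := Ma⁻¹.mulVec fun i => -aeval z (ell i)
  let x : σ → K := fun v => if hv : v ∈ Set.range piv then sol hv.choose else z v
  have hinj := piv_injective a ell piv hdet
  have hxp : ∀ j, x (piv j) = sol j := fun j => by
    have hv : piv j ∈ Set.range piv := ⟨j, rfl⟩
    simp only [x, dif_pos hv, hinj hv.choose_spec]
  have hx0 : ∀ v, ν v = 0 → x v = a v := by
    intro v hv
    have hnr : v ∉ Set.range piv := by
      rintro ⟨k, rfl⟩
      rw [hpiv k] at hv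
      exact one_ne_zero hv
    simp only [x, dif_neg hnr, z, if_pos hv]
  have hz0 : ∀ v, ν v = 0 → z v = a v := fun v hv => if_pos hv
  have hlin : ∀ (i : Fin c) (u : σ → K), (∀ v, ν v = 0 → u v = a v) → aeval u (ell i) =
      ∑ v ∈ Finset.univ.filter (fun v => ν v = 1), u v * aeval a (pderiv v (ell i)) := by
    intro i u hu
    conv_lhs => rw [ell_eq ν ell hν hell i]
    rw [map_sum]
    refine Finset.sum_congr rfl fun v hv => ?_
    rw [map_mul, aeval_X, aeval_eq_of_weight_zero ν a
      (pderiv_weight_zero ν ell hell v (Finset.mem_filter.1 hv).2 i) hu]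
  have hxpts : x ∈ pts ν a ell := by
    refine ⟨hx0, fun i => ?_⟩
    have e : aeval x (ell i) = aeval z (ell i) + ∑ j, Ma i j * sol j := by
      rw [hlin i x hx0, hlin i z hz0]
      have e1 : ∀ v ∈ Finset.univ.filter (fun v => ν v = 1), x v * aeval a (pderiv v (ell i)) =
          z v * aeval a (pderiv v (ell i)) +
            ∑ j, if piv j = v then Ma i j * sol j else 0 := by
        intro v hv
        by_cases hr : v ∈ Set.range piv
        · obtain ⟨j, rfl⟩ := hr
          rw [Finset.sum_eq_single j]
          · have hzj : z (piv j) = 0 := by simp [z, hpiv j]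
            rw [if_pos rfl, hzj, hxp]
            simp [Ma, pivMat, mul_comm]
          · intro k _ hk
            rw [if_neg fun h => hk (hinj h)]
          · simp
        · rw [Finset.sum_eq_zero fun j _ => if_neg fun h => hr ⟨j, h⟩, add_zero]
          simp only [x, dif_neg hr]
      rw [Finset.sum_congr rfl e1, Finset.sum_add_distrib, Finset.sum_comm]
      congr 1
      refine Finset.sum_congr rfl fun j _ => ?_
      rw [Finset.sum_ite_eq, if_pos]
      simp [hpiv j]
    have h2 : (Ma.mulVec sol) i = -aeval z (ell i) := by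
      simp only [sol, Matrix.mulVec_mulVec, Matrix.mul_nonsing_inv _ hMa, Matrix.one_mulVec]
    rw [e]
    rw [Matrix.mulVec] at h2
    rw [show ∑ j, Ma i j * sol j = -aeval z (ell i) from h2, add_neg_cancel]
  have h1 := (mem_linIdeal ν a ell).1 hm x hxpts
  rw [← h1]
  calc eval y (baseSpec ν a h) = aeval (fun v => if ν v = 0 then a v else y v) h := by
        rw [baseSpec, map_aeval]
        rw [aeval_def]
        refine congrArg₂ (fun φ g => eval₂Hom φ g h) (RingHom.ext fun r => ?_) (funext fun v => ?_)
        · rw [RingHom.comp_apply, IsScalarTower.algebraMap_apply ℂ K (MvPolynomial σ K),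
            algebraMap_eq]
          exact eval_C _
        · split_ifs <;> simp
    _ = aeval x h := by
        refine eval₂Hom_congr' rfl (fun v hv _ => ?_) rfl
        have hnr : v ∉ Set.range piv := mem_supported.1 hh hv
        simp only [x, dif_neg hnr, z, hnr, if_false]

include hν hell hA hpiv hdet

lemma exists_pow_mem {f : MvPolynomial σ ℂ} (hf : f ∈ linIdeal ν a ell) :
    ∃ k, (pivMat ell piv).det ^ k * f ∈ Ideal.span (Set.range ell) := by
  obtain ⟨k, h, hh, hJ⟩ := reduce ν a ell piv hν hell hpiv hdet f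
  refine ⟨k, ?_⟩
  have : h = 0 := eq_zero_of_supported ν a ell piv hν hell hA hpiv hdet hh (by
    have := sub_mem (Ideal.mul_mem_left _ ((pivMat ell piv).det ^ k) hf) (forms_le ν a ell hJ)
    rwa [sub_sub_cancel] at this)
  simpa [this] using hJ

lemma det_not_mem : (pivMat ell piv).det ∉ linIdeal ν a ell := by
  intro h
  have h0 := eq_zero_of_supported ν a ell piv hν hell hA hpiv hdet
    (det_supported ν a ell piv hν hell hpiv hdet) h
  exact hdet (by rw [h0, map_zero])

lemma linIdeal_isPrime : (linIdeal ν a ell).IsPrime := by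
  refine ⟨fun h => det_not_mem ν a ell piv hν hell hA hpiv hdet (by rw [h]; trivial), ?_⟩
  intro f g hfg
  obtain ⟨k, hf, hfs, hfJ⟩ := reduce ν a ell piv hν hell hpiv hdet f
  obtain ⟨k', hg, hgs, hgJ⟩ := reduce ν a ell piv hν hell hpiv hdet g
  have hfJ' := forms_le ν a ell hfJ
  have hgJ' := forms_le ν a ell hgJ
  have h : hf * hg ∈ linIdeal ν a ell := by
    convert sub_mem (Ideal.mul_mem_left _ ((pivMat ell piv).det ^ (k + k')) hfg)
      (add_mem (Ideal.mul_mem_left _ ((pivMat ell piv).det ^ k' * g) hfJ')
        (Ideal.mul_mem_left _ hf hgJ')) using 1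
    ring
  have key : ∀ (f' h' : MvPolynomial σ ℂ) (j : ℕ),
      (pivMat ell piv).det ^ j * f' - h' ∈ linIdeal ν a ell → h' = 0 →
        f' ∈ linIdeal ν a ell := by
    intro f' h' j hmem h0
    rw [h0, sub_zero] at hmem
    rw [mem_linIdeal] at hmem ⊢
    intro x hx
    have := hmem x hx
    rw [map_mul, map_pow, aeval_eq_of_weight_zero ν a (det_weight_zero ν ell piv hell hpiv) hx.1]
      at this
    exact (mul_eq_zero.1 this).resolve_left (pow_ne_zero _ hdet)
  rcases mul_eq_zero.1 (eq_zero_of_supported ν a ell piv hν hell hA hpiv hdet (mul_mem hfs hgs) h)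
    with h0 | h0
  · exact Or.inl (key f hf k hfJ' h0)
  · exact Or.inr (key g hg k' hgJ' h0)

lemma linIdeal_isHom (d : Fin c → ι →₀ ℕ) (hd : ∀ i, IsWeightedHomogeneous w (ell i) (d i)) :
    IsHom w (linIdeal ν a ell) := by
  classical
  have hprime := linIdeal_isPrime ν a ell piv hν hell hA hpiv hdet
  have hnot := det_not_mem ν a ell piv hν hell hA hpiv hdet
  set δ := (pivMat ell piv).det
  have hne : δ ≠ 0 := fun h => hdet (by rw [h, map_zero])
  obtain ⟨e, hde⟩ : ∃ e, IsWeightedHomogeneous w δ e := by
    have hentry : ∀ i j, IsWeightedHomogeneous w (pderiv (piv j) (ell i) * X (piv j)) (d i) := by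
      intro i j
      intro m hm
      refine hd i ?_
      intro h0
      apply hm
      rw [mul_comm, coeff_X_mul']
      split_ifs with hmem
      · rw [coeff_pderiv]
        have hm' : (m - Finsupp.single (piv j) 1) + Finsupp.single (piv j) 1 = m := by
          ext v
          by_cases hv : v = piv j
          · subst hv
            have := Finsupp.mem_support_iff.1 hmem
            simp; omega
          · simp [hv]
        rw [hm', h0, zero_mul]
      · rfl
    have hprod : IsWeightedHomogeneous w (δ * ∏ j, X (piv j)) (∑ i, d i) := by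
      have e1 : δ * ∏ j, X (piv j) =
          (Matrix.of fun i j => pderiv (piv j) (ell i) * X (piv j)).det := by
        rw [mul_comm, ← Matrix.det_mul_row]
        congr 1
        ext i j
        simp [pivMat, mul_comm]
      rw [e1, Matrix.det_apply]
      refine IsWeightedHomogeneous.sum _ _ _ fun σ' _ => ?_
      rw [Units.smul_def, ← Int.cast_smul_eq_zsmul ℂ, smul_eq_C_mul]
      have h := (isWeightedHomogeneous_C w ((((Equiv.Perm.sign σ' : ℤˣ) : ℤ)) : ℂ)).mul
        (IsWeightedHomogeneous.prod Finset.univ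
          (fun j => (Matrix.of fun i j => pderiv (piv j) (ell i) * X (piv j)) (σ' j) j)
          (fun j => d (σ' j)) fun j _ => by rw [Matrix.of_apply]; exact hentry (σ' j) j)
      rw [Equiv.sum_comp σ' d, zero_add] at h
      exact h
    obtain ⟨m₀, hm₀⟩ := ne_zero_iff.1 hne
    have hX : (∏ j, X (piv j) : MvPolynomial σ ℂ) =
        monomial (∑ j, Finsupp.single (piv j) 1) 1 := by
      rw [monomial_sum_one]
      rfl
    refine ⟨Finsupp.weight w m₀, fun m hm => ?_⟩
    have key : ∀ m, coeff m δ ≠ 0 →
        Finsupp.weight w m + Finsupp.weight w (∑ j, Finsupp.single (piv j) 1) = ∑ i, d i := by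
      intro m hm
      rw [← map_add]
      refine hprod ?_
      rw [hX, coeff_mul_monomial, mul_one]
      exact hm
    exact add_right_cancel ((key m hm).trans (key m₀ hm₀).symm)
  intro f hf t
  obtain ⟨k, hk⟩ := exists_pow_mem ν a ell piv hν hell hA hpiv hdet hf
  have hJ : IsHom w (Ideal.span (Set.range ell)) :=
    Gr.isHom_span w (by rintro _ ⟨i, rfl⟩; exact ⟨d i, hd i⟩)
  have h1 := hJ _ hk (k • e + t)
  have e2 : weightedHomogeneousComponent w (k • e + t) (δ ^ k * f) =
      δ ^ k * weightedHomogeneousComponent w t f := by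
    ext m
    simp only [coeff_weightedHomogeneousComponent, coeff_mul]
    split_ifs with hm
    · refine Finset.sum_congr rfl fun x hx => ?_
      rw [Finset.HasAntidiagonal.mem_antidiagonal] at hx
      by_cases hc : coeff x.1 (δ ^ k) = 0
      · simp [hc]
      · have hw1 := hde.pow k hc
        have hw2 : Finsupp.weight w x.2 = t := by
          rw [← hx, map_add, hw1] at hm
          exact add_left_cancel hm
        rw [if_pos hw2]
    · symm
      refine Finset.sum_eq_zero fun x hx => ?_
      rw [Finset.HasAntidiagonal.mem_antidiagonal] at hx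
      by_cases hc : coeff x.1 (δ ^ k) = 0
      · simp [hc]
      · rw [if_neg, mul_zero]
        intro hw2
        exact hm (by rw [← hx, map_add, hde.pow k hc, hw2])
  rw [e2] at h1
  exact (hprime.mem_or_mem (forms_le ν a ell h1)).resolve_left
    fun h => hnot (hprime.mem_of_pow_mem _ h)

lemma codim_linIdeal : codim (linIdeal ν a ell) = c := by
  classical
  have hprime := linIdeal_isPrime ν a ell piv hν hell hA hpiv hdet
  set L := linIdeal ν a ell
  have hinj := piv_injective a ell piv hdet
  let np : Finset σ := (Finset.univ.image piv)ᶜ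
  have hnp : ∀ v, v ∈ np ↔ v ∈ (Set.range piv)ᶜ := fun v => by simp [np]
  have hcard : np.card = Fintype.card σ - c := by
    simp [np, Finset.card_compl, Finset.card_image_of_injective _ hinj]
  have hc : c ≤ Fintype.card σ := by
    simpa using Fintype.card_le_of_injective piv hinj
  let ψ : MvPolynomial np ℂ →ₐ[ℂ] MvPolynomial σ ℂ ⧸ L :=
    (Ideal.Quotient.mkₐ ℂ L).comp (rename Subtype.val)
  have hψ : Function.Injective ψ := by
    rw [injective_iff_map_eq_zero]
    intro f hf
    refine rename_injective _ Subtype.val_injective (a₂ := 0) ?_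
    rw [map_zero]
    refine eq_zero_of_supported ν a ell piv hν hell hA hpiv hdet ?_
      (Ideal.Quotient.eq_zero_iff_mem.1 hf)
    rw [mem_supported]
    intro v hv
    obtain ⟨u, _, rfl⟩ := Finset.mem_image.1 (vars_rename _ _ hv)
    exact (hnp _).1 u.2
  have hlo := trdeg_le_of_injective ψ hψ
  rw [MvPolynomial.trdeg_of_isDomain, Cardinal.mk_coe_finset] at hlo
  simp only [Cardinal.lift_natCast] at hlo
  let Z : Finset (MvPolynomial σ ℂ ⧸ L) := np.image fun v => Ideal.Quotient.mkₐ ℂ L (X v)
  have hup : Algebra.trdeg ℂ (MvPolynomial σ ℂ ⧸ L) ≤ (np.card : ℕ) := by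
    refine le_trans (Trdeg.trdeg_le_of_algebraic (AlgHom.id ℂ _) Function.injective_id Z ?_)
      (by exact_mod_cast Finset.card_image_le)
    set A0 := Algebra.adjoin ℂ (Z : Set (MvPolynomial σ ℂ ⧸ L))
    have hsup : ∀ h ∈ supported ℂ (Set.range piv)ᶜ, Ideal.Quotient.mkₐ ℂ L h ∈ A0 := by
      intro h hh
      rw [supported_eq_adjoin_X] at hh
      induction hh using Algebra.adjoin_induction with
      | mem x hx =>
        obtain ⟨v, hv, rfl⟩ := hx
        exact Algebra.subset_adjoin (Finset.mem_image.2 ⟨v, (hnp v).2 hv, rfl⟩)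
      | algebraMap r => rw [AlgHom.commutes]; exact A0.algebraMap_mem r
      | add x y _ _ hx hy => rw [map_add]; exact add_mem hx hy
      | mul x y _ _ hx hy => rw [map_mul]; exact mul_mem hx hy
    intro x
    obtain ⟨f, rfl⟩ := Ideal.Quotient.mkₐ_surjective ℂ L x
    obtain ⟨k, h, hh, hJ⟩ := reduce ν a ell piv hν hell hpiv hdet f
    have e : Ideal.Quotient.mkₐ ℂ L ((pivMat ell piv).det ^ k) * Ideal.Quotient.mkₐ ℂ L f =
        Ideal.Quotient.mkₐ ℂ L h := by
      rw [← map_mul]
      exact Ideal.Quotient.eq.2 (forms_le ν a ell hJ)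
    have hb : Ideal.Quotient.mkₐ ℂ L ((pivMat ell piv).det ^ k) ≠ 0 := fun h0 =>
      det_not_mem ν a ell piv hν hell hA hpiv hdet
        (hprime.mem_of_pow_mem _ (Ideal.Quotient.eq_zero_iff_mem.1 h0))
    let bA : A0 := ⟨_, hsup _ (pow_mem (det_supported ν a ell piv hν hell hpiv hdet) k)⟩
    let cA : A0 := ⟨_, hsup _ hh⟩
    refine ⟨Polynomial.C bA * Polynomial.X - Polynomial.C cA, ?_, ?_⟩
    · intro h0
      have := congrArg (Polynomial.coeff · 1) h0
      simp [Polynomial.coeff_C] at this
      exact hb (congrArg Subtype.val this)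
    · simp only [map_sub, map_mul, Polynomial.aeval_C, Polynomial.aeval_X, AlgHom.id_apply]
      show bA.1 * _ - cA.1 = 0
      rw [e, sub_self]
  have : Algebra.trdeg ℂ (MvPolynomial σ ℂ ⧸ L) = (np.card : ℕ) := le_antisymm hup hlo
  rw [codim, this, Cardinal.toNat_natCast, hcard]
  omega

end

end Vale.Agent.P199.K.Start
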