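import Vale.Agent.P199.K.Start.Weyl
import Vale.Agent.P199.K.Root
import Vale.Agent.P199.K.HS.Graded

/-!
P199, START: the parametrised prime and the root identities.
-/

namespace Vale.Agent.P199.K.Start

open MvPolynomial
open scoped BigOperators

noncomputable section

lemma ch_map_sum {p : ℕ} [Fact p.Prime] {α : Type} (s : Finset α) (f : α → ZMod p) :
    ch p (∑ x ∈ s, f x) = ∏ x ∈ s, ch p (f x) := by
  classical
  induction s using Finset.induction_on with
  | empty => simp
  | insert x s hx h => rw [Finset.sum_insert hx, AddChar.map_add_eq_mul, h, Finset.prod_insert hx]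

/-! ## Root identities for matrices -/

section Root

variable {ι R : Type} [Fintype ι] [DecidableEq ι] [CommRing R]

lemma rootCoeff_map [Algebra ℚ R] {R' : Type} [CommRing R'] [Algebra ℚ R'] (φ : R →+* R')
    (m M l : ℕ) (χ : Polynomial R) : φ (rootCoeff m M l χ) = rootCoeff m M l (χ.map φ) := by
  rw [rootCoeff, rootCoeff, ← Polynomial.coeff_map, Polynomial.map_sum]
  congr 1
  refine Finset.sum_congr rfl fun k _ => ?_
  rw [Polynomial.map_smul, RingHom.map_rat_algebraMap, Polynomial.map_pow, Polynomial.map_sub,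
    Polynomial.map_one, Polynomial.reflect_map]

/-- The polynomial with the coefficients of the formal root. -/
def rootPoly [Algebra ℚ R] (m N : ℕ) (χ : Polynomial R) : Polynomial R :=
  ∑ l ∈ Finset.range (N + 1), Polynomial.C (rootCoeff m (N * m) l χ) * Polynomial.X ^ (N - l)

lemma rootPoly_map [Algebra ℚ R] {R' : Type} [CommRing R'] [Algebra ℚ R'] (φ : R →+* R')
    (m N : ℕ) (χ : Polynomial R) : (rootPoly m N χ).map φ = rootPoly m N (χ.map φ) := by
  simp [rootPoly, Polynomial.map_sum, rootCoeff_map φ]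

lemma rootPoly_pow [Algebra ℚ R] {m N : ℕ} (hm : 0 < m) {q : Polynomial R} (hq : q.Monic)
    (hd : q.natDegree = N) : rootPoly m N (q ^ m) = q := by
  rw [rootPoly, Finset.sum_congr rfl fun l hl => by
    rw [rootPin R q N m hq hd hm l (by simpa using Nat.lt_succ_iff.1 (Finset.mem_range.1 hl))]]
  conv_rhs => rw [q.as_sum_range_C_mul_X_pow, hd, ← Finset.sum_range_reflect]
  refine Finset.sum_congr rfl fun l hl => ?_
  have : N + 1 - 1 - l = N - l := by omega
  rw [this]

lemma rootPoly_monic [Algebra ℚ R] [Nontrivial R] (m N : ℕ) (χ : Polynomial R) :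
    (rootPoly m N χ).Monic ∧ (rootPoly m N χ).natDegree = N := by
  have h0 : rootCoeff m (N * m) 0 χ = 1 := by simp [rootCoeff]
  have e : rootPoly m N χ = Polynomial.X ^ N +
      ∑ l ∈ Finset.range N, Polynomial.C (rootCoeff m (N * m) (l + 1) χ) *
        Polynomial.X ^ (N - (l + 1)) := by
    rw [rootPoly, Finset.sum_range_succ', h0, Polynomial.C_1, one_mul, Nat.sub_zero, add_comm]
  have hlt : (∑ l ∈ Finset.range N, Polynomial.C (rootCoeff m (N * m) (l + 1) χ) *
      Polynomial.X ^ (N - (l + 1))).degree < (N : WithBot ℕ) := by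
    refine lt_of_le_of_lt (Polynomial.degree_sum_le _ _) ?_
    rw [Finset.sup_lt_iff (WithBot.bot_lt_coe _)]
    intro l hl
    refine lt_of_le_of_lt (Polynomial.degree_C_mul_X_pow_le _ _) ?_
    have := Finset.mem_range.1 hl
    exact_mod_cast (by omega : N - (l + 1) < N)
  have hm : (rootPoly m N χ).Monic := e ▸ Polynomial.monic_X_pow_add hlt
  refine ⟨hm, Polynomial.natDegree_eq_of_degree_eq_some ?_⟩
  rw [e, Polynomial.degree_add_eq_left_of_degree_lt (by rwa [Polynomial.degree_X_pow]),
    Polynomial.degree_X_pow]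

lemma root_of_intertwined [IsDomain R] {ξ : Type} [Fintype ξ] [DecidableEq ξ] {m : ℕ} {Z g : Matrix ι ι R}
    (hg : g.det ≠ 0) (blk : ι → ξ) (hblk : ∀ x, Fintype.card {i // blk i = x} = m) (μ : ξ → R)
    (h : Z * g = g * Matrix.diagonal fun i => μ (blk i)) :
    Z.charpoly = (∏ x, (Polynomial.X - Polynomial.C (μ x))) ^ m ∧
      Polynomial.aeval Z (∏ x, (Polynomial.X - Polynomial.C (μ x))) = 0 := by
  classical
  constructor
  · have h1 : Z.charmatrix * g.map Polynomial.C =
        g.map Polynomial.C * (Matrix.diagonal fun i => μ (blk i)).charmatrix := by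
      rw [Matrix.charmatrix, Matrix.charmatrix, sub_mul, mul_sub,
        RingHom.mapMatrix_apply, RingHom.mapMatrix_apply, ← Matrix.map_mul, ← Matrix.map_mul, h]
      rw [← (Matrix.scalar_commute _ (fun x => Commute.all _ x) (g.map Polynomial.C)).eq]
    have h2 := congrArg Matrix.det h1
    rw [Matrix.det_mul, Matrix.det_mul, mul_comm (g.map Polynomial.C).det] at h2
    have hg' : (g.map Polynomial.C).det ≠ 0 := by
      rw [← RingHom.mapMatrix_apply, ← RingHom.map_det]
      exact fun h0 => hg (Polynomial.C_eq_zero.1 h0)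
    have h3 := mul_right_cancel₀ hg' h2
    rw [Matrix.charpoly, h3, ← Matrix.charpoly, Matrix.charpoly_diagonal,
      ← Finset.prod_fiberwise' Finset.univ blk (fun x => Polynomial.X - Polynomial.C (μ x)),
      ← Finset.prod_pow]
    refine Finset.prod_congr rfl fun x _ => ?_
    rw [Finset.prod_const]
    congr 1
    rw [← hblk x, Fintype.card_subtype]
  · set q := ∏ x, (Polynomial.X - Polynomial.C (μ x))
    have hpow : ∀ k : ℕ, Z ^ k * g = g * (Matrix.diagonal fun i => μ (blk i)) ^ k := by
      intro k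
      induction k with
      | zero => simp
      | succ k ih => rw [pow_succ, mul_assoc, h, ← mul_assoc, ih, mul_assoc, ← pow_succ]
    have hq : Polynomial.aeval Z q * g =
        g * Polynomial.aeval (Matrix.diagonal fun i => μ (blk i)) q := by
      rw [Polynomial.aeval_eq_sum_range, Polynomial.aeval_eq_sum_range, Finset.sum_mul,
        Finset.mul_sum]
      refine Finset.sum_congr rfl fun k _ => ?_
      rw [smul_mul_assoc, hpow, mul_smul_comm]
    have hdiag : Polynomial.aeval (Matrix.diagonal fun i => μ (blk i)) q = 0 := by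
      show Polynomial.aeval (Matrix.diagonalAlgHom R fun i => μ (blk i)) q = 0
      rw [Polynomial.aeval_algHom_apply, Polynomial.aeval_pi_apply]
      refine (congrArg (Matrix.diagonalAlgHom R) (funext fun j => ?_)).trans (map_zero _)
      rw [map_prod]
      exact Finset.prod_eq_zero (Finset.mem_univ (blk j)) (by simp)
    rw [hdiag, mul_zero] at hq
    have := congrArg (· * g.adjugate) hq
    simp only [mul_assoc, Matrix.mul_adjugate, mul_smul_comm, mul_one, zero_mul] at this
    exact (smul_eq_zero.1 this).resolve_left hg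

end Root

/-! ## The parametrisation -/

variable {p r : ℕ} [Fact p.Prime] (n : ℕ)

/-- The parameters. -/
abbrev PV (p r n : ℕ) : Type := ((Ix p r × Ix p r) ⊕ Lo p r n) ⊕ Co r

/-- The generic change of basis, over the parameters without the roots. -/
def g0 : Matrix (Ix p r) (Ix p r) (MvPolynomial ((Ix p r × Ix p r) ⊕ Lo p r n) ℂ) :=
  fun i j => X (Sum.inl (i, j))

/-- The generic diagonal. -/
def D0 : Matrix (Ix p r) (Ix p r) (MvPolynomial ((Ix p r × Ix p r) ⊕ Lo p r n) ℂ) :=
  Matrix.diagonal fun i => X (Sum.inr (eLH n i).1)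

/-- A scalar multiple of the generic conjugate. -/
def Q0 : Matrix (Ix p r) (Ix p r) (MvPolynomial ((Ix p r × Ix p r) ⊕ Lo p r n) ℂ) :=
  g0 n * D0 n * (g0 n).adjugate

lemma g0_det_ne_zero : (g0 n : Matrix (Ix p r) (Ix p r) _).det ≠ 0 := by
  intro h
  have := congrArg (aeval (Sum.elim (fun v : Ix p r × Ix p r => if v.1 = v.2 then (1 : ℂ) else 0)
    (fun _ => 0))) h
  rw [AlgHom.map_det, map_zero] at this
  refine one_ne_zero (α := ℂ) (Eq.trans ?_ this)
  rw [← Matrix.det_one (n := Ix p r)]
  congr 1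
  ext i j
  simp [g0, Matrix.one_apply]

/-- The point, in the coordinates `z, u`. -/
def psiU : MvPolynomial (ZT p r) ℂ →ₐ[ℂ] MvPolynomial (PV p r n) ℂ :=
  aeval (Sum.elim
    (fun b => (∏ i, (X (Sum.inr i) : MvPolynomial (PV p r n) ℂ) ^ (b.1 i).val) *
      rename Sum.inl (coef b.1 (Q0 n)))
    (fun i => X (Sum.inr i)))

/-- The substitution `t = u ^ p`. -/
def iotaU : MvPolynomial (ZT p r) ℂ →ₐ[ℂ] MvPolynomial (ZT p r) ℂ :=
  aeval (Sum.elim (fun b => X (Sum.inl b)) (fun i => X (Sum.inr i) ^ p))

/-- The prime. -/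
def parP : Ideal (MvPolynomial (ZT p r) ℂ) :=
  RingHom.ker ((psiU (p := p) (r := r) n).comp iotaU).toRingHom

lemma parP_isPrime : (parP (p := p) (r := r) n).IsPrime := RingHom.ker_isPrime _

lemma mem_parP {f : MvPolynomial (ZT p r) ℂ} : f ∈ parP n ↔ psiU n (iotaU f) = 0 := by
  simp [parP, RingHom.mem_ker]

/-! ### Homogeneity -/

/-- The degree in the roots. -/
def wU : PV p r n → Co r →₀ ℕ := Sum.elim (fun _ => 0) (fun i => Finsupp.single i 1)

lemma tdeg_ne_zero_apply [NeZero r] {b : Gp p r} (hb : b ≠ 0) (i : Co r) :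
    tdeg p r b i = (b i).val := by
  simp [tdeg, hb]

lemma isHom_parP [NeZero r] : IsHom (ztWt p r) (parP (p := p) (r := r) n) := by
  classical
  intro f hf d
  have hgen : ∀ v : ZT p r, IsWeightedHomogeneous (wU n)
      (psiU (p := p) (r := r) n (iotaU (X v))) (ztWt p r v) := by
    rintro (b | i)
    · have h1 : IsWeightedHomogeneous (wU n)
          (∏ i, (X (Sum.inr i) : MvPolynomial (PV p r n) ℂ) ^ (b.1 i).val) (tdeg p r b.1) := by
        have h := IsWeightedHomogeneous.prod (w := wU n) Finset.univ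
          (fun i => (X (Sum.inr i) : MvPolynomial (PV p r n) ℂ) ^ (b.1 i).val)
          (fun i => (b.1 i).val • Finsupp.single i 1)
          fun i _ => (isWeightedHomogeneous_X ℂ (wU n) (Sum.inr i)).pow _
        have e : (∑ i, (b.1 i).val • Finsupp.single i 1 : Co r →₀ ℕ) = tdeg p r b.1 := by
          ext j
          rw [tdeg_ne_zero_apply b.2, Finsupp.finsetSum_apply, Finset.sum_eq_single j]
          · simp
          · intro i _ hi; simp [hi]
          · simp
        rwa [e] at h
      have h2 : IsWeightedHomogeneous (wU n)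
          (rename Sum.inl (coef b.1 (Q0 n)) : MvPolynomial (PV p r n) ℂ) 0 := by
        intro m hm
        obtain ⟨u, hu, -⟩ := coeff_rename_ne_zero _ _ _ hm
        rw [← hu, Finsupp.weight_apply, Finsupp.sum_mapDomain_index (by simp) (by simp [add_smul])]
        simp [wU]
      have h3 := h1.mul h2
      rw [add_zero] at h3
      simpa [psiU, iotaU, ztWt] using h3
    · have h := (isWeightedHomogeneous_X ℂ (wU (p := p) n) (Sum.inr i)).pow p
      simpa [psiU, iotaU, ztWt, wU] using h
  have hmon : ∀ (m : ZT p r →₀ ℕ) (c : ℂ), IsWeightedHomogeneous (wU n)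
      (psiU (p := p) (r := r) n (iotaU (monomial m c))) (Finsupp.weight (ztWt p r) m) := by
    intro m c
    rw [monomial_eq, map_mul, map_mul, Finsupp.prod, map_prod, map_prod, Finsupp.weight_apply,
      Finsupp.sum, ← algebraMap_eq, AlgHom.commutes, AlgHom.commutes, algebraMap_eq]
    have h := (isWeightedHomogeneous_C (wU (p := p) (r := r) n) c).mul
      (IsWeightedHomogeneous.prod (w := wU n) m.support
        (fun v => psiU (p := p) (r := r) n (iotaU (X v ^ m v))) (fun v => m v • ztWt p r v)
        fun v _ => by rw [map_pow, map_pow]; exact (hgen v).pow _)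
    rwa [zero_add] at h
  have key : ∀ g : MvPolynomial (ZT p r) ℂ,
      psiU n (iotaU (weightedHomogeneousComponent (ztWt p r) d g)) =
        weightedHomogeneousComponent (wU n) d (psiU n (iotaU g)) := by
    intro g
    induction g using MvPolynomial.induction_on' with
    | add x y hx hy => simp only [map_add, hx, hy]
    | monomial m c =>
      by_cases hm : Finsupp.weight (ztWt p r) m = d
      · rw [(isWeightedHomogeneous_monomial _ _ c hm).weightedHomogeneousComponent_same,
          (hm ▸ hmon m c : IsWeightedHomogeneous (wU n) _ d).weightedHomogeneousComponent_same]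
      · rw [(isWeightedHomogeneous_monomial _ m c rfl).weightedHomogeneousComponent_ne d (Ne.symm hm),
          map_zero, map_zero, (hmon m c).weightedHomogeneousComponent_ne d (Ne.symm hm)]
  rw [mem_parP] at hf ⊢
  rw [key, hf, map_zero]

/-! ### Symmetry and transfer -/

/-- The root of unity by which conjugation rescales `u`. -/
def esc (c : Gp p r) : Co r → ℂ :=
  Sum.elim (fun k => ch p (-c (Sum.inr k))) (fun k => ch p (c (Sum.inl k)))

lemma ch_pow_val (x y : ZMod p) : ch p x ^ y.val = ch p (y * x) := by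
  rw [← AddChar.map_nsmul_eq_pow, nsmul_eq_mul, ZMod.natCast_zmod_val]

lemma esc_mul_chi (c b : Gp p r) : (∏ i, esc c i ^ (b i).val) * chi c b = 1 := by
  simp only [esc, Fintype.prod_sum_type, Sum.elim_inl, Sum.elim_inr, ch_pow_val, chi]
  rw [← ch_map_sum, ← ch_map_sum, ← AddChar.map_add_eq_mul,
    ← AddChar.map_add_eq_mul]
  rw [← (ch p).map_zero_eq_one]
  congr 1
  simp only [pdot, pI, mul_neg, Finset.sum_neg_distrib]
  rw [Finset.sum_congr rfl fun k _ => mul_comm (b (Sum.inl k)) (c (Sum.inr k))]
  ring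

/-- The rescaling of `u`. -/
def xi (c : Gp p r) : MvPolynomial (ZT p r) ℂ →ₐ[ℂ] MvPolynomial (ZT p r) ℂ :=
  aeval (Sum.elim (fun b => X (Sum.inl b)) (fun i => C (esc c i) * X (Sum.inr i)))

/-- Conjugation of the parameters by a Weyl matrix. -/
def tau0 (c : Gp p r) : MvPolynomial ((Ix p r × Ix p r) ⊕ Lo p r n) ℂ →ₐ[ℂ]
    MvPolynomial ((Ix p r × Ix p r) ⊕ Lo p r n) ℂ :=
  aeval (Sum.elim (fun v => twist c (g0 n) v.1 v.2)
    (fun x => X (Sum.inr (x - (eLH n (pI c)).1))))

lemma tau0_Q0 (c : Gp p r) : (Q0 n).map (tau0 n c) = twist c (Q0 n) := by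
  have hg : (g0 n).map (tau0 (p := p) n c) = twist c (g0 n) := by
    ext i j; simp [tau0, g0]
  have hD : (D0 n).map (tau0 (p := p) n c) = twist c (D0 n) := by
    rw [D0, twist_diagonal, Matrix.diagonal_map (map_zero _)]
    congr 1
    funext i
    simp only [tau0, aeval_X, Sum.elim_inr]
    rw [show (eLH n (i - pI c)).1 = (eLH n i).1 - (eLH n (pI c)).1 from rfl]
  rw [Q0, Matrix.map_mul, Matrix.map_mul, hg, hD]
  have hadj : ((g0 n).adjugate).map (tau0 (p := p) n c) = ((g0 n).map (tau0 n c)).adjugate :=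
    AlgHom.map_adjugate (tau0 n c) (g0 n)
  rw [hadj, hg, adjugate_twist c _ (g0_det_ne_zero n), ← twist_mul, ← twist_mul]

lemma psiU_xi (c : Gp p r) {f : MvPolynomial (ZT p r) ℂ} (hf : psiU n f = 0) :
    psiU n (xi c f) = 0 := by
  let τ : MvPolynomial (PV p r n) ℂ →ₐ[ℂ] MvPolynomial (PV p r n) ℂ :=
    aeval (Sum.elim (fun v => rename Sum.inl (tau0 n c (X v)))
      (fun i => C (esc c i) * X (Sum.inr i)))
  have hτ : ∀ h : MvPolynomial ((Ix p r × Ix p r) ⊕ Lo p r n) ℂ,
      τ (rename Sum.inl h) = rename Sum.inl (tau0 n c h) := by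
    intro h
    have e : τ.comp (rename (R := ℂ) (Sum.inl : _ → PV p r n)) =
        (rename Sum.inl).comp (tau0 n c) := MvPolynomial.algHom_ext fun v => by
      simp [τ]
    exact DFunLike.congr_fun e h
  have e : (psiU n).comp (xi c) = τ.comp (psiU n) := by
    refine MvPolynomial.algHom_ext fun v => ?_
    rcases v with b | i
    · simp only [AlgHom.comp_apply, psiU, xi, aeval_X, Sum.elim_inl, map_mul, map_prod, map_pow]
      rw [hτ, ← coef_map (tau0 n c), tau0_Q0, coef_twist]
      simp only [τ, aeval_X, Sum.elim_inr, mul_pow, Finset.prod_mul_distrib, map_mul]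
      rw [show (algebraMap ℂ (MvPolynomial
        ((Ix p r × Ix p r) ⊕ Lo p r n) ℂ)) = C from rfl, rename_C]
      rw [show ∀ x y z t : MvPolynomial (PV p r n) ℂ, x * y * (z * t) = y * t * (x * z) from
        fun x y z t => by ring]
      rw [Finset.prod_congr rfl fun i _ => (map_pow C (esc c i) (b.1 i).val).symm]
      rw [← map_prod, ← map_mul, esc_mul_chi, map_one, mul_one]
    · simp [psiU, xi, τ]
  have := DFunLike.congr_fun e f
  simp only [AlgHom.comp_apply] at this
  rw [this, hf, map_zero]

/-- The residues of an exponent of `u`. -/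
def eres (m : ZT p r →₀ ℕ) : Co r → ZMod p := fun i => (m (Sum.inr i) : ℕ)

/-- The exponent with the residues removed. -/
def ediv (m : ZT p r →₀ ℕ) : ZT p r →₀ ℕ :=
  Finsupp.equivFunOnFinite.symm
    (Sum.elim (fun b => m (Sum.inl b)) fun i => m (Sum.inr i) / p)

lemma monomial_split (m : ZT p r →₀ ℕ) (c : ℂ) :
    monomial m c = (∏ i, X (Sum.inr i) ^ (eres m i).val) * iotaU (monomial (ediv m) c) := by
  classical
  rw [iotaU, aeval_monomial, monomial_eq, algebraMap_eq, Finsupp.prod_fintype _ _ (by simp),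
    Finsupp.prod_fintype _ _ (by simp)]
  simp only [ediv, Finsupp.coe_equivFunOnFinite_symm,
    Fintype.prod_sum_type (α₁ := {b : Gp p r // b ≠ 0}) (α₂ := Co r), Sum.elim_inl, Sum.elim_inr,
    eres, ZMod.val_natCast, ← pow_mul]
  rw [show ∀ a b c d : MvPolynomial (ZT p r) ℂ, d * (a * (b * c)) = a * (b * (d * c)) from
    fun a b c d => by ring]
  congr 1
  congr 1
  rw [← Finset.prod_mul_distrib]
  refine Finset.prod_congr rfl fun i _ => ?_
  rw [← pow_add, Nat.mod_add_div]

/-- A point killing the prime kills the prime in the coordinates `z, u`. -/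
lemma transfer {R' : Type} [CommRing R'] [Algebra ℂ R'] (φ : MvPolynomial (ZT p r) ℂ →ₐ[ℂ] R')
    (hφ : ∀ f ∈ parP (p := p) (r := r) n, φ (iotaU f) = 0) {g : MvPolynomial (ZT p r) ℂ}
    (hg : psiU n g = 0) : φ g = 0 := by
  classical
  let pe : (Co r → ZMod p) → MvPolynomial (ZT p r) ℂ := fun e =>
    ∑ m ∈ g.support.filter (fun m => eres m = e), monomial m (coeff m g)
  let ge : (Co r → ZMod p) → MvPolynomial (ZT p r) ℂ := fun e =>
    ∑ m ∈ g.support.filter (fun m => eres m = e), monomial (ediv m) (coeff m g)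
  have hsplit : ∀ e, pe e = (∏ i, X (Sum.inr i) ^ (e i).val) * iotaU (ge e) := by
    intro e
    simp only [pe, ge, map_sum, Finset.mul_sum]
    refine Finset.sum_congr rfl fun m hm => ?_
    rw [monomial_split m, (Finset.mem_filter.1 hm).2]
  let dual : (Co r → ZMod p) → Co r → ZMod p := fun d =>
    Sum.elim (fun k => d (Sum.inr k)) (fun k => -d (Sum.inl k))
  have hxi : ∀ (c : Gp p r) (m : ZT p r →₀ ℕ) (a : ℂ),
      xi c (monomial m a) = ch p (∑ i, c i * dual (eres m) i) • monomial m a := by
    intro c m a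
    have he : (∏ i, esc c i ^ m (Sum.inr i)) = ch p (∑ i, c i * dual (eres m) i) := by
      simp only [Fintype.sum_sum_type, dual, Sum.elim_inl, Sum.elim_inr, AddChar.map_add_eq_mul,
        ch_map_sum, Fintype.prod_sum_type, esc]
      rw [mul_comm]
      congr 1 <;> refine Finset.prod_congr rfl fun k _ => ?_ <;>
        rw [← AddChar.map_nsmul_eq_pow, nsmul_eq_mul] <;> congr 1 <;>
        simp [eres] <;> ring
    rw [← he, xi, aeval_monomial, monomial_eq, algebraMap_eq, Finsupp.prod_fintype _ _ (by simp),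
      Finsupp.prod_fintype _ _ (by simp), smul_eq_C_mul]
    simp only [Fintype.prod_sum_type, Sum.elim_inl, Sum.elim_inr, mul_pow, Finset.prod_mul_distrib,
      map_prod, map_mul, map_pow]
    ring
  have hzero : ∀ e, psiU n (pe e) = 0 := by
    intro e
    have h : ∑ c : Gp p r, ch p (-∑ i, c i * dual e i) • xi c g =
        ((p : ℂ) ^ Fintype.card (Co r)) • pe e := by
      conv_lhs => rw [g.as_sum]
      simp only [map_sum, hxi, Finset.smul_sum, smul_smul, pe, Finset.sum_filter]
      rw [Finset.sum_comm]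
      refine Finset.sum_congr rfl fun m _ => ?_
      rw [← Finset.sum_smul]
      have h1 : ∀ c : Gp p r, ch p (-∑ i, c i * dual e i) * ch p (∑ i, c i * dual (eres m) i) =
          ch p (∑ i, c i * dual (eres m - e) i) := by
        intro c
        rw [← AddChar.map_add_eq_mul]
        congr 1
        rw [← Finset.sum_neg_distrib, ← Finset.sum_add_distrib]
        refine Finset.sum_congr rfl fun i _ => ?_
        rcases i with k | k <;> simp [dual] <;> ring
      simp only [h1, sum_ch]
      by_cases he : eres m = e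
      · have : dual (eres m - e) = 0 := by
          funext i; rcases i with k | k <;> simp [dual, he]
        rw [if_pos this, if_pos he]
      · have : dual (eres m - e) ≠ 0 := by
          intro h0
          refine he (funext fun i => ?_)
          rcases i with k | k
          · have := congrFun h0 (Sum.inr k)
            simp [dual, sub_eq_zero] at this
            first | exact this | exact this.symm
          · have := congrFun h0 (Sum.inl k)
            simp [dual, sub_eq_zero] at this
            first | exact this | exact this.symm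
        rw [if_neg this, if_neg he, smul_zero, zero_smul]
    have h2 := congrArg (psiU n) h
    simp only [map_sum, map_smul, psiU_xi n _ hg, smul_zero, Finset.sum_const_zero] at h2
    exact (smul_eq_zero.1 h2.symm).resolve_left
      (pow_ne_zero _ (Nat.cast_ne_zero.2 (Fact.out (p := p.Prime)).ne_zero))
  have hge : ∀ e, ge e ∈ parP n := by
    intro e
    rw [mem_parP]
    have h := hzero e
    rw [hsplit, map_mul] at h
    refine (mul_eq_zero.1 h).resolve_left ?_
    simp [psiU, Finset.prod_ne_zero_iff, X_ne_zero]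
  have hg' : g = ∑ e, pe e := by
    simp only [pe]
    rw [Finset.sum_fiberwise]
    exact g.as_sum
  rw [hg', map_sum]
  exact Finset.sum_eq_zero fun e _ => by rw [hsplit, map_mul, hφ _ (hge e), mul_zero]

/-! ### The root identities at a point -/

/-- The rescaled traceless matrix. -/
def Zhat : Matrix (Ix p r) (Ix p r) (MvPolynomial (ZT p r) ℂ) :=
  ∑ b : {b : Gp p r // b ≠ 0},
    ((X (Sum.inl b) * ∏ i : Co r, X (Sum.inr i) ^ (p - (b.1 i).val)) :
      MvPolynomial (ZT p r) ℂ) •
      WA p r (MvPolynomial (ZT p r) ℂ) b.1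

lemma card_blk (hn : n ≤ r) (x : Lo p r n) :
    Fintype.card {i : Ix p r // (eLH n i).1 = x} = p ^ (r - n) := by
  classical
  have e : {i : Ix p r // (eLH n i).1 = x} ≃ Hi p r n :=
    { toFun := fun i => (eLH n i.1).2
      invFun := fun h => ⟨(eLH n).symm (x, h), by simp⟩
      left_inv := fun i => by
        refine Subtype.ext ((eLH n).injective ?_)
        simp [Prod.ext_iff, i.2]
      right_inv := fun h => by simp }
  rw [Fintype.card_congr e, Fintype.card_fun, ZMod.card, Fintype.card_subtype_compl,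
    Fintype.card_fin]
  congr 2
  rw [Fintype.card_subtype]
  exact (Fin.card_filter_val_lt (n := r) (m := n)).trans (min_eq_right hn)

lemma card_lo (hn : n ≤ r) : Fintype.card (Lo p r n) = p ^ n := by
  rw [Fintype.card_fun, ZMod.card, Fintype.card_subtype]
  congr 1
  exact (Fin.card_filter_val_lt (n := r) (m := n)).trans (min_eq_right hn)

/-- At a point killing the prime, the rescaled matrix has a root of degree `p ^ n`. -/
lemma root_identities (hn : n ≤ r) {R' : Type} [CommRing R'] [Algebra ℂ R'] [Algebra ℚ R']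
    (φ : MvPolynomial (ZT p r) ℂ →ₐ[ℂ] R')
    (hφ : ∀ f ∈ parP (p := p) (r := r) n, φ (iotaU f) = 0) :
    (Zhat.map φ).charpoly =
        rootPoly (p ^ (r - n)) (p ^ n) (Zhat.map φ).charpoly ^ (p ^ (r - n)) ∧
      Polynomial.aeval (Zhat.map φ)
        (rootPoly (p ^ (r - n)) (p ^ n) (Zhat.map φ).charpoly) = 0 := by
  classical
  set m := p ^ (r - n)
  set N := p ^ n
  let ψ := psiU (p := p) (r := r) n
  let Qm : Matrix (Ix p r) (Ix p r) (MvPolynomial (PV p r n) ℂ) := (Q0 n).map (rename Sum.inl)
  let gm : Matrix (Ix p r) (Ix p r) (MvPolynomial (PV p r n) ℂ) := (g0 n).map (rename Sum.inl)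
  let U : MvPolynomial (PV p r n) ℂ := ∏ i, X (Sum.inr i) ^ p
  have hZ : Zhat.map ψ = U • (Qm - coef 0 Qm • 1) := by
    have e : Qm - coef 0 Qm • (1 : Matrix (Ix p r) (Ix p r) (MvPolynomial (PV p r n) ℂ)) =
        ∑ b : {b : Gp p r // b ≠ 0}, coef b.1 Qm • WA p r (MvPolynomial (PV p r n) ℂ) b.1 := by
      conv_lhs => arg 1; rw [← sum_coef Qm]
      rw [← Finset.sum_erase_add _ _ (Finset.mem_univ (0 : Gp p r)), WA_zero, add_sub_cancel_right,
        Finset.sum_subtype (p := fun b : Gp p r => b ≠ 0) _ (fun b => by simp)]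
    rw [e, Finset.smul_sum, Zhat, ← AlgHom.mapMatrix_apply, map_sum]
    refine Finset.sum_congr rfl fun b _ => ?_
    rw [AlgHom.mapMatrix_apply, Matrix.map_smul' _ _ _ (map_mul ψ), WA_map, smul_smul]
    congr 1
    simp only [ψ, psiU, map_mul, map_prod, map_pow, aeval_X, Sum.elim_inl, Sum.elim_inr, U,
      Qm, coef_map]
    rw [mul_right_comm, ← Finset.prod_mul_distrib]
    congr 1
    refine Finset.prod_congr rfl fun i _ => ?_
    rw [← pow_add, Nat.add_sub_cancel' (ZMod.val_lt _).le]
  have hgdet : gm.det ≠ 0 := by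
    show ((g0 n).map (rename (R := ℂ) (Sum.inl : _ → PV p r n))).det ≠ 0
    rw [← AlgHom.mapMatrix_apply, ← AlgHom.map_det]
    intro h
    exact g0_det_ne_zero n (rename_injective _ Sum.inl_injective (h.trans (map_zero _).symm))
  let μ : Lo p r n → MvPolynomial (PV p r n) ℂ :=
    fun x => U * (gm.det * X (Sum.inl (Sum.inr x)) - coef 0 Qm)
  have hint : Zhat.map ψ * gm = gm * Matrix.diagonal fun i => μ ((eLH n i).1) := by
    have hD : (D0 n).map (rename (R := ℂ) (Sum.inl : _ → PV p r n)) =
        Matrix.diagonal fun i => X (Sum.inl (Sum.inr (eLH n i).1)) := by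
      rw [D0, Matrix.diagonal_map (map_zero _)]
      simp
    have hadj : ((g0 n).adjugate).map (rename (R := ℂ) (Sum.inl : _ → PV p r n)) = gm.adjugate :=
      AlgHom.map_adjugate _ _
    have hQ : Qm * gm =
        gm * Matrix.diagonal fun i => gm.det * X (Sum.inl (Sum.inr (eLH n i).1)) := by
      simp only [Qm, Q0, Matrix.map_mul, hD, hadj]
      rw [mul_assoc, Matrix.adjugate_mul, mul_smul_comm, mul_one, ← Matrix.mul_smul,
        ← Matrix.diagonal_smul]
      rfl
    rw [hZ, smul_mul_assoc, sub_mul, hQ, smul_mul_assoc, one_mul, smul_sub, smul_smul,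
      ← mul_smul_comm]
    ext i j
    simp only [Matrix.sub_apply, Matrix.smul_apply, Matrix.mul_diagonal, smul_eq_mul, μ]
    rw [Matrix.mul_smul, Matrix.smul_apply, Matrix.mul_diagonal, smul_eq_mul]
    ring
  obtain ⟨hchar, heval⟩ := root_of_intertwined hgdet (fun i => (eLH n i).1) (card_blk n hn) μ hint
  set q := ∏ x, (Polynomial.X - Polynomial.C (μ x))
  have hqm : q.Monic := Polynomial.monic_prod_of_monic _ _ fun x _ => Polynomial.monic_X_sub_C _
  have hqd : q.natDegree = N := by
    rw [Polynomial.natDegree_finsetProd_X_sub_C_eq_card, Finset.card_univ, card_lo n hn]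
  have hψ : (Zhat.charpoly).map (ψ : MvPolynomial (ZT p r) ℂ →+* MvPolynomial (PV p r n) ℂ) =
      q ^ m := by
    rw [← Matrix.charpoly_map]
    exact hchar
  have hroot : (rootPoly m N Zhat.charpoly).map
      (ψ : MvPolynomial (ZT p r) ℂ →+* MvPolynomial (PV p r n) ℂ) = q := by
    rw [rootPoly_map, hψ, rootPoly_pow (pow_pos (Fact.out (p := p.Prime)).pos _) hqm hqd]
  have hχ : (Zhat.charpoly).map (φ : MvPolynomial (ZT p r) ℂ →+* R') = (Zhat.map φ).charpoly :=
    (Matrix.charpoly_map _ _).symm
  refine ⟨?_, ?_⟩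
  · have h : (Zhat.charpoly - rootPoly m N Zhat.charpoly ^ m).map
        (φ : MvPolynomial (ZT p r) ℂ →+* R') = 0 := by
      ext k
      rw [Polynomial.coeff_map, Polynomial.coeff_zero]
      refine transfer n φ hφ ?_
      show (ψ : MvPolynomial (ZT p r) ℂ →+* MvPolynomial (PV p r n) ℂ) _ = 0
      rw [← Polynomial.coeff_map, Polynomial.map_sub, Polynomial.map_pow, hroot, hψ, sub_self,
        Polynomial.coeff_zero]
    rwa [Polynomial.map_sub, Polynomial.map_pow, sub_eq_zero, rootPoly_map, hχ] at h
  · rw [← hχ, ← rootPoly_map]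
    have hev : ∀ {T : Type} [CommRing T] (θ : MvPolynomial (ZT p r) ℂ →+* T)
        (f : Polynomial (MvPolynomial (ZT p r) ℂ)),
        Polynomial.aeval (Zhat.map θ) (f.map θ) = (Polynomial.aeval Zhat f).map θ := by
      intro T _ θ f
      induction f using Polynomial.induction_on' with
      | add a b ha hb =>
        rw [Polynomial.map_add, map_add, map_add, ha, hb, Matrix.map_add _ (map_add θ)]
      | monomial k a =>
        rw [Polynomial.map_monomial, Polynomial.aeval_monomial, Polynomial.aeval_monomial,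
          ← Algebra.smul_def, ← Algebra.smul_def, Matrix.map_smul' _ _ _ (map_mul θ)]
        congr 1
        exact (map_pow θ.mapMatrix Zhat k).symm
    show Polynomial.aeval (Zhat.map (φ : MvPolynomial (ZT p r) ℂ →+* R')) _ = 0
    rw [hev]
    ext i j
    rw [Matrix.map_apply, Matrix.zero_apply]
    refine transfer n φ hφ ?_
    have := congrFun (congrFun (hev (ψ : MvPolynomial (ZT p r) ℂ →+* MvPolynomial (PV p r n) ℂ)
      (rootPoly m N Zhat.charpoly)) i) j
    rw [hroot, Matrix.map_apply] at this
    exact this.symm.trans (congrFun (congrFun heval i) j)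

lemma hasRoot_smul_add {ι F : Type} [Fintype ι] [DecidableEq ι] [Field F] {N m : ℕ}
    {A : Matrix ι ι F} (hA : HasRoot N m A) {a : F} (ha : a ≠ 0) (c : F) :
    HasRoot N m (c • (1 : Matrix ι ι F) + a • A) := by
  obtain ⟨q, hq, hd, hchi, hev⟩ := hA
  set L : Polynomial F := Polynomial.C a⁻¹ * (Polynomial.X - Polynomial.C c)
  have hLd : L.natDegree = 1 := by
    simp [L, Polynomial.natDegree_C_mul, inv_ne_zero ha]
  have hLl : L.leadingCoeff = a⁻¹ := by simp [L]
  refine ⟨Polynomial.C (a ^ N) * q.comp L, ?_, ?_, ?_, ?_⟩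
  · rw [Polynomial.Monic, Polynomial.leadingCoeff_mul, Polynomial.leadingCoeff_C,
      Polynomial.leadingCoeff_comp (by omega), hq.leadingCoeff, hLl, hd, one_mul, ← mul_pow,
      mul_inv_cancel₀ ha, one_pow]
  · rw [Polynomial.natDegree_C_mul (pow_ne_zero _ ha), Polynomial.natDegree_comp, hLd, hd, mul_one]
  · have h1 : (c • (1 : Matrix ι ι F) + a • A).charmatrix =
        Polynomial.C a • (A.charmatrix.map fun f => f.comp L) := by
      ext i j
      rcases eq_or_ne i j with h | h
      · subst h
        simp only [Matrix.charmatrix_apply_eq, Matrix.smul_apply, Matrix.map_apply, smul_eq_mul,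
          Matrix.add_apply, Matrix.one_apply_eq, mul_one, Polynomial.sub_comp, Polynomial.X_comp,
          Polynomial.C_comp, map_add, L]
        rw [mul_sub, ← mul_assoc, ← map_mul Polynomial.C a a⁻¹, mul_inv_cancel₀ ha, map_one,
          one_mul, map_mul]
        ring
      · simp [Matrix.charmatrix_apply_ne _ _ _ h, h]
    have hdet : (A.charmatrix.map fun f => f.comp L).det = A.charpoly.comp L := by
      have := RingHom.map_det (Polynomial.compRingHom L) A.charmatrix
      exact this.symm
    have hM : Fintype.card ι = N * m := by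
      have := congrArg Polynomial.natDegree hchi
      rw [Matrix.charpoly_natDegree_eq_dim, Polynomial.natDegree_pow, hd] at this
      rw [this, mul_comm]
    rw [Matrix.charpoly, h1, Matrix.det_smul, hdet, hchi, Polynomial.pow_comp, mul_pow, hM,
      pow_mul, map_pow]
  · rw [map_mul, Polynomial.aeval_comp]
    have : Polynomial.aeval (c • (1 : Matrix ι ι F) + a • A) L = A := by
      simp only [L, map_mul, map_sub, Polynomial.aeval_C, Polynomial.aeval_X,
        Algebra.algebraMap_eq_smul_one, smul_mul_assoc, one_mul, add_sub_cancel_left, smul_smul,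
        inv_mul_cancel₀ ha, one_smul]
    rw [this, hev, mul_zero]

/-- The prime has the root property at all its points. -/
lemma parP_hasRoot [NeZero r] (hn : n ≤ r) (F : Type) [Field F] [Algebra ℂ F]
    (ψ : MvPolynomial (ZT p r) ℂ →ₐ[ℂ] F) (hψ : ∀ g ∈ parP (p := p) (r := r) n, ψ g = 0)
    (u : Co r → F) (hu : ∀ i, ψ (X (Sum.inr i)) = u i ^ p) (hu0 : ∀ i, u i ≠ 0) (c : F) :
    HasRoot (p ^ n) (p ^ (r - n)) (c • (1 : Matrix (Ix p r) (Ix p r) F) +
      ∑ b : {b : Gp p r // b ≠ 0},
        ((tdeg p r b.1).prod fun i k => ((u i) ^ k)⁻¹) • ψ (X (Sum.inl b)) • WA p r F b.1) := by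
  classical
  haveI : CharZero F := charZero_of_injective_algebraMap (algebraMap ℂ F).injective
  let φ : MvPolynomial (ZT p r) ℂ →ₐ[ℂ] F := aeval (Sum.elim (fun b => ψ (X (Sum.inl b))) u)
  have e : φ.comp iotaU = ψ := MvPolynomial.algHom_ext fun v => by
    rcases v with b | i <;> simp [φ, iotaU, hu]
  have hφ : ∀ f ∈ parP (p := p) (r := r) n, φ (iotaU f) = 0 := fun f hf =>
    (DFunLike.congr_fun e f).trans (hψ f hf)
  obtain ⟨h1, h2⟩ := root_identities n hn φ hφ
  have hroot : HasRoot (p ^ n) (p ^ (r - n)) (Zhat.map φ) :=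
    ⟨_, (rootPoly_monic _ _ _).1, (rootPoly_monic _ _ _).2, h1, h2⟩
  have hU : (∏ i, u i ^ p) ≠ 0 := Finset.prod_ne_zero_iff.2 fun i _ => pow_ne_zero _ (hu0 i)
  have := hasRoot_smul_add hroot (inv_ne_zero hU) c
  convert this using 2
  rw [Zhat, ← AlgHom.mapMatrix_apply, map_sum, Finset.smul_sum]
  refine Finset.sum_congr rfl fun b _ => ?_
  rw [AlgHom.mapMatrix_apply, Matrix.map_smul' _ _ _ (map_mul φ), WA_map, smul_smul, smul_smul]
  congr 1
  rw [Finsupp.prod_fintype _ _ (by simp)]
  simp only [φ, map_mul, map_prod, map_pow, aeval_X, Sum.elim_inl, Sum.elim_inr,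
    tdeg_ne_zero_apply b.2]
  rw [← Finset.prod_inv_distrib, mul_left_comm, ← Finset.prod_mul_distrib, mul_comm]
  congr 1
  refine Finset.prod_congr rfl fun i _ => ?_
  have hle := (ZMod.val_lt (b.1 i)).le
  rw [pow_sub₀ _ (hu0 i) hle, ← mul_assoc, inv_mul_cancel₀ (pow_ne_zero _ (hu0 i)), one_mul]

end

end Vale.Agent.P199.K.Start
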