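import Vale.Agent.P199.K.Start.Tangent

/-!
P199, START: the base point is generic among the polynomials of weight zero and lies on the prime.
-/

namespace Vale.Agent.P199.K.Start

open MvPolynomial
open scoped BigOperators

noncomputable section

variable {p r : ℕ} [Fact p.Prime] (n : ℕ)

lemma iotaU_injective {f : MvPolynomial (ZT p r) ℂ} (h : iotaU f = 0) : f = 0 := by
  refine MvPolynomial.funext fun y => ?_
  rw [map_zero]
  choose z hz using fun v : ZT p r =>
    IsAlgClosed.exists_pow_nat_eq (y v) (Fact.out (p := p.Prime)).pos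
  have e : (aeval (Sum.elim (fun b => y (Sum.inl b)) (fun i => z (Sum.inr i))) :
      MvPolynomial (ZT p r) ℂ →ₐ[ℂ] ℂ).comp iotaU = aeval y := MvPolynomial.algHom_ext fun v => by
    rcases v with b | i <;> simp [iotaU, hz]
  have h' := DFunLike.congr_fun e f
  rw [AlgHom.comp_apply, h, map_zero] at h'
  show aeval y f = 0
  exact h'.symm

/-- No polynomial of weight zero vanishes at the base point. -/
lemma apt_generic {f : MvPolynomial (ZT p r) ℂ} (hf : IsWeightedHomogeneous (nuW n) f 0)
    (h : aeval (apt n) f = 0) : f = 0 := by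
  classical
  refine iotaU_injective (emb_injective ?_)
  rw [map_zero]
  let y : ZT p r → KB p r :=
    Sum.elim (fun b => gen (Sum.inl b)) (fun i => gen (Sum.inr i) ^ p)
  have e : (emb : MvPolynomial (ZT p r) ℂ →ₐ[ℂ] KB p r).comp iotaU = aeval y :=
    MvPolynomial.algHom_ext fun v => by rcases v with b | i <;> simp [y, emb, iotaU]
  rw [← AlgHom.comp_apply, e, aeval_eq_of_weight_zero (nuW n) (apt n) hf (x := y), h]
  rintro (b | i) hv
  · have hb : isFb n b.1 := by by_contra hc; simp [nuW, hc] at hv
    simp [y, apt, hb]
  · simp [y, apt]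

lemma xz_eq_apt : (xz n : ZT p r → KB p r) = apt n := by
  funext v
  rcases v with b | i
  · by_cases hb : isFb n b.1 <;> simp [xz, nuW, apt, hb]
  · simp [xz, nuW, apt]

lemma nmat_apt : nmat n (apt n : ZT p r → KB p r) = 0 := by
  refine Finset.sum_eq_zero fun b _ => ?_
  split_ifs with hb
  · rw [zero_smul]
  · simp [apt, hb]

lemma tanZero_apt (g : Matrix (Lo p r n) (Lo p r n) (KB p r)) : tanZero n g (apt n) := by
  intro i k _
  simp [conjX, nmat_apt]

/-- The elements of the prime have no part of weight zero. -/
lemma comp0_parP {f : MvPolynomial (ZT p r) ℂ} (hf : f ∈ parP (p := p) (r := r) n) :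
    weightedHomogeneousComponent (nuW n) 0 f = 0 := by
  obtain ⟨g, l, hg, hl, hAg⟩ := exists_eigen (p := p) (r := r) n
  exact apt_generic n (weightedHomogeneousComponent_isWeightedHomogeneous 0 f)
    (initial_vanish n hg hl hAg (fun _ _ => rfl) (tanZero_apt n g) hf 0
      fun i hi => absurd hi (Nat.not_lt_zero i))

/-- The value at the base point only sees the part of weight zero. -/
lemma aeval_apt (f : MvPolynomial (ZT p r) ℂ) :
    aeval (apt n) f = aeval (apt n) (weightedHomogeneousComponent (nuW n) 0 f) := by
  have h := (dual_split n (x := apt n) (fun _ _ => rfl) f).2.2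
  rw [xz_eq_apt] at h
  exact h.symm

lemma apt_kill {f : MvPolynomial (ZT p r) ℂ} (hf : f ∈ parP (p := p) (r := r) n) :
    aeval (apt n) f = 0 := by
  rw [aeval_apt, comp0_parP n hf, map_zero]

/-- At the base point only the linear part has derivatives in the normal variables. -/
lemma aeval_apt_pderiv {v : ZT p r} (hv : nuW n v = 1) (f : MvPolynomial (ZT p r) ℂ) :
    aeval (apt n) (pderiv v f) =
      aeval (apt n) (pderiv v (weightedHomogeneousComponent (nuW n) 1 f)) := by
  classical
  rw [aeval_apt]
  congr 1
  ext m
  rw [coeff_weightedHomogeneousComponent, coeff_pderiv, coeff_pderiv,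
    coeff_weightedHomogeneousComponent, map_add, Finsupp.weight_single, hv, smul_eq_mul, mul_one]
  by_cases h : Finsupp.weight (nuW n) m = 0
  · simp [h]
  · simp [h]

end

end Vale.Agent.P199.K.Start
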