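import Vale.Agent.P199.K.Start.Base
import Vale.Agent.P199.K.Start.Init
import Vale.Agent.P199.K.Start.Lin

/-!
P199, START: the tangent space of the parametrised prime at the base point.
-/

namespace Vale.Agent.P199.K.Start

open MvPolynomial
open scoped BigOperators

noncomputable section

variable {p r : ℕ} [Fact p.Prime] (n : ℕ)

open Classical in
/-- Weight one on the normal variables. -/
def nuW : ZT p r → ℕ := Sum.elim (fun b => if isFb n b.1 then 0 else 1) (fun _ => 0)

lemma nuW_le : ∀ v : ZT p r, nuW n v ≤ 1 := by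
  rintro (b | i) <;> simp only [nuW, Sum.elim_inl, Sum.elim_inr]
  · split_ifs <;> omega
  · omega

open Classical in
/-- The base point. -/
def apt : ZT p r → KB p r :=
  Sum.elim (fun b => if isFb n b.1 then gen (Sum.inl b) else 0) (fun i => gen (Sum.inr i) ^ p)

/-- Evaluation in the coordinates `z, u`. -/
def phiU (x : ZT p r → KB p r) : MvPolynomial (ZT p r) ℂ →ₐ[ℂ] KB p r :=
  aeval (Sum.elim (fun b => x (Sum.inl b)) (fun i => gen (Sum.inr i)))

open Classical in
/-- The normal part of the rescaled matrix. -/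
def nmat (x : ZT p r → KB p r) : Matrix (Ix p r) (Ix p r) (KB p r) :=
  ∑ b : {b : Gp p r // b ≠ 0},
    (if isFb n b.1 then 0 else x (Sum.inl b) * ∏ k, gen (Sum.inr k) ^ (p - (b.1 k).val)) •
      WA p r (KB p r) b.1

lemma gen_ne_zero (v : ZT p r) : gen v ≠ 0 := by
  intro h
  refine X_ne_zero (R := ℂ) v (emb_injective ?_)
  rw [map_zero, emb, aeval_X, h]

lemma scale_ne_zero (b : Gp p r) :
    (∏ k, (gen (Sum.inr k) : KB p r) ^ (p - (b k).val)) ≠ 0 :=
  Finset.prod_ne_zero_iff.2 fun k _ => pow_ne_zero _ (gen_ne_zero _)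

lemma coef_nmat_F (x : ZT p r → KB p r) {b : Gp p r} (hb : isFb n b) :
    coef b (nmat n x) = 0 := by
  classical
  rw [nmat, map_sum]
  refine Finset.sum_eq_zero fun c _ => ?_
  rw [map_smul, coef_WA, smul_eq_mul]
  by_cases h : b = c.1
  · rw [if_pos (h ▸ hb), zero_mul]
  · rw [if_neg h, mul_zero]

lemma coef_nmat (x : ZT p r → KB p r) (b : {b : Gp p r // b ≠ 0}) (hb : ¬ isFb n b.1) :
    coef b.1 (nmat n x) = x (Sum.inl b) * ∏ k, gen (Sum.inr k) ^ (p - (b.1 k).val) := by
  classical
  rw [nmat, map_sum, Finset.sum_eq_single b]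
  · rw [map_smul, coef_WA, if_pos rfl, if_neg hb, smul_eq_mul, mul_one]
  · intro c _ hc
    rw [map_smul, coef_WA, if_neg (fun h : b.1 = c.1 => hc (Subtype.ext h.symm)), smul_zero]
  · simp

lemma ptr_nmat (x : ZT p r → KB p r) : ptr n (nmat n x) = 0 :=
  (ptr_eq_zero_iff n _).2 fun _ hb => coef_nmat_F n x hb

lemma baseU_apply (b : {b : Gp p r // b ≠ 0}) [Decidable (isFb n b.1)] :
    baseU n (X (Sum.inl b)) = if isFb n b.1 then gen (Sum.inl b) else 0 := by
  simp only [baseU, AlgHom.comp_apply, base, aeval_X, Sum.elim_inl]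
  split_ifs <;> simp [emb]

lemma baseU_inr (i : Co r) : baseU (p := p) n (X (Sum.inr i)) = gen (Sum.inr i) := by
  simp [baseU, base, emb]

lemma Zhat_phiU {x : ZT p r → KB p r} (hx : ∀ v, nuW n v = 0 → x v = apt n v) :
    Zhat.map (phiU x) = Amat n + nmat n x := by
  classical
  rw [Amat, nmat, Zhat, ← AlgHom.mapMatrix_apply, map_sum, ← AlgHom.mapMatrix_apply, map_sum,
    ← Finset.sum_add_distrib]
  refine Finset.sum_congr rfl fun b _ => ?_
  rw [AlgHom.mapMatrix_apply, AlgHom.mapMatrix_apply, Matrix.map_smul' _ _ _ (map_mul (phiU x)),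
    Matrix.map_smul' _ _ _ (map_mul (baseU n)), WA_map, WA_map, ← add_smul]
  congr 1
  simp only [map_mul, map_prod, map_pow, baseU_inr, baseU_apply, phiU, aeval_X, Sum.elim_inl,
    Sum.elim_inr]
  by_cases hb : isFb n b.1
  · have := hx (Sum.inl b) (by simp [nuW, hb])
    simp [hb, this, apt]
  · simp [hb]

variable (g : Matrix (Lo p r n) (Lo p r n) (KB p r))

/-- The normal part in the eigenbasis. -/
def conjX (x : ZT p r → KB p r) : Matrix (Ix p r) (Ix p r) (KB p r) :=
  kr n g⁻¹ * nmat n x * kr n g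

/-- Tangency: no entries inside the eigenblocks. -/
def tanZero (x : ZT p r → KB p r) : Prop :=
  ∀ i j : Ix p r, (eLH n i).1 = (eLH n j).1 → conjX n g x i j = 0

variable {g} {l : Lo p r n → KB p r} (hg : IsUnit g.det) (hl : Function.Injective l)
  (hAg : A1 n * g = g * Matrix.diagonal l)

/-- The diagonal matrix of the eigenvalues. -/
abbrev Dl (l : Lo p r n → KB p r) : Matrix (Ix p r) (Ix p r) (KB p r) :=
  Matrix.diagonal fun i => l (eLH n i).1

include hg in
lemma G_mul_inv : kr n g * kr n g⁻¹ = 1 ∧ kr n g⁻¹ * kr n g = 1 := by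
  rw [← kr_mul, ← kr_mul, Matrix.mul_nonsing_inv _ hg, Matrix.nonsing_inv_mul _ hg, kr_one]
  exact ⟨rfl, rfl⟩

include hAg in
lemma Amat_mul : Amat n * kr n g = kr n g * Dl n l := by
  rw [Amat_eq, ← kr_mul, hAg, kr_mul, kr_diagonal]

include hg hAg in
lemma Amat_conj : Amat n = kr n g * Dl n l * kr n g⁻¹ := by
  rw [← Amat_mul n hAg, mul_assoc, (G_mul_inv n hg).1, mul_one]

/-- Evaluation commutes with `t = u ^ p`. -/
lemma phiU_iotaU {x : ZT p r → KB p r} (hx : ∀ v, nuW n v = 0 → x v = apt n v)
    (f : MvPolynomial (ZT p r) ℂ) : phiU x (iotaU f) = aeval x f := by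
  have e : (phiU x).comp iotaU = aeval x := MvPolynomial.algHom_ext fun v => by
    rcases v with b | i
    · simp [phiU, iotaU]
    · have := hx (Sum.inr i) (by simp [nuW])
      simp [phiU, iotaU, this, apt]
  exact DFunLike.congr_fun e f

include hg hl hAg in
/-- First half: the initial forms vanish on the tangent space. -/
lemma initial_vanish {x : ZT p r → KB p r} (hx : ∀ v, nuW n v = 0 → x v = apt n v)
    (hT : tanZero n g x) {f : MvPolynomial (ZT p r) ℂ} (hf : f ∈ parP n) (j : ℕ)
    (hlow : ∀ i < j, weightedHomogeneousComponent (nuW n) i f = 0) :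
    aeval x (weightedHomogeneousComponent (nuW n) j f) = 0 := by
  classical
  obtain ⟨hGi, hiG⟩ := G_mul_inv n hg
  set G := kr n g
  set Gi := kr n g⁻¹
  let U : KB p r := ∏ k, gen (Sum.inr k) ^ p
  have hU : U ≠ 0 := Finset.prod_ne_zero_iff.2 fun k _ => pow_ne_zero _ (gen_ne_zero _)
  have hGdet : G.det ≠ 0 := by
    intro h0
    have := congrArg Matrix.det hGi
    rw [Matrix.det_mul, h0, zero_mul, Matrix.det_one] at this
    exact zero_ne_one this
  let Y := conjX n g x
  let ν' : Matrix (Ix p r) (Ix p r) (KB p r) := fun i k =>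
    if (eLH n i).1 = (eLH n k).1 then 0 else Y i k / (l (eLH n k).1 - l (eLH n i).1)
  let nu := G * ν' * Gi
  have hbr : nu * Amat n - Amat n * nu = nmat n x := by
    have h1 : ν' * Dl n l - Dl n l * ν' = Y := by
      ext i k
      rw [Matrix.sub_apply, Matrix.mul_diagonal, Matrix.diagonal_mul]
      simp only [ν']
      split_ifs with h
      · simp only [Y]
        rw [hT i k h]
        ring
      · have : l (eLH n k).1 - l (eLH n i).1 ≠ 0 := sub_ne_zero.2 fun e => h (hl e).symm
        field_simp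
    rw [Amat_conj n hg hAg]
    have e1 : nu * (G * Dl n l * Gi) = G * (ν' * Dl n l) * Gi := by
      calc nu * (G * Dl n l * Gi) = G * ν' * (Gi * G) * Dl n l * Gi := by
            simp only [nu, mul_assoc]
        _ = G * (ν' * Dl n l) * Gi := by rw [hiG, mul_one, mul_assoc G ν']
    have e2 : (G * Dl n l * Gi) * nu = G * (Dl n l * ν') * Gi := by
      calc (G * Dl n l * Gi) * nu = G * Dl n l * (Gi * G) * ν' * Gi := by
            simp only [nu, mul_assoc]
        _ = G * (Dl n l * ν') * Gi := by rw [hiG, mul_one, mul_assoc G (Dl n l)]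
    rw [e1, e2, ← sub_mul, ← mul_sub, h1]
    simp only [Y, conjX]
    calc G * (Gi * nmat n x * G) * Gi = (G * Gi) * nmat n x * (G * Gi) := by
          simp only [mul_assoc]
      _ = nmat n x := by rw [hGi, one_mul, mul_one]
  -- the curve
  let Mc : Matrix (Ix p r) (Ix p r) (Polynomial (KB p r)) :=
    1 + (Polynomial.X : Polynomial (KB p r)) • nu.map Polynomial.C
  let Ac : Matrix (Ix p r) (Ix p r) (Polynomial (KB p r)) :=
    (U⁻¹ • Amat n).map Polynomial.C
  let χ : MvPolynomial (PV p r n) ℂ →ₐ[ℂ] Polynomial (KB p r) :=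
    aeval (Sum.elim (Sum.elim (fun v => (Mc * G.map Polynomial.C) v.1 v.2)
      (fun z => Polynomial.C (l z / (G.det * U)))) (fun i => Polynomial.C (gen (Sum.inr i))))
  let χ0 : MvPolynomial ((Ix p r × Ix p r) ⊕ Lo p r n) ℂ →ₐ[ℂ] Polynomial (KB p r) :=
    χ.comp (rename Sum.inl)
  let Qc : Matrix (Ix p r) (Ix p r) (Polynomial (KB p r)) := Mc * Ac * Mc.adjugate
  have hQ : (Q0 n).map χ0 = Qc := by
    have h1 : (g0 n).map χ0 = Mc * G.map Polynomial.C := by
      ext i k; simp [χ0, χ, g0]
    have h2 : (D0 n).map χ0 = ((G.det * U)⁻¹ • Dl n l).map Polynomial.C := by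
      rw [D0, Matrix.diagonal_map (map_zero _), ← Matrix.diagonal_smul,
        Matrix.diagonal_map (map_zero _)]
      congr 1
      funext i
      simp only [χ0, χ, AlgHom.comp_apply, rename_X, aeval_X, Sum.elim_inl, Sum.elim_inr,
        Pi.smul_apply, smul_eq_mul]
      rw [div_eq_inv_mul]
    have h3 : ((g0 n).adjugate).map χ0 = ((g0 n).map χ0).adjugate := AlgHom.map_adjugate _ _
    have h4 : (G.map Polynomial.C).adjugate = G.adjugate.map Polynomial.C :=
      (RingHom.map_adjugate Polynomial.C G).symm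
    have h5 : G.adjugate = G.det • Gi := by
      calc G.adjugate = G.adjugate * (G * Gi) := by rw [hGi, mul_one]
        _ = (G.adjugate * G) * Gi := by rw [mul_assoc]
        _ = G.det • Gi := by rw [Matrix.adjugate_mul, smul_mul_assoc, one_mul]
    rw [Q0, Matrix.map_mul, Matrix.map_mul, h3, h1, h2, Matrix.adjugate_mul_distrib, h4]
    have h6 : G * ((G.det * U)⁻¹ • Dl n l) * G.adjugate = U⁻¹ • Amat n := by
      rw [h5]
      simp only [mul_smul_comm, smul_mul_assoc, smul_smul]
      rw [← Amat_conj n hg hAg]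
      congr 1
      field_simp
    simp only [Qc, Ac]
    rw [← h6, Matrix.map_mul, Matrix.map_mul]
    simp only [mul_assoc]
  -- the curve in low order
  let d1 : KB p r := Mc.det.coeff 1
  have hM0 : Mc.map (fun q => q.coeff 0) = 1 := by
    ext i k
    by_cases h : i = k
    · subst h; simp [Mc]
    · simp [Mc, h]
  have hM1 : Mc.map (fun q => q.coeff 1) = nu := by
    ext i k
    by_cases h : i = k
    · subst h; simp [Mc, Polynomial.coeff_one]
    · simp [Mc, h]
  have hc0 : ∀ P Q : Matrix (Ix p r) (Ix p r) (Polynomial (KB p r)),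
      (P * Q).map (fun q => q.coeff 0) =
        P.map (fun q => q.coeff 0) * Q.map (fun q => q.coeff 0) := by
    intro P Q
    ext i k
    simp [Matrix.mul_apply, Polynomial.finsetSum_coeff, Polynomial.mul_coeff_zero]
  have hc1 : ∀ P Q : Matrix (Ix p r) (Ix p r) (Polynomial (KB p r)),
      (P * Q).map (fun q => q.coeff 1) =
        P.map (fun q => q.coeff 1) * Q.map (fun q => q.coeff 0) +
          P.map (fun q => q.coeff 0) * Q.map (fun q => q.coeff 1) := by
    intro P Q
    ext i k
    simp [Matrix.mul_apply, Polynomial.finsetSum_coeff, Polynomial.coeff_mul,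
      Finset.Nat.antidiagonal_succ, Finset.sum_add_distrib, add_comm]
  have hdet0 : Mc.det.coeff 0 = 1 := by
    have h := RingHom.map_det (Polynomial.constantCoeff : Polynomial (KB p r) →+* KB p r) Mc
    rw [RingHom.mapMatrix_apply] at h
    have e : Mc.map (Polynomial.constantCoeff : Polynomial (KB p r) →+* KB p r) = 1 := hM0
    rw [e, Matrix.det_one] at h
    exact h
  have hadj0 : Mc.adjugate.map (fun q => q.coeff 0) = 1 := by
    have h := RingHom.map_adjugate (Polynomial.constantCoeff : Polynomial (KB p r) →+* KB p r) Mc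
    rw [RingHom.mapMatrix_apply, RingHom.mapMatrix_apply] at h
    have e : Mc.map (Polynomial.constantCoeff : Polynomial (KB p r) →+* KB p r) = 1 := hM0
    rw [e, Matrix.adjugate_one] at h
    exact h
  have hadj1 : Mc.adjugate.map (fun q => q.coeff 1) =
      d1 • (1 : Matrix (Ix p r) (Ix p r) (KB p r)) - nu := by
    have h := congrArg (fun P => P.map (fun q => q.coeff 1)) (Matrix.mul_adjugate Mc)
    simp only [hc1, hM0, hM1, hadj0, mul_one, one_mul] at h
    have e : (Mc.det • (1 : Matrix (Ix p r) (Ix p r) (Polynomial (KB p r)))).map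
        (fun q => q.coeff 1) = d1 • 1 := by
      ext i k
      by_cases hik : i = k <;> simp [hik, d1]
    rw [e] at h
    rw [← h]
    abel
  have hA0 : Ac.map (fun q => q.coeff 0) = U⁻¹ • Amat n := by
    ext i k; simp [Ac]
  have hA1 : Ac.map (fun q => q.coeff 1) = 0 := by
    ext i k; simp [Ac, Polynomial.coeff_C]
  have hQ0 : Qc.map (fun q => q.coeff 0) = U⁻¹ • Amat n := by
    rw [hc0, hc0, hM0, hA0, hadj0, one_mul, mul_one]
  have hQ1 : Qc.map (fun q => q.coeff 1) = U⁻¹ • nmat n x + (U⁻¹ * d1) • Amat n := by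
    rw [hc1, hc1, hc0, hM0, hM1, hA0, hA1, hadj0, hadj1, ← hbr]
    simp only [mul_one, one_mul, mul_zero, add_zero, mul_sub, mul_smul_comm, smul_mul_assoc,
      smul_smul, smul_sub]
    rw [show d1 * U⁻¹ = U⁻¹ * d1 from mul_comm _ _]
    abel
  let cz : ZT p r → Polynomial (KB p r) := fun v => χ (psiU n (iotaU (X v)))
  have hcz : ∀ h : MvPolynomial (ZT p r) ℂ, aeval cz h = χ (psiU n (iotaU h)) := by
    intro h
    have e : (aeval cz : MvPolynomial (ZT p r) ℂ →ₐ[ℂ] _) = χ.comp ((psiU n).comp iotaU) :=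
      MvPolynomial.algHom_ext fun v => by simp [cz]
    exact DFunLike.congr_fun e h
  have hcoef : ∀ (k : ℕ) (b : Gp p r) (P : Matrix (Ix p r) (Ix p r) (Polynomial (KB p r))),
      (coef b P).coeff k = coef b (P.map fun q => q.coeff k) := by
    intro k b P
    show (algebraMap ℂ (Polynomial (KB p r)) _ * _).coeff k = algebraMap ℂ (KB p r) _ * _
    rw [IsScalarTower.algebraMap_apply ℂ (KB p r) (Polynomial (KB p r)),
      Polynomial.algebraMap_eq, Polynomial.coeff_C_mul, Polynomial.finsetSum_coeff]
    congr 1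
    refine Finset.sum_congr rfl fun i _ => ?_
    rw [IsScalarTower.algebraMap_apply ℂ (KB p r) (Polynomial (KB p r)),
      Polynomial.algebraMap_eq, Polynomial.coeff_C_mul, Matrix.map_apply]
  have hinl : ∀ (b : {b : Gp p r // b ≠ 0}) (k : ℕ), (cz (Sum.inl b)).coeff k =
      (∏ i, gen (Sum.inr i) ^ (b.1 i).val) * coef b.1 (Qc.map fun q => q.coeff k) := by
    intro b k
    have e : cz (Sum.inl b) =
        Polynomial.C (∏ i, gen (Sum.inr i) ^ (b.1 i).val) * coef b.1 Qc := by
      simp only [cz, iotaU, psiU, aeval_X, Sum.elim_inl, map_mul, map_prod, map_pow]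
      congr 1
      · simp [χ]
      · rw [← hQ, coef_map]
        rfl
    rw [e, Polynomial.coeff_C_mul, hcoef]
  have hAb : ∀ b : {b : Gp p r // b ≠ 0}, coef b.1 (Amat n) =
      baseU n (X (Sum.inl b) * ∏ k, X (Sum.inr k) ^ (p - (b.1 k).val)) := by
    intro b
    have e : Amat n = ∑ b : {b : Gp p r // b ≠ 0},
        baseU n (X (Sum.inl b) * ∏ k, X (Sum.inr k) ^ (p - (b.1 k).val)) •
          WA p r (KB p r) b.1 := by
      rw [Amat, Zhat, ← AlgHom.mapMatrix_apply, map_sum]
      refine Finset.sum_congr rfl fun b _ => ?_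
      rw [AlgHom.mapMatrix_apply, Matrix.map_smul' _ _ _ (map_mul (baseU n)), WA_map]
    rw [e, map_sum, Finset.sum_eq_single b]
    · rw [map_smul, coef_WA, if_pos rfl, smul_eq_mul, mul_one]
    · intro c _ hc
      rw [map_smul, coef_WA, if_neg (fun h : b.1 = c.1 => hc (Subtype.ext h.symm)), smul_zero]
    · simp
  have hscale : ∀ b : Gp p r, (∏ i, (gen (Sum.inr i) : KB p r) ^ (b i).val) *
      (∏ k, gen (Sum.inr k) ^ (p - (b k).val)) = U := by
    intro b
    rw [← Finset.prod_mul_distrib]
    refine Finset.prod_congr rfl fun k _ => ?_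
    rw [← pow_add, Nat.add_sub_cancel' (ZMod.val_lt _).le]
  have hv0 : ∀ v : ZT p r, nuW n v = 0 → (cz v).coeff 0 = x v := by
    intro v hv
    rw [hx v hv]
    rcases v with b | i
    · have hb : isFb n b.1 := by by_contra h; simp [nuW, h] at hv
      rw [hinl, hQ0, map_smul, smul_eq_mul, hAb, map_mul, baseU_apply, if_pos hb]
      simp only [map_prod, map_pow, baseU_inr, apt, Sum.elim_inl, if_pos hb]
      rw [show ∀ a b c d : KB p r, a * (b * (c * d)) = b * (a * d) * c from
        fun a b c d => by ring, hscale, inv_mul_cancel₀ hU, one_mul]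
    · simp only [cz, χ, psiU, iotaU, apt, map_pow, aeval_X, Sum.elim_inr]
      rw [← map_pow, Polynomial.coeff_C_zero]
  have hAn : ∀ b : {b : Gp p r // b ≠ 0}, ¬ isFb n b.1 → coef b.1 (Amat n) = 0 := by
    intro b hb
    rw [hAb, map_mul, baseU_apply, if_neg hb, zero_mul]
  have hv1 : ∀ v : ZT p r, nuW n v = 1 → (cz v).coeff 0 = 0 ∧ (cz v).coeff 1 = x v := by
    intro v hv
    rcases v with b | i
    · have hb : ¬ isFb n b.1 := by intro h; simp [nuW, h] at hv
      refine ⟨?_, ?_⟩
      · rw [hinl, hQ0, map_smul, hAn b hb, smul_zero, mul_zero]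
      · rw [hinl, hQ1, map_add, map_smul, map_smul, hAn b hb, smul_zero, add_zero,
          coef_nmat n x b hb, smul_eq_mul]
        rw [show ∀ a b c d : KB p r, a * (b * (c * d)) = b * (a * d) * c from
          fun a b c d => by ring, hscale, inv_mul_cancel₀ hU, one_mul]
    · simp [nuW] at hv
  -- extract the coefficient
  let vv : ZT p r → Polynomial (KB p r) := fun v => if nuW n v = 0 then cz v else (cz v).divX
  have hvv : ∀ v, cz v = Polynomial.X ^ nuW n v * vv v := by
    intro v
    rcases Nat.le_one_iff_eq_zero_or_eq_one.1 (nuW_le n v) with h | h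
    · simp [vv, h]
    · simp only [vv, h, one_ne_zero, if_false, pow_one]
      conv_lhs => rw [← Polynomial.X_mul_divX_add (cz v), (hv1 v h).1, Polynomial.C_0, add_zero]
  have hvv0 : ∀ v, (vv v).coeff 0 = x v := by
    intro v
    rcases Nat.le_one_iff_eq_zero_or_eq_one.1 (nuW_le n v) with h | h
    · simp only [vv, h, if_true]; exact hv0 v h
    · simp only [vv, h, one_ne_zero, if_false, Polynomial.coeff_divX]; exact (hv1 v h).2
  have hmon : ∀ (m : ZT p r →₀ ℕ) (a : ℂ), j ≤ Finsupp.weight (nuW n) m →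
      (aeval cz (monomial m a)).coeff j =
        if Finsupp.weight (nuW n) m = j then aeval x (monomial m a) else 0 := by
    intro m a hm
    have e : aeval cz (monomial m a) =
        Polynomial.X ^ (Finsupp.weight (nuW n) m) * aeval vv (monomial m a) := by
      rw [aeval_monomial, aeval_monomial, Finsupp.weight_apply, Finsupp.sum, Finsupp.prod,
        Finsupp.prod, ← Finset.prod_pow_eq_pow_sum]
      rw [mul_left_comm, ← Finset.prod_mul_distrib]
      congr 1
      refine Finset.prod_congr rfl fun v _ => ?_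
      rw [hvv v, mul_pow, ← pow_mul, smul_eq_mul, mul_comm (m v)]
    rw [e, Polynomial.coeff_X_pow_mul']
    rcases eq_or_lt_of_le hm with h | h
    · rw [if_pos h.ge, if_pos h.symm, ← h, Nat.sub_self]
      have e2 : (Polynomial.constantCoeff.comp (aeval vv : MvPolynomial (ZT p r) ℂ →ₐ[ℂ]
          Polynomial (KB p r)).toRingHom) = (aeval x : MvPolynomial (ZT p r) ℂ →ₐ[ℂ] KB p r) := by
        refine MvPolynomial.ringHom_ext (fun a => ?_) fun v => ?_
        · simp
        · simpa using hvv0 v
      exact DFunLike.congr_fun e2 (monomial m a)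
    · rw [if_neg (by omega), if_neg (by omega)]
  have hzero : aeval cz f = 0 := by rw [hcz, (mem_parP n).1 hf, map_zero]
  have hsum := congrArg (fun q => Polynomial.coeff q j) hzero
  simp only [Polynomial.coeff_zero] at hsum
  rw [f.as_sum, map_sum, Polynomial.finsetSum_coeff] at hsum
  rw [weightedHomogeneousComponent_apply, map_sum, Finset.sum_filter]
  refine Eq.trans (Finset.sum_congr rfl fun m hm => ?_) hsum
  refine (hmon m _ ?_).symm
  by_contra hlt
  have := congrArg (coeff m) (hlow _ (lt_of_not_ge hlt))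
  rw [coeff_weightedHomogeneousComponent, if_pos rfl, coeff_zero] at this
  exact mem_support_iff.1 hm this

lemma ptr_mul_kr (a b : Matrix (Lo p r n) (Lo p r n) (KB p r))
    (M : Matrix (Ix p r) (Ix p r) (KB p r)) :
    ptr n (kr n a * M * kr n b) = a * ptr n M * b := by
  classical
  have h1 : ∀ M : Matrix (Ix p r) (Ix p r) (KB p r), ptr n (kr n a * M) = a * ptr n M := by
    intro M
    ext x y
    simp only [ptr, Matrix.mul_apply, sum_split n, kr, Equiv.apply_symm_apply, ite_mul, zero_mul,
      Finset.sum_ite_eq, Finset.mem_univ, if_true, Finset.mul_sum]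
    exact Finset.sum_comm
  have h2 : ∀ M : Matrix (Ix p r) (Ix p r) (KB p r), ptr n (M * kr n b) = ptr n M * b := by
    intro M
    ext x y
    simp only [ptr, Matrix.mul_apply, sum_split n, kr, Equiv.apply_symm_apply, mul_ite, mul_zero,
      Finset.sum_ite_eq', Finset.mem_univ, if_true, Finset.sum_mul]
    exact Finset.sum_comm
  rw [h2, h1]

lemma ptr_conjX (g : Matrix (Lo p r n) (Lo p r n) (KB p r)) (x : ZT p r → KB p r) :
    ptr n (conjX n g x) = 0 := by
  rw [conjX, ptr_mul_kr, ptr_nmat, mul_zero, zero_mul]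

lemma component_X_mul (ν : ZT p r → ℕ) (v : ZT p r) (f : MvPolynomial (ZT p r) ℂ) (i : ℕ) :
    weightedHomogeneousComponent ν (ν v + i) (X v * f) =
        X v * weightedHomogeneousComponent ν i f ∧
      (i < ν v → weightedHomogeneousComponent ν i (X v * f) = 0) := by
  have e : Finsupp.weight ν (Finsupp.single v 1) = ν v := by
    rw [Finsupp.weight_single, one_smul]
  refine ⟨?_, fun h => ?_⟩
  · have := component_monomial_mul ν (Finsupp.single v 1) 1 f i
    rwa [e] at this
  · exact component_monomial_mul_of_lt ν (Finsupp.single v 1) 1 f i (by rwa [e])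

open Classical in
/-- The first order point. -/
def xe (x : ZT p r → KB p r) (v : ZT p r) : DualNumber (KB p r) :=
  if nuW n v = 0 then TrivSqZeroExt.inl (apt n v) else TrivSqZeroExt.inr (x v)

open Classical in
/-- The base point with vanishing normal part. -/
def xz (v : ZT p r) : KB p r := if nuW n v = 0 then apt n v else 0

lemma xz_apt : ∀ v : ZT p r, nuW n v = 0 → xz n v = apt n v := fun _ hv => if_pos hv

lemma dual_split {x : ZT p r → KB p r} (hx : ∀ v, nuW n v = 0 → x v = apt n v)
    (f : MvPolynomial (ZT p r) ℂ) :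
    TrivSqZeroExt.fst (aeval (xe n x) f) = aeval (xz n) f ∧
      TrivSqZeroExt.snd (aeval (xe n x) f) =
        aeval x (weightedHomogeneousComponent (nuW n) 1 f) ∧
      aeval x (weightedHomogeneousComponent (nuW n) 0 f) = aeval (xz n) f := by
  classical
  induction f using MvPolynomial.induction_on with
  | C a =>
    have h0 : IsWeightedHomogeneous (nuW n) (C a : MvPolynomial (ZT p r) ℂ) 0 :=
      isWeightedHomogeneous_C _ _
    rw [h0.weightedHomogeneousComponent_same, h0.weightedHomogeneousComponent_ne 1 one_ne_zero]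
    simp [IsScalarTower.algebraMap_apply ℂ (KB p r) (DualNumber (KB p r)),
      TrivSqZeroExt.algebraMap_eq_inl]
  | add u v hu hv => simp [hu.1, hu.2.1, hu.2.2, hv.1, hv.2.1, hv.2.2]
  | mul_X u v hu =>
    rw [mul_comm u (X v)]
    rcases Nat.le_one_iff_eq_zero_or_eq_one.1 (nuW_le n v) with h | h
    · have c1 := (component_X_mul (nuW n) v u 1).1
      have c0 := (component_X_mul (nuW n) v u 0).1
      rw [h] at c1 c0
      simp only [zero_add] at c1 c0
      simp only [map_mul, aeval_X, TrivSqZeroExt.fst_mul, TrivSqZeroExt.snd_mul, c1, c0, hu.1,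
        hu.2.1, hu.2.2, op_smul_eq_mul, smul_eq_mul]
      simp [xe, xz, h, hx v h]
    · have c1 := (component_X_mul (nuW n) v u 0).1
      have c0 := (component_X_mul (nuW n) v u 0).2 (by omega)
      rw [h] at c1
      simp only [add_zero] at c1
      simp only [map_mul, aeval_X, TrivSqZeroExt.fst_mul, TrivSqZeroExt.snd_mul, c1, c0, hu.1,
        hu.2.1, hu.2.2, op_smul_eq_mul, smul_eq_mul]
      simp [xe, xz, h, mul_comm]

/-- The dual-number point in the coordinates `z, u`. -/
def phiE (x : ZT p r → KB p r) : MvPolynomial (ZT p r) ℂ →ₐ[ℂ] DualNumber (KB p r) :=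
  aeval (Sum.elim (fun b => xe n x (Sum.inl b)) (fun i => TrivSqZeroExt.inl (gen (Sum.inr i))))

lemma phiE_iotaU (x : ZT p r → KB p r) (f : MvPolynomial (ZT p r) ℂ) :
    phiE n x (iotaU f) = aeval (xe n x) f := by
  have e : (phiE n x).comp iotaU = aeval (xe n x) := MvPolynomial.algHom_ext fun v => by
    rcases v with b | i
    · simp [phiE, iotaU]
    · simp only [AlgHom.comp_apply, iotaU, aeval_X, Sum.elim_inr, phiE, map_pow, xe, nuW, apt,
        if_true]
      exact ((TrivSqZeroExt.inlHom (KB p r) (KB p r)).map_pow _ p).symm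
  exact DFunLike.congr_fun e f

include hg hl hAg in
lemma phiE_kill [NeZero r] {x : ZT p r → KB p r} (hx : ∀ v, nuW n v = 0 → x v = apt n v)
    (hlin : ∀ f ∈ parP (p := p) (r := r) n, ∀ d, IsWeightedHomogeneous (ztWt p r) f d →
      aeval x (weightedHomogeneousComponent (nuW n) 1 f) = 0) :
    ∀ f ∈ parP (p := p) (r := r) n, phiE n x (iotaU f) = 0 := by
  classical
  intro f hf
  have hT0 : tanZero n g (xz (p := p) (r := r) n) := by
    intro i k _
    have : nmat n (xz (p := p) (r := r) n) = 0 := by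
      refine Finset.sum_eq_zero fun b _ => ?_
      split_ifs with hb
      · rw [zero_smul]
      · simp [xz, nuW, hb]
    simp [conjX, this]
  rw [phiE_iotaU, ← sum_weightedHomogeneousComponent (ztWt p r) f]
  rw [finsum_eq_sum _ (weightedHomogeneousComponent_finsupp (w := ztWt p r) f), map_sum]
  refine Finset.sum_eq_zero fun d _ => ?_
  have hd := isHom_parP n f hf d
  obtain ⟨h1, h2, h3⟩ := dual_split n hx (weightedHomogeneousComponent (ztWt p r) d f)
  refine TrivSqZeroExt.ext ?_ ?_
  · obtain ⟨-, -, h4⟩ := dual_split n (xz_apt (p := p) (r := r) n)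
      (weightedHomogeneousComponent (ztWt p r) d f)
    rw [h1, ← h4, TrivSqZeroExt.fst_zero]
    exact initial_vanish n hg hl hAg (xz_apt n) hT0 hd 0
      (fun i hi => absurd hi (Nat.not_lt_zero i))
  · rw [h2, TrivSqZeroExt.snd_zero]
    exact hlin _ hd d (weightedHomogeneousComponent_isWeightedHomogeneous d f)

lemma snd_pow_diag {ι ξ : Type} [Fintype ι] [DecidableEq ι] (blk : ι → ξ) (μ : ξ → KB p r)
    (Z : Matrix ι ι (DualNumber (KB p r))) (hf : Z.map TrivSqZeroExt.fst =
      Matrix.diagonal fun i => μ (blk i)) (k : ℕ) :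
    ∀ i j : ι, TrivSqZeroExt.fst ((Z ^ k) i j) = (if i = j then μ (blk i) ^ k else 0) ∧
      (blk i = blk j → TrivSqZeroExt.snd ((Z ^ k) i j) =
        (k : KB p r) * μ (blk i) ^ (k - 1) * TrivSqZeroExt.snd (Z i j)) := by
  have hf' : ∀ a b, TrivSqZeroExt.fst (Z a b) = if a = b then μ (blk a) else 0 := by
    intro a b
    have := congrFun (congrFun hf a) b
    rw [Matrix.map_apply] at this
    rw [this]
    exact Matrix.diagonal_apply ..
  induction k with
  | zero =>
    intro i j
    by_cases h : i = j <;> simp [h]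
  | succ k ih =>
    intro i j
    constructor
    · simp only [pow_succ, Matrix.mul_apply, TrivSqZeroExt.fst_sum, TrivSqZeroExt.fst_mul, hf',
        (ih _ _).1, ite_mul, zero_mul, mul_ite, mul_zero, Finset.sum_ite_eq', Finset.mem_univ,
        if_true]
      by_cases h : i = j
      · subst h; simp
      · simp [h]
    · intro hij
      have hd := (ih i j).2 hij
      simp only [pow_succ, Matrix.mul_apply, TrivSqZeroExt.snd_sum, TrivSqZeroExt.snd_mul,
        op_smul_eq_mul, smul_eq_mul, hf', (ih _ _).1, Finset.sum_add_distrib, ite_mul, zero_mul,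
        mul_ite, mul_zero, Finset.sum_ite_eq, Finset.sum_ite_eq', Finset.mem_univ, if_true]
      rw [hd, ← hij]
      rcases Nat.eq_zero_or_pos k with rfl | hk
      · simp
      · obtain ⟨k', rfl⟩ := Nat.exists_eq_add_of_le hk
        simp only [Nat.add_sub_cancel, Nat.succ_eq_add_one, Nat.add_sub_cancel_left]
        push_cast
        ring

lemma snd_root_relation {ι ξ : Type} [Fintype ι] [DecidableEq ι] (blk : ι → ξ) (μ : ξ → KB p r)
    (Z : Matrix ι ι (DualNumber (KB p r))) (hf : Z.map TrivSqZeroExt.fst =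
      Matrix.diagonal fun i => μ (blk i)) (q : Polynomial (DualNumber (KB p r)))
    (hq : Polynomial.aeval Z q = 0) :
    ∃ q1 : ξ → KB p r, ∀ i j : ι, blk i = blk j →
      (if i = j then q1 (blk i) else 0) +
        (q.map (TrivSqZeroExt.fstHom (KB p r) (KB p r) (KB p r)).toRingHom).derivative.eval
          (μ (blk i)) * TrivSqZeroExt.snd (Z i j) = 0 := by
  refine ⟨fun z => ∑ k ∈ Finset.range (q.natDegree + 1),
    TrivSqZeroExt.snd (q.coeff k) * μ z ^ k, fun i j hij => ?_⟩
  have h := congrArg TrivSqZeroExt.snd (congrFun (congrFun hq i) j)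
  rw [Polynomial.aeval_eq_sum_range, Matrix.sum_apply, TrivSqZeroExt.snd_sum, Matrix.zero_apply,
    TrivSqZeroExt.snd_zero] at h
  simp only [Matrix.smul_apply, smul_eq_mul, TrivSqZeroExt.snd_mul, op_smul_eq_mul,
    fun k => (snd_pow_diag blk μ Z hf k i j).1, fun k => (snd_pow_diag blk μ Z hf k i j).2 hij,
    Finset.sum_add_distrib] at h
  refine Eq.trans ?_ h
  rw [add_comm]
  congr 1
  · rw [Polynomial.derivative_map, Polynomial.eval_map,
      Polynomial.eval₂_eq_sum_range' _ (n := q.natDegree + 1) (by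
        have := Polynomial.natDegree_derivative_le q
        omega), Finset.sum_mul]
    symm
    rw [Finset.sum_range_succ']
    simp only [Nat.cast_zero, zero_mul, mul_zero, add_zero, Nat.add_sub_cancel]
    rw [Finset.sum_range_succ (n := q.natDegree),
      Polynomial.coeff_derivative q q.natDegree,
      Polynomial.coeff_eq_zero_of_natDegree_lt (Nat.lt_succ_self _), zero_mul, map_zero, zero_mul,
      zero_mul, add_zero]
    refine Finset.sum_congr rfl fun k _ => ?_
    rw [Polynomial.coeff_derivative, map_mul, map_add, map_one, map_natCast]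
    show TrivSqZeroExt.fst (q.coeff (k + 1)) * _ =
      TrivSqZeroExt.fst (q.coeff (k + 1)) * _ * _ * _
    push_cast
    ring
  · by_cases hc : i = j
    · subst hc; simp [mul_comm]
    · simp [hc]

lemma Zhat_phiE (x : ZT p r → KB p r) :
    (Zhat.map (phiE n x)).map TrivSqZeroExt.fst = Amat n ∧
      (Zhat.map (phiE n x)).map TrivSqZeroExt.snd = nmat n x := by
  classical
  have hW : ∀ (b : Gp p r) (i k : Ix p r), phiE n x (WA p r (MvPolynomial (ZT p r) ℂ) b i k) =
      TrivSqZeroExt.inl (WA p r (KB p r) b i k) := by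
    intro b i k
    simp [WA, IsScalarTower.algebraMap_apply ℂ (KB p r) (DualNumber (KB p r)),
      TrivSqZeroExt.algebraMap_eq_inl]
  have hP : ∀ b : Gp p r, phiE n x (∏ k, X (Sum.inr k) ^ (p - (b k).val)) =
      TrivSqZeroExt.inl (∏ k, gen (Sum.inr k) ^ (p - (b k).val)) := by
    intro b
    rw [map_prod]
    show _ = TrivSqZeroExt.inlHom (KB p r) (KB p r) _
    rw [map_prod]
    refine Finset.prod_congr rfl fun k _ => ?_
    rw [map_pow, map_pow, phiE, aeval_X, Sum.elim_inr]
    rfl
  have hB : ∀ b : {b : Gp p r // b ≠ 0}, phiE n x (X (Sum.inl b)) = xe n x (Sum.inl b) := by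
    intro b
    simp [phiE]
  constructor
  · ext i k
    simp only [Amat, Matrix.map_apply, Zhat, Matrix.sum_apply, map_sum, TrivSqZeroExt.fst_sum,
      Matrix.smul_apply, smul_eq_mul, map_mul, hW, hP, hB, TrivSqZeroExt.fst_mul,
      TrivSqZeroExt.fst_inl]
    refine Finset.sum_congr rfl fun b _ => ?_
    have e : baseU n (WA p r (MvPolynomial (ZT p r) ℂ) b.1 i k) = WA p r (KB p r) b.1 i k :=
      congrFun (congrFun (WA_map (baseU n) b.1) i) k
    rw [e, map_prod, baseU_apply]
    simp only [map_pow, baseU_inr, xe, nuW, apt, Sum.elim_inl]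
    by_cases hb : isFb n b.1 <;> simp [hb]
  · ext i k
    simp only [nmat, Matrix.map_apply, Zhat, Matrix.sum_apply, map_sum, TrivSqZeroExt.snd_sum,
      Matrix.smul_apply, smul_eq_mul, map_mul, hW, hP, hB, TrivSqZeroExt.snd_mul,
      TrivSqZeroExt.fst_mul, TrivSqZeroExt.fst_inl, TrivSqZeroExt.snd_inl, op_smul_eq_mul,
      mul_zero, zero_add, add_zero]
    refine Finset.sum_congr rfl fun b _ => ?_
    simp only [xe, nuW, Sum.elim_inl]
    by_cases hb : isFb n b.1
    · simp [hb]
    · simp only [if_neg hb, one_ne_zero, if_false, TrivSqZeroExt.snd_inr, TrivSqZeroExt.fst_inr]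

include hg hl hAg in
/-- Second half: the linear parts cut out the tangent space. -/
lemma tanZero_of_linear [NeZero r] (hn : n ≤ r) {x : ZT p r → KB p r}
    (hx : ∀ v, nuW n v = 0 → x v = apt n v)
    (hlin : ∀ f ∈ parP (p := p) (r := r) n, ∀ d, IsWeightedHomogeneous (ztWt p r) f d →
      aeval x (weightedHomogeneousComponent (nuW n) 1 f) = 0) : tanZero n g x := by
  classical
  obtain ⟨hGi, hiG⟩ := G_mul_inv n hg
  letI : Algebra ℚ (DualNumber (KB p r)) :=
    ((algebraMap (KB p r) (DualNumber (KB p r))).comp (algebraMap ℚ (KB p r))).toAlgebra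
  obtain ⟨-, heval⟩ := root_identities n hn (phiE n x) (phiE_kill n hg hl hAg hx hlin)
  obtain ⟨hZ1, hZ2⟩ := Zhat_phiE n x
  set m := p ^ (r - n)
  set N := p ^ n
  set Z := Zhat.map (phiE n x)
  let il : KB p r →+* DualNumber (KB p r) := TrivSqZeroExt.inlHom _ _
  let fs : DualNumber (KB p r) →+* KB p r :=
    (TrivSqZeroExt.fstHom (KB p r) (KB p r) (KB p r)).toRingHom
  let Gd := (kr n g).map il
  let Gid := (kr n g⁻¹).map il
  have hGd : Gd * Gid = 1 := by
    simp only [Gd, Gid, ← Matrix.map_mul, hGi, Matrix.map_one _ (map_zero il) (map_one il)]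
  have hGd' : Gid * Gd = 1 := by
    simp only [Gd, Gid, ← Matrix.map_mul, hiG, Matrix.map_one _ (map_zero il) (map_one il)]
  let Z' := Gid * Z * Gd
  have e1 : Gd.map fs = kr n g := by ext i k; simp [Gd, fs, il]
  have e2 : Gid.map fs = kr n g⁻¹ := by ext i k; simp [Gid, fs, il]
  have hfst : Z'.map TrivSqZeroExt.fst = Matrix.diagonal fun i => l (eLH n i).1 := by
    show Z'.map fs = _
    simp only [Z', Matrix.map_mul]
    rw [e1, e2, show Z.map fs = Amat n from hZ1, mul_assoc, Amat_mul n hAg, ← mul_assoc, hiG,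
      one_mul]
  have hsnd : ∀ i k, TrivSqZeroExt.snd (Z' i k) = conjX n g x i k := by
    intro i k
    simp only [Z', Matrix.mul_apply, TrivSqZeroExt.snd_sum, TrivSqZeroExt.snd_mul,
      TrivSqZeroExt.fst_mul, TrivSqZeroExt.fst_sum, op_smul_eq_mul, smul_eq_mul, Gd, Gid, il,
      Matrix.map_apply, TrivSqZeroExt.inlHom_apply, TrivSqZeroExt.fst_inl, TrivSqZeroExt.snd_inl,
      mul_zero, zero_mul, add_zero, zero_add, Finset.sum_mul]
    simp only [conjX, Matrix.mul_apply, Finset.sum_mul]
    refine Finset.sum_congr rfl fun a _ => Finset.sum_congr rfl fun b _ => ?_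
    rw [← hZ2, Matrix.map_apply]
  set q := rootPoly m N Z.charpoly
  have hpow : ∀ k : ℕ, Z' ^ k = Gid * Z ^ k * Gd := by
    intro k
    induction k with
    | zero => rw [pow_zero, pow_zero, mul_one, hGd']
    | succ k ih =>
      rw [pow_succ, ih, pow_succ]
      calc Gid * Z ^ k * Gd * Z' = Gid * Z ^ k * (Gd * Gid) * Z * Gd := by
            simp only [Z', mul_assoc]
        _ = Gid * (Z ^ k * Z) * Gd := by rw [hGd, mul_one]; simp only [mul_assoc]
  have hzero : Polynomial.aeval Z' q = 0 := by
    have : Polynomial.aeval Z' q = Gid * Polynomial.aeval Z q * Gd := by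
      simp only [Polynomial.aeval_eq_sum_range, hpow, Finset.mul_sum, Finset.sum_mul,
        mul_smul_comm, smul_mul_assoc]
    rw [this, heval, mul_zero, zero_mul]
  have hG : (kr n g).det ≠ 0 := by
    intro h0
    have := congrArg Matrix.det hGi
    rw [Matrix.det_mul, h0, zero_mul, Matrix.det_one] at this
    exact zero_ne_one this
  have hq0 : q.map fs = ∏ z, (Polynomial.X - Polynomial.C (l z)) := by
    obtain ⟨hc, -⟩ := root_of_intertwined hG (fun i => (eLH n i).1) (card_blk n hn) l
      (Amat_mul n hAg)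
    have hχ : Z.charpoly.map fs = (∏ z, (Polynomial.X - Polynomial.C (l z))) ^ m := by
      rw [← Matrix.charpoly_map, show Z.map fs = Amat n from hZ1, hc]
    rw [rootPoly_map, hχ, rootPoly_pow (pow_pos (Fact.out (p := p.Prime)).pos _)
      (Polynomial.monic_prod_of_monic _ _ fun z _ => Polynomial.monic_X_sub_C _)
      (by rw [Polynomial.natDegree_finsetProd_X_sub_C_eq_card, Finset.card_univ, card_lo n hn])]
  have hder : ∀ z, (q.map fs).derivative.eval (l z) ≠ 0 := by
    intro z h0
    have hsep : (q.map fs).Separable := by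
      rw [hq0]; exact Polynomial.separable_prod_X_sub_C_iff.2 hl
    refine hsep.eval₂_derivative_ne_zero (RingHom.id _) (x := l z) ?_
      (by rw [← Polynomial.eval_map, Polynomial.map_id]; exact h0)
    rw [← Polynomial.eval_map, Polynomial.map_id, hq0, Polynomial.eval_prod]
    exact Finset.prod_eq_zero (Finset.mem_univ z) (by simp)
  obtain ⟨q1, hrel⟩ := snd_root_relation (fun i => (eLH n i).1) l Z' hfst q hzero
  intro i j hij
  by_cases h : i = j
  · subst h
    set z := (eLH n i).1
    have hdiag : ∀ h' : Hi p r n,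
        conjX n g x ((eLH n).symm (z, h')) ((eLH n).symm (z, h')) =
          -q1 z / (q.map fs).derivative.eval (l z) := by
      intro h'
      have := hrel ((eLH n).symm (z, h')) ((eLH n).symm (z, h')) rfl
      simp only [if_true, Equiv.apply_symm_apply, hsnd] at this
      rw [eq_div_iff (hder z)]
      linear_combination this
    have hp := congrFun (congrFun (ptr_conjX n g x) z) z
    simp only [ptr, hdiag, Finset.sum_const, Finset.card_univ, nsmul_eq_mul, Matrix.zero_apply]
      at hp
    have hi : i = (eLH n).symm (z, (eLH n i).2) := by simp [z]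
    rw [hi, hdiag]
    exact (mul_eq_zero.1 hp).resolve_left (Nat.cast_ne_zero.2 Fintype.card_ne_zero)
  · have := hrel i j hij
    rw [if_neg h, zero_add, hsnd] at this
    exact (mul_eq_zero.1 this).resolve_left (hder _)

end

end Vale.Agent.P199.K.Start
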