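import Vale.Agent.P199.K.Pins

/-!
P199, START: the Weyl basis, its coefficient functionals, and the splitting into two tensor factors.
-/

namespace Vale.Agent.P199.K.Start

open Matrix
open scoped BigOperators

noncomputable section

variable {p r : ℕ} [Fact p.Prime]

lemma zeta_spec : IsPrimitiveRoot (zeta p) p :=
  Complex.isPrimitiveRoot_exp p (Fact.out (p := p.Prime)).ne_zero

/-- The standard character of `ℤ/p`. -/
def ch (p : ℕ) [Fact p.Prime] : AddChar (ZMod p) ℂ :=
  AddChar.zmodChar p (zeta_spec (p := p)).pow_eq_one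

lemma ch_apply (x : ZMod p) : ch p x = zeta p ^ x.val := rfl

lemma ch_ne_one {x : ZMod p} (hx : x ≠ 0) : ch p x ≠ 1 := by
  intro h
  refine hx ((ZMod.val_eq_zero x).1 (zeta_spec.pow_inj (ZMod.val_lt x) (NeZero.pos _) ?_))
  rw [pow_zero, ← ch_apply, h]

lemma ch_ne_zero (x : ZMod p) : ch p x ≠ 0 := by
  rw [ch_apply]
  exact pow_ne_zero _ (zeta_spec.ne_zero (Fact.out (p := p.Prime)).ne_zero)

/-- The shift part. -/
def pI (b : Gp p r) : Ix p r := fun k => b (Sum.inl k)

/-- The pairing of the phase part with an index. -/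
def pdot (b : Gp p r) (j : Ix p r) : ZMod p := ∑ k, b (Sum.inr k) * j k

lemma pI_add (a b : Gp p r) : pI (a + b) = pI a + pI b := rfl

lemma pdot_add_left (a b : Gp p r) (j : Ix p r) : pdot (a + b) j = pdot a j + pdot b j := by
  simp [pdot, add_mul, Finset.sum_add_distrib]

lemma pdot_add_right (a : Gp p r) (i j : Ix p r) : pdot a (i + j) = pdot a i + pdot a j := by
  simp [pdot, mul_add, Finset.sum_add_distrib]

lemma W_apply (a : Gp p r) (i j : Ix p r) :
    W p r a i j = if i = j + pI a then ch p (pdot a j) else 0 := rfl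

lemma W_zero : W p r (0 : Gp p r) = 1 := by
  ext i j
  have h1 : pI (0 : Gp p r) = 0 := rfl
  have h2 : pdot (0 : Gp p r) j = 0 := by simp [pdot]
  rw [W_apply, h1, h2, add_zero, AddChar.map_zero_eq_one, Matrix.one_apply]

lemma W_mul (a b : Gp p r) : W p r a * W p r b = ch p (pdot a (pI b)) • W p r (a + b) := by
  ext i j
  rw [Matrix.mul_apply, Finset.sum_eq_single (j + pI b)]
  · rw [Matrix.smul_apply, W_apply, W_apply, W_apply, if_pos rfl, pI_add, smul_eq_mul]
    have h : j + pI b + pI a = j + (pI a + pI b) := by abel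
    rw [h]
    split_ifs
    · rw [pdot_add_right, pdot_add_left, AddChar.map_add_eq_mul, AddChar.map_add_eq_mul]
      ring
    · simp
  · intro x _ hx
    rw [W_apply b, if_neg hx, mul_zero]
  · simp

/-- Twisting factor of conjugation. -/
def chi (c b : Gp p r) : ℂ := ch p (pdot c (pI b) - pdot b (pI c))

lemma W_comm (c b : Gp p r) : W p r c * W p r b = chi c b • (W p r b * W p r c) := by
  rw [W_mul, W_mul, smul_smul, chi, ← AddChar.map_add_eq_mul, sub_add_cancel, add_comm b c]

variable {R : Type} [CommRing R] [Algebra ℂ R]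

lemma WA_apply (a : Gp p r) (i j : Ix p r) :
    WA p r R a i j = if i = j + pI a then algebraMap ℂ R (ch p (pdot a j)) else 0 := by
  rw [WA, Matrix.map_apply, W_apply, apply_ite (algebraMap ℂ R), map_zero]

lemma WA_zero : WA p r R (0 : Gp p r) = 1 := by
  rw [WA, W_zero, Matrix.map_one _ (map_zero _) (map_one _)]

lemma WA_mul (a b : Gp p r) :
    WA p r R a * WA p r R b = algebraMap ℂ R (ch p (pdot a (pI b))) • WA p r R (a + b) := by
  rw [WA, WA, ← Matrix.map_mul, W_mul, WA]
  ext i j
  simp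

lemma WA_comm (c b : Gp p r) :
    WA p r R c * WA p r R b = algebraMap ℂ R (chi c b) • (WA p r R b * WA p r R c) := by
  rw [WA, WA, ← Matrix.map_mul, W_comm, ← Matrix.map_mul]
  ext i j
  simp only [Matrix.map_apply, Matrix.smul_apply, smul_eq_mul, map_mul]

/-- The `b`-th coordinate of a matrix in the Weyl basis. -/
def coef (b : Gp p r) : Matrix (Ix p r) (Ix p r) R →ₗ[R] R where
  toFun X := algebraMap ℂ R ((p : ℂ) ^ r)⁻¹ *
    ∑ j, algebraMap ℂ R (ch p (-pdot b j)) * X (j + pI b) j
  map_add' X Y := by simp only [Matrix.add_apply, mul_add, Finset.sum_add_distrib]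
  map_smul' c X := by
    simp only [Matrix.smul_apply, smul_eq_mul, RingHom.id_apply]
    simp only [Finset.mul_sum]
    refine Finset.sum_congr rfl fun j _ => ?_
    ring

lemma sum_ch {ι : Type} [Fintype ι] [DecidableEq ι] (x : ι → ZMod p) :
    ∑ v : ι → ZMod p, ch p (∑ k, v k * x k) =
      if x = 0 then (p : ℂ) ^ Fintype.card ι else 0 := by
  split_ifs with h
  · subst h
    simp [Finset.card_univ]
  · obtain ⟨k, hk⟩ := Function.ne_iff.1 h
    let ψ : AddChar (ι → ZMod p) ℂ :=
      { toFun := fun v => ch p (∑ k, v k * x k)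
        map_zero_eq_one' := by simp
        map_add_eq_mul' := fun v w => by
          simp [add_mul, Finset.sum_add_distrib, AddChar.map_add_eq_mul] }
    refine AddChar.sum_eq_zero_of_ne_one (ψ := ψ) fun hψ => ?_
    have := DFunLike.congr_fun hψ (Pi.single k 1)
    simp [ψ, Pi.single_apply, Finset.sum_ite_eq', ite_mul] at this
    exact ch_ne_one hk this

lemma coef_WA (a b : Gp p r) : coef (R := R) a (WA p r R b) = if a = b then 1 else 0 := by
  classical
  have hp : ((p : ℂ) ^ r) ≠ 0 := pow_ne_zero _ (Nat.cast_ne_zero.2 (Fact.out (p := p.Prime)).ne_zero)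
  show algebraMap ℂ R ((p : ℂ) ^ r)⁻¹ *
    ∑ j, algebraMap ℂ R (ch p (-pdot a j)) * WA p r R b (j + pI a) j = _
  simp only [WA_apply, add_right_inj]
  by_cases h1 : pI a = pI b
  · simp only [h1, if_true, ← map_mul, ← map_sum, ← AddChar.map_add_eq_mul]
    have h : ∀ j : Ix p r, -pdot a j + pdot b j =
        ∑ k, j k * (b (Sum.inr k) - a (Sum.inr k)) := by
      intro j
      simp only [pdot, mul_sub, Finset.sum_sub_distrib]
      simp only [mul_comm (j _)]
      ring
    simp only [h, sum_ch, Fintype.card_fin]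
    by_cases h2 : a = b
    · subst h2
      simp [hp, funext_iff]
    · rw [if_neg h2, if_neg, mul_zero, map_zero]
      intro h3
      refine h2 (funext fun i => ?_)
      rcases i with k | k
      · exact congrFun h1 k
      · exact (sub_eq_zero.1 (congrFun h3 k)).symm
  · have h2 : a ≠ b := fun h => h1 (h ▸ rfl)
    simp [h1, h2]

lemma sum_coef (X : Matrix (Ix p r) (Ix p r) R) : ∑ b, coef b X • WA p r R b = X := by
  classical
  have hp : ((p : ℂ) ^ r) ≠ 0 := pow_ne_zero _ (Nat.cast_ne_zero.2 (Fact.out (p := p.Prime)).ne_zero)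
  ext i j
  rw [Matrix.sum_apply,
    ← Equiv.sum_comp (Equiv.sumArrowEquivProdArrow (Fin r) (Fin r) (ZMod p)).symm,
    Fintype.sum_prod_type, Finset.sum_eq_single (i - j)]
  · have h : ∀ v : Ix p r,
        coef ((Equiv.sumArrowEquivProdArrow (Fin r) (Fin r) (ZMod p)).symm (i - j, v)) X *
          algebraMap ℂ R (ch p (∑ k, v k * j k)) =
        algebraMap ℂ R ((p : ℂ) ^ r)⁻¹ * ∑ l, algebraMap ℂ R
          (ch p (∑ k, v k * (j k - l k))) * X (l + (i - j)) l := by
      intro v
      show (algebraMap ℂ R ((p : ℂ) ^ r)⁻¹ * ∑ l, algebraMap ℂ R (ch p (-∑ k, v k * l k)) *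
        X (l + (i - j)) l) * _ = _
      rw [mul_assoc, Finset.sum_mul]
      congr 1
      refine Finset.sum_congr rfl fun l _ => ?_
      rw [mul_right_comm, ← map_mul, ← AddChar.map_add_eq_mul]
      simp only [mul_sub, Finset.sum_sub_distrib]
      congr 3
      ring
    calc (∑ v : Ix p r, (coef ((Equiv.sumArrowEquivProdArrow (Fin r) (Fin r) (ZMod p)).symm (i - j, v)) X •
          WA p r R ((Equiv.sumArrowEquivProdArrow (Fin r) (Fin r) (ZMod p)).symm (i - j, v))) i j)
        = ∑ v : Ix p r, algebraMap ℂ R ((p : ℂ) ^ r)⁻¹ * ∑ l, algebraMap ℂ R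
          (ch p (∑ k, v k * (j k - l k))) * X (l + (i - j)) l := by
          refine Finset.sum_congr rfl fun v _ => ?_
          have h1 : pI ((Equiv.sumArrowEquivProdArrow (Fin r) (Fin r) (ZMod p)).symm (i - j, v))
              = i - j := rfl
          rw [Matrix.smul_apply, WA_apply, h1, if_pos (by abel), smul_eq_mul]
          exact h v
      _ = X i j := by
          rw [← Finset.mul_sum, Finset.sum_comm]
          simp only [← Finset.sum_mul, ← map_sum]
          rw [Finset.sum_eq_single j]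
          · rw [show (∑ v : Ix p r, ch p (∑ k, v k * (j k - j k))) = (p : ℂ) ^ r by
              simp [Finset.card_univ], ← mul_assoc, ← map_mul, inv_mul_cancel₀ hp, map_one,
              one_mul, add_sub_cancel]
          · intro l _ hl
            rw [show (∑ v : Ix p r, ch p (∑ k, v k * (j k - l k))) = 0 from
              (sum_ch (fun k => j k - l k)).trans (if_neg fun h => hl (funext fun k =>
                (sub_eq_zero.1 (congrFun h k)).symm))]
            simp
          · simp
  · intro x _ hx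
    refine Finset.sum_eq_zero fun v _ => ?_
    have h1 : pI ((Equiv.sumArrowEquivProdArrow (Fin r) (Fin r) (ZMod p)).symm (x, v)) = x := rfl
    rw [Matrix.smul_apply, WA_apply, h1, if_neg, smul_zero]
    rintro rfl
    simp at hx
  · simp

lemma coef_sum (c : Gp p r → R) (a : Gp p r) :
    coef a (∑ b, c b • WA p r R b) = c a := by
  classical
  simp [map_sum, coef_WA]

lemma coef_map {R' : Type} [CommRing R'] [Algebra ℂ R'] (φ : R →ₐ[ℂ] R') (b : Gp p r)
    (X : Matrix (Ix p r) (Ix p r) R) : coef b (X.map φ) = φ (coef b X) := by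
  show algebraMap ℂ R' _ * _ = φ (algebraMap ℂ R _ * _)
  simp [map_sum, Matrix.map_apply]

lemma WA_map {R' : Type} [CommRing R'] [Algebra ℂ R'] (φ : R →ₐ[ℂ] R') (b : Gp p r) :
    (WA p r R b).map φ = WA p r R' b := by
  ext i j
  simp [WA]

/-- Conjugation by a Weyl matrix. -/
def twist (c : Gp p r) (X : Matrix (Ix p r) (Ix p r) R) : Matrix (Ix p r) (Ix p r) R :=
  ∑ b, (algebraMap ℂ R (chi c b) * coef b X) • WA p r R b

lemma coef_twist (c b : Gp p r) (X : Matrix (Ix p r) (Ix p r) R) :
    coef b (twist c X) = algebraMap ℂ R (chi c b) * coef b X :=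
  coef_sum _ b

lemma twist_mul_WA (c : Gp p r) (X : Matrix (Ix p r) (Ix p r) R) :
    twist c X * WA p r R c = WA p r R c * X := by
  conv_rhs => rw [← sum_coef X]
  rw [twist, Finset.sum_mul, Finset.mul_sum]
  refine Finset.sum_congr rfl fun b _ => ?_
  rw [smul_mul_assoc, mul_smul_comm, WA_comm c b, smul_smul, mul_comm]

lemma WA_right_cancel (c : Gp p r) {X Y : Matrix (Ix p r) (Ix p r) R}
    (h : X * WA p r R c = Y * WA p r R c) : X = Y := by
  have h1 := congrArg (· * WA p r R (-c)) h
  simp only [mul_assoc, WA_mul, add_neg_cancel, WA_zero, mul_smul_comm, mul_one] at h1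
  exact ((isUnit_iff_ne_zero.2 (ch_ne_zero _)).map (algebraMap ℂ R)).smul_left_cancel.1 h1

lemma twist_mul (c : Gp p r) (X Y : Matrix (Ix p r) (Ix p r) R) :
    twist c (X * Y) = twist c X * twist c Y :=
  WA_right_cancel c (by rw [twist_mul_WA, mul_assoc, twist_mul_WA, ← mul_assoc, ← mul_assoc,
    twist_mul_WA])

lemma twist_one (c : Gp p r) : twist c (1 : Matrix (Ix p r) (Ix p r) R) = 1 :=
  WA_right_cancel c (by rw [twist_mul_WA, one_mul, mul_one])

lemma twist_smul (c : Gp p r) (a : R) (X : Matrix (Ix p r) (Ix p r) R) :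
    twist c (a • X) = a • twist c X := by
  simp [twist, Finset.smul_sum, smul_smul, mul_left_comm]

lemma twist_diagonal (c : Gp p r) (f : Ix p r → R) :
    twist c (diagonal f) = diagonal fun i => f (i - pI c) := by
  refine WA_right_cancel c ?_
  rw [twist_mul_WA]
  ext i j
  rw [mul_diagonal, diagonal_mul, WA_apply]
  split_ifs with h
  · rw [h, add_sub_cancel_right, mul_comm]
  · simp

lemma adjugate_twist [IsDomain R] (c : Gp p r) (g : Matrix (Ix p r) (Ix p r) R) (hg : g.det ≠ 0) :
    (twist c g).adjugate = twist c g.adjugate := by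
  have hdet : (twist c g).det = g.det := by
    have h := congrArg Matrix.det (twist_mul_WA c g)
    rw [Matrix.det_mul, Matrix.det_mul, mul_comm (WA p r R c).det] at h
    refine mul_right_cancel₀ ?_ h
    intro h0
    have h1 := congrArg Matrix.det (WA_mul (R := R) c (-c))
    rw [Matrix.det_mul, h0, zero_mul, add_neg_cancel, WA_zero, Matrix.det_smul, Matrix.det_one,
      mul_one] at h1
    exact ((isUnit_iff_ne_zero.2 (ch_ne_zero _)).map (algebraMap ℂ R)).ne_zero
      (pow_eq_zero_iff'.1 h1.symm).1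
  have h1 : twist c g * twist c g.adjugate = g.det • 1 := by
    rw [← twist_mul, Matrix.mul_adjugate, twist_smul, twist_one]
  have h2 := congrArg ((twist c g).adjugate * ·) h1
  simp only [← mul_assoc, Matrix.adjugate_mul, hdet, smul_mul_assoc, one_mul, mul_smul_comm,
    mul_one] at h2
  exact (smul_right_injective _ hg h2).symm

/-! ## The two tensor factors -/

variable (n : ℕ)

/-- The first `n` coordinates. -/
abbrev Lo (p r n : ℕ) : Type := {k : Fin r // (k : ℕ) < n} → ZMod p

/-- The other coordinates. -/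
abbrev Hi (p r n : ℕ) : Type := {k : Fin r // ¬ (k : ℕ) < n} → ZMod p

/-- The splitting of an index. -/
def eLH : Ix p r ≃ Lo p r n × Hi p r n :=
  Equiv.piEquivPiSubtypeProd (fun k : Fin r => (k : ℕ) < n) (fun _ => ZMod p)

/-- The degrees living on the first tensor factor. -/
def isFb (b : Gp p r) : Prop := ∀ k : Fin r, ¬ (k : ℕ) < n → b (Sum.inl k) = 0 ∧ b (Sum.inr k) = 0

lemma eLH_add (i j : Ix p r) : eLH n (i + j) = eLH n i + eLH n j := rfl

/-- The embedding of the first tensor factor. -/
def kr (A : Matrix (Lo p r n) (Lo p r n) R) : Matrix (Ix p r) (Ix p r) R :=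
  fun i j => if (eLH n i).2 = (eLH n j).2 then A (eLH n i).1 (eLH n j).1 else 0

/-- The partial trace over the second factor. -/
def ptr (X : Matrix (Ix p r) (Ix p r) R) : Matrix (Lo p r n) (Lo p r n) R :=
  fun x y => ∑ h, X ((eLH n).symm (x, h)) ((eLH n).symm (y, h))

lemma sum_split (f : Ix p r → R) : ∑ i, f i = ∑ x, ∑ h, f ((eLH n).symm (x, h)) := by
  rw [← (eLH n).symm.sum_comp, Fintype.sum_prod_type]

lemma eLH_symm_lo (y : Lo p r n) (h : Hi p r n) (k : Fin r) (hk : (k : ℕ) < n) :
    (eLH n).symm (y, h) k = y ⟨k, hk⟩ := by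
  simp [eLH, Equiv.piEquivPiSubtypeProd, hk]

lemma eLH_symm_hi (y : Lo p r n) (h : Hi p r n) (k : Fin r) (hk : ¬ (k : ℕ) < n) :
    (eLH n).symm (y, h) k = h ⟨k, hk⟩ := by
  simp only [eLH, Equiv.piEquivPiSubtypeProd, Equiv.coe_fn_symm_mk, dif_neg hk]

lemma pdot_symm (b : Gp p r) (y : Lo p r n) (h : Hi p r n) :
    pdot b ((eLH n).symm (y, h)) =
      pdot b ((eLH n).symm (y, 0)) + ∑ k, h k * b (Sum.inr k.1) := by
  unfold pdot
  rw [← Fintype.sum_subtype_add_sum_subtype (fun k : Fin r => (k : ℕ) < n)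
      (fun k => b (Sum.inr k) * (eLH n).symm (y, h) k),
    ← Fintype.sum_subtype_add_sum_subtype (fun k : Fin r => (k : ℕ) < n)
      (fun k => b (Sum.inr k) * (eLH n).symm (y, 0) k), add_assoc]
  congr 1
  · refine Finset.sum_congr rfl fun k _ => ?_
    rw [eLH_symm_lo n y h k.1 k.2, eLH_symm_lo n y 0 k.1 k.2]
  · rw [← Finset.sum_add_distrib]
    refine Finset.sum_congr rfl fun k _ => ?_
    rw [eLH_symm_hi n y h k.1 k.2, eLH_symm_hi n y 0 k.1 k.2]
    show _ = b (Sum.inr k.1) * 0 + h k * b (Sum.inr k.1)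
    rw [mul_zero, zero_add, mul_comm]

lemma kr_mul (A B : Matrix (Lo p r n) (Lo p r n) R) : kr n (A * B) = kr n A * kr n B := by
  classical
  ext i j
  rw [Matrix.mul_apply, sum_split n]
  simp only [kr, Equiv.apply_symm_apply, ite_mul, zero_mul, mul_ite, mul_zero]
  simp only [Finset.sum_ite_eq', Finset.mem_univ, if_true, ite_self]
  split_ifs with h <;> simp [h, Matrix.mul_apply]

lemma kr_one : kr n (1 : Matrix (Lo p r n) (Lo p r n) R) = 1 := by
  ext i j
  simp only [kr, Matrix.one_apply, ← (eLH n).injective.eq_iff (a := i) (b := j), Prod.ext_iff]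
  split_ifs <;> simp_all

lemma kr_diagonal (f : Lo p r n → R) : kr n (diagonal f) = diagonal fun i => f (eLH n i).1 := by
  ext i j
  simp only [kr, Matrix.diagonal_apply, ← (eLH n).injective.eq_iff (a := i) (b := j), Prod.ext_iff]
  split_ifs <;> simp_all

lemma kr_map {R' : Type} [CommRing R'] (φ : R →+* R') (A : Matrix (Lo p r n) (Lo p r n) R) :
    (kr n A).map φ = kr n (A.map φ) := by
  ext i j
  simp only [Matrix.map_apply, kr, apply_ite φ, map_zero]

lemma coef_eq_ptr {b : Gp p r} (hb : isFb n b) (X : Matrix (Ix p r) (Ix p r) R) :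
    coef b X = algebraMap ℂ R ((p : ℂ) ^ r)⁻¹ * ∑ y : Lo p r n,
      algebraMap ℂ R (ch p (-pdot b ((eLH n).symm (y, 0)))) *
        ptr n X (y + (eLH n (pI b)).1) y := by
  show algebraMap ℂ R _ * _ = _
  congr 1
  rw [sum_split n]
  refine Finset.sum_congr rfl fun y _ => ?_
  rw [ptr, Finset.mul_sum]
  refine Finset.sum_congr rfl fun h _ => ?_
  have h1 : (eLH n).symm (y, h) + pI b = (eLH n).symm (y + (eLH n (pI b)).1, h) := by
    refine (eLH n).injective ?_
    rw [eLH_add, Equiv.apply_symm_apply, Equiv.apply_symm_apply]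
    refine Prod.ext rfl (funext fun k => ?_)
    show h k + b (Sum.inl k.1) = h k
    rw [(hb k.1 k.2).1, add_zero]
  have h2 : pdot b ((eLH n).symm (y, h)) = pdot b ((eLH n).symm (y, 0)) := by
    refine Finset.sum_congr rfl fun k _ => ?_
    by_cases hk : (k : ℕ) < n
    · simp [eLH, Equiv.piEquivPiSubtypeProd, hk]
    · rw [(hb k hk).2, zero_mul, zero_mul]
  rw [h1, h2]

lemma ptr_WA {b : Gp p r} (hb : ¬ isFb n b) : ptr n (WA p r R b) = 0 := by
  classical
  ext x y
  rw [Matrix.zero_apply, ptr]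
  by_cases h0 : ∀ k : Fin r, ¬ (k : ℕ) < n → b (Sum.inl k) = 0
  · have hb' : (fun k : {k : Fin r // ¬ (k : ℕ) < n} => b (Sum.inr k.1)) ≠ 0 := by
      intro h
      exact hb fun k hk => ⟨h0 k hk, congrFun h ⟨k, hk⟩⟩
    have hcond : ∀ h : Hi p r n, (eLH n).symm (x, h) = (eLH n).symm (y, h) + pI b ↔
        x = y + (eLH n (pI b)).1 := by
      intro h
      rw [← (eLH n).injective.eq_iff, eLH_add, Equiv.apply_symm_apply, Equiv.apply_symm_apply,
        Prod.ext_iff]
      refine and_iff_left (funext fun k => ?_)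
      show h k = h k + b (Sum.inl k.1)
      rw [h0 k.1 k.2, add_zero]
    simp only [WA_apply, hcond]
    split_ifs with h1
    · rw [Finset.sum_congr rfl fun h _ => by
        rw [pdot_symm n b y h, AddChar.map_add_eq_mul, map_mul], ← Finset.mul_sum]
      rw [← map_sum, sum_ch, if_neg hb', map_zero, mul_zero]
    · simp
  · push Not at h0
    obtain ⟨k, hk', hbk⟩ := h0
    have hk : ¬ (k : ℕ) < n := by omega
    refine Finset.sum_eq_zero fun h _ => ?_
    rw [WA_apply, if_neg]
    intro heq
    have := congrFun (congrArg Prod.snd (congrArg (eLH n) heq)) ⟨k, hk⟩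
    simp [eLH_add] at this
    exact hbk this

lemma ptr_eq_zero_iff (X : Matrix (Ix p r) (Ix p r) R) :
    ptr n X = 0 ↔ ∀ b, isFb n b → coef b X = 0 := by
  classical
  constructor
  · intro h b hb
    rw [coef_eq_ptr n hb, h]
    simp
  · intro h
    conv_lhs => rw [← sum_coef X]
    ext x y
    simp only [ptr, Matrix.sum_apply, Matrix.smul_apply, Matrix.zero_apply]
    rw [Finset.sum_comm]
    refine Finset.sum_eq_zero fun b _ => ?_
    by_cases hb : isFb n b
    · simp [h b hb]
    · rw [← Finset.smul_sum]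
      have := congrFun (congrFun (ptr_WA (R := R) n hb) x) y
      rw [ptr] at this
      simp only [this, Matrix.zero_apply, smul_zero]

lemma coef_kr {b : Gp p r} (hb : ¬ isFb n b) (A : Matrix (Lo p r n) (Lo p r n) R) :
    coef b (kr n A) = 0 := by
  show algebraMap ℂ R _ * _ = _
  convert mul_zero _
  rw [sum_split n]
  by_cases h0 : ∀ k : Fin r, ¬ (k : ℕ) < n → b (Sum.inl k) = 0
  · have hb' : (fun k : {k : Fin r // ¬ (k : ℕ) < n} => -b (Sum.inr k.1)) ≠ 0 := by
      intro h
      exact hb fun k hk => ⟨h0 k hk, neg_eq_zero.1 (congrFun h ⟨k, hk⟩)⟩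
    refine Finset.sum_eq_zero fun y _ => ?_
    have h1 : ∀ h : Hi p r n, algebraMap ℂ R (ch p (-pdot b ((eLH n).symm (y, h)))) *
        kr n A ((eLH n).symm (y, h) + pI b) ((eLH n).symm (y, h)) =
        algebraMap ℂ R (ch p (∑ k, h k * -b (Sum.inr k.1))) *
          (algebraMap ℂ R (ch p (-pdot b ((eLH n).symm (y, 0)))) *
            A (y + (eLH n (pI b)).1) y) := by
      intro h
      have hd : -pdot b ((eLH n).symm (y, h)) =
          (∑ k, h k * -b (Sum.inr k.1)) + -pdot b ((eLH n).symm (y, 0)) := by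
        rw [pdot_symm n b y h, neg_add, add_comm]
        simp only [mul_neg, Finset.sum_neg_distrib]
      have hsnd : (eLH n ((eLH n).symm (y, h) + pI b)).2 = h := by
        rw [eLH_add, Equiv.apply_symm_apply]
        funext k
        show h k + b (Sum.inl k.1) = h k
        rw [h0 k.1 k.2, add_zero]
      rw [kr, Equiv.apply_symm_apply, if_pos hsnd, hd, AddChar.map_add_eq_mul, map_mul,
        eLH_add, Equiv.apply_symm_apply]
      simp [mul_assoc]
    rw [Finset.sum_congr rfl fun h _ => h1 h, ← Finset.sum_mul, ← map_sum, sum_ch, if_neg hb',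
      map_zero, zero_mul]
  · push Not at h0
    obtain ⟨k, hk', hbk⟩ := h0
    have hk : ¬ (k : ℕ) < n := by omega
    refine Finset.sum_eq_zero fun y _ => Finset.sum_eq_zero fun h _ => ?_
    rw [kr, if_neg, mul_zero]
    intro heq
    have := congrFun heq ⟨k, hk⟩
    simp [eLH_add] at this
    exact hbk this

end

end Vale.Agent.P199.K.Start
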